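import Vale.Agent.P287Q.G.LG.Cmb
import Vale.Agent.P287Q.G.Vir.RD
import Vale.Agent.P269.Gen.Act
import Vale.Agent.P269.Holo.Set

/-! The families of projective bundles: elementary properties. -/

set_option linter.unusedSectionVars false

namespace Vale.Agent.P269.LG

open Set Function Topology Filter Cv B

variable {R J K σ S Λ ν ν' κ : Type} [Fintype R] [Fintype J] [Fintype K] [Fintype σ] [Fintype S]
  [Fintype Λ] [Fintype ν] [Fintype ν'] [Fintype κ] {P : PB R J K σ}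

section fam

variable {wt : σ → S → ℤ} {wl : Λ → S → ℤ} {B : Set (Λ → ℂ)} {Z : Set σ}

theorem PB.fib_ren (l : Λ → ℂ) (k : K) :
    ((P.fam wt wl B Z).fib l).F k = MvPolynomial.rename .inl ((P.F.fib Empty.elim).F k) := by
  change MvPolynomial.map _ (MvPolynomial.rename _ (MvPolynomial.map _ _)) =
    MvPolynomial.rename _ (MvPolynomial.map _ _)
  rw [MvPolynomial.map_rename, MvPolynomial.map_map]
  refine congrArg (fun f => MvPolynomial.rename Sum.inl (MvPolynomial.map f (P.F.G k))) ?_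
  exact RingHom.ext fun p => (MvPolynomial.eval_rename _ _ p).trans
    (congrArg (fun f => MvPolynomial.eval f p) (Subsingleton.elim _ _))

theorem PB.eqn (z : (Λ → ℂ) × (J ⊕ σ → ℂ)) (k : K) :
    (P.fam wt wl B Z).eqn z k = P.F.eqn (Empty.elim, fun j => z.2 (.inl j)) k := by
  rw [Fam.eqn, PB.fib_ren, MvPolynomial.eval_rename]
  rfl

theorem PB.mem_cone (hB : P.F.B = univ) (hA : P.F.Abs) {z : (Λ → ℂ) × (J ⊕ σ → ℂ)} :
    z ∈ (P.fam wt wl B Z).cone ↔ z.1 ∈ B ∧ (Empty.elim, fun j => z.2 (.inl j)) ∈ P.F.cone ∧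
      (∃ i, z.2 (.inr i) ≠ 0) ∧ ∀ i ∈ Z, z.2 (.inr i) = 0 := by
  simp only [Fam.mem_cone, PB.eqn, Fam.bs, hB, hA.2, mem_ofPred_eq, mem_univ, true_and,
    Sum.forall, Sum.elim_inl, Sum.elim_inr]
  exact ⟨fun ⟨⟨a, b, c⟩, ⟨d, e⟩, f⟩ => ⟨a, ⟨b, d, f⟩, e, c⟩,
    fun ⟨a, ⟨b, d, f⟩, e, c⟩ => ⟨⟨a, b, c⟩, ⟨d, e⟩, f⟩⟩

theorem PB.jac_inl (z : (Λ → ℂ) × (J ⊕ σ → ℂ)) (k : K) (j : J) :
    (P.fam wt wl B Z).jac z k (.inl j) = P.F.jac (Empty.elim, fun j => z.2 (.inl j)) k j := by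
  classical
  rw [Fam.jac, PB.fib_ren, MvPolynomial.pderiv_rename Sum.inl_injective, MvPolynomial.eval_rename]
  rfl

theorem PB.jac_inr (z : (Λ → ℂ) × (J ⊕ σ → ℂ)) (k : K) (i : σ) :
    (P.fam wt wl B Z).jac z k (.inr i) = 0 := by
  classical
  rw [Fam.jac, PB.fib_ren, MvPolynomial.pderiv_eq_zero_of_notMem_vars, map_zero]
  intro h
  obtain ⟨j, -, e⟩ := Finset.mem_image.1 (MvPolynomial.vars_rename _ _ h)
  exact Sum.inl_ne_inr e

theorem PB.fib_F (l : Λ → ℂ) (k : K) :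
    ((P.fam wt wl B Z).fib l).F k = ((P.E Z).fib Empty.elim).F k :=
  (PB.fib_ren l k).trans (PB.fib_ren _ k).symm

theorem PB.fib_eq (l : Λ → ℂ) : (P.fam wt wl B Z).fib l = (P.E Z).fib Empty.elim :=
  congrArg (fun F => (⟨P.w, ((P.E Z).fib Empty.elim).U, F, P.θ⟩ : Tgt (Option R) (J ⊕ σ) K))
    (funext (PB.fib_F l))

open Classical in
theorem PB.supp_img (k : K) : ((P.fam wt wl B Z).G k).support =
    (P.F.G k).support.image (Finsupp.mapDomain .inl) := by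
  change (MvPolynomial.rename _ (MvPolynomial.map _ _)).support = _
  rw [MvPolynomial.support_rename_of_injective Sum.inl_injective,
    MvPolynomial.support_map_of_injective _ (MvPolynomial.rename_injective _ fun a => a.elim)]

theorem PB.exists_supp {k : K} {α} (h : α ∈ ((P.fam wt wl B Z).G k).support) :
    ∃ β : J →₀ ℕ, β.mapDomain .inl = α := by
  classical
  exact (Finset.mem_image.1 ((PB.supp_img k).le h)).imp fun _ a => a.2

theorem PB.supp_G (k : K) : ((P.fam wt wl B Z).G k).support = ((P.E ∅).G k).support :=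
  (PB.supp_img k).trans (PB.supp_img k).symm

theorem PB.tdeg_G (k : K) : ((P.fam wt wl B Z).G k).totalDegree = ((P.E ∅).G k).totalDegree := by
  rw [MvPolynomial.totalDegree, PB.supp_G, MvPolynomial.totalDegree]

theorem PB.abs (hA : P.F.Abs) : (P.fam wt wl B Z).Abs :=
  ⟨fun j hj => match j, hj with
    | .inl _, h => hA.1 h
    | .inr _, h => not_not.1 h, rfl⟩

theorem PB.cont : Continuous fun z : (Λ → ℂ) × (J ⊕ σ → ℂ) =>
    ((Empty.elim, fun j => z.2 (.inl j)) : (Empty → ℂ) × (J → ℂ)) := by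
  fun_prop

theorem PB.regAt {K₁ : Set K} (hB : P.F.B = univ) (hA : P.F.Abs) {z : (Λ → ℂ) × (J ⊕ σ → ℂ)}
    (h : P.F.RegAt K₁ (Empty.elim, fun j => z.2 (.inl j))) : (P.fam wt wl B Z).RegAt K₁ z := by
  refine ⟨fun c => ?_, ?_⟩
  · obtain ⟨η, a, b⟩ := h.ind c
    refine ⟨Sum.elim η 0, fun j hj => match j, hj with
      | .inl j, h => a j h
      | .inr _, _ => rfl, fun k hk => ?_⟩
    simp only [Fintype.sum_sum_type, PB.jac_inl, PB.jac_inr, Sum.elim_inl, zero_mul,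
      Finset.sum_const_zero, add_zero, b k hk]
  · refine ((PB.cont.tendsto z).eventually h.cut).mono fun z' a b c => ?_
    simp only [PB.eqn] at c ⊢
    exact a ⟨hB ▸ trivial, hA.2 ▸ trivial, fun j hj => b.2.2 (.inl j) hj⟩ c

theorem PB.mem_vert {z : (Λ → ℂ) × (J ⊕ σ → ℂ)} {η} : η ∈ (P.fam wt wl B Z).vert z ↔
    (∀ i ∈ Z, η (.inr i) = 0) ∧
      (fun j => η (.inl j)) ∈ P.F.vert (Empty.elim, fun j => z.2 (.inl j)) := by
  simp only [RP.mem_vert, Fintype.sum_sum_type, PB.jac_inl, PB.jac_inr, zero_mul,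
    Finset.sum_const_zero, add_zero, Sum.forall, mem_ofPred_eq, Sum.elim_inl, Sum.elim_inr, not_not]
  tauto

theorem PB.reg {K₀ : RD R} (hB : P.F.B = univ) (hA : P.F.Abs) (h : P.F.Reg K₀) :
    (P.fam wt wl B Z).Reg (P.rd K₀ Z) := by
  classical
  have c := fun z hz => ((PB.mem_cone (wt := wt) (wl := wl) (B := B) (Z := Z) hB hA (z := z)).1
    hz).2.1
  refine h.free (fun r o => if o = some r then 1 else 0) (fun _ => Empty.elim)
    (fun y j => y (.inl j)) .inl (fun i : ↥Zᶜ => .inr i.1)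
    (fun z hz => (h.loc _ (c z hz)).imp fun _ a => PB.regAt hB hA a)
    (fun y => analyticAt_pi_iff.2 fun j => (ContinuousLinearMap.proj (R := ℂ)
      (φ := fun _ : J ⊕ σ => ℂ) (.inl j)).analyticAt y)
    (fun j o => by cases o <;> simp [PB.w]) (fun _ _ _ => rfl) Sum.inl_injective
    (fun _ _ e => Subtype.ext (Sum.inr_injective e)) (fun j _ => by simp) c
    (fun z _ η => PB.mem_vert.trans (and_congr ⟨fun a j b d => ?_, fun a i b => ?_⟩
      ⟨fun a => ⟨_, a, fun _ _ => rfl⟩, fun ⟨η₀, a, b⟩ => ?_⟩)) ?_ fun o => ?_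
  · rcases j with j | i
    exacts [(b ⟨j, rfl⟩).elim, a i (by_contra fun f => d ⟨⟨i, f⟩, rfl⟩)]
  · exact a _ (by simp) fun ⟨l, e⟩ => l.2 (Sum.inr_injective e ▸ b)
  · rwa [funext fun j => b j (by simp)]
  · rw [PB.rd, ← Nat.card_coe_set_eq, Nat.card_eq_fintype_card]
  · simp only [PB.rd]
    rw [Finset.sum_subtype (p := (· ∈ Zᶜ)) (F := inferInstance) _ (by simp)]
    cases o <;> simp

theorem PB.rd_insert {K₀ : RD R} {T : Set σ} {l : σ} (hl : l ∉ T) (hZ : Z = insert l T) :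
    P.rd K₀ T = (P.rd K₀ Z).add ⟨1, P.w (.inr l)⟩ := by
  classical
  have a : Tᶜ = insert l Zᶜ := Set.ext fun i => by by_cases c : i = l <;> simp [hZ, c, hl]
  refine congrArg₂ RD.mk ?_ (funext fun o => ?_)
  · rw [a, Set.ncard_insert_of_notMem (by simp [hZ])]
    rfl
  · rw [show Finset.univ.filter (· ∉ T) = insert l (Finset.univ.filter (· ∉ Z)) from
      Finset.ext fun i => by by_cases c : i = l <;> simp [hZ, c, hl],
      Finset.sum_insert (by simp [hZ]), add_comm (P.w _ o), ← add_assoc]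
    rfl

theorem PB.cone_iff {z : (Λ → ℂ) × (J ⊕ σ → ℂ)} : z ∈ (P.fam wt wl B Z).cone ↔
    z.1 ∈ B ∧ (Empty.elim, z.2) ∈ (P.E ∅).cone ∧ ∀ i ∈ Z, z.2 (.inr i) = 0 := by
  simp only [Fam.mem_cone, PB.eqn, Fam.bs, mem_ofPred_eq, mem_univ, true_and,
    Sum.forall, Sum.elim_inl, Sum.elim_inr, mem_empty_iff_false, false_imp_iff, implies_true,
    and_true]
  exact ⟨fun ⟨⟨a, b, c⟩, d, f⟩ => ⟨a, ⟨b, d, f⟩, c⟩, fun ⟨a, ⟨b, d, f⟩, c⟩ => ⟨⟨a, b, c⟩, d, f⟩⟩

theorem PB.act_one (t : Option R → ℂ) (z : (Λ → ℂ) × (J ⊕ σ → ℂ)) :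
    (P.fam wt wl B Z).actT (1, t) z = (z.1, ((P.E ∅).actT (1, t) (Empty.elim, z.2)).2) :=
  Prod.ext (Wt.actL_one _ _) (funext fun j => by
    simp only [Wt.actT, Pi.one_apply, one_zpow, Finset.prod_const_one])

variable [DecidableEq R] [DecidableEq σ] {K₀ : RD R} {k D : ℕ}

theorem PB.ample {θ₀ N} (h : (P.E ∅).Ample θ₀ N) : (P.fam wt wl B Z).Ample θ₀ N :=
  ⟨h.1, h.2.1, fun c hc _ hz => h.2.2 c hc _ (PB.cone_iff.1 hz).2.1⟩

theorem PB.inv_fam (h : P.F.Inv) (hE : (P.E ∅).Inv) (h1 : IsLocallyClosed B)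
    (h2 : ∀ τ, IsUnit τ → ∀ l ∈ B, (P.fam wt wl B Z).actL τ l ∈ B) : (P.fam wt wl B Z).Inv where
  hom k α hα := hE.hom k α ((PB.supp_G k).le hα)
  homS k α hα β hβ i := by
    classical
    obtain ⟨α, rfl⟩ := PB.exists_supp hα
    rw [MvPolynomial.coeff_rename_mapDomain _ Sum.inl_injective, MvPolynomial.coeff_map] at hβ
    obtain ⟨β, -, rfl⟩ := Finset.mem_image.1
      ((MvPolynomial.support_rename_of_injective fun a : Empty => a.elim).le hβ)
    simp [Subsingleton.elim β 0, Finsupp.mapDomain_of_notMem_range]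
  openU := hE.openU.preimage (f := fun z : (Λ → ℂ) × (J ⊕ σ → ℂ) => (Empty.elim, z.2))
    (by fun_prop)
  invU t ht z hz := by
    have a := isUnit_pi_iff.1 (Prod.isUnit_iff.1 ht).1
    obtain ⟨b, i, c⟩ := hE.invU (1, t.2) (Prod.isUnit_iff.2 ⟨isUnit_one, (Prod.isUnit_iff.1 ht).2⟩)
      (Empty.elim, z.2) hz
    refine ⟨mem_of_eq_of_mem (congrArg (Prod.mk _) (funext fun j => ?_)) b, i, ?_⟩
    · simp [Wt.actT]
    · simp only [Wt.actT, Pi.one_apply, one_zpow, Finset.prod_const_one, one_mul] at c ⊢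
      rw [mul_assoc]
      exact mul_ne_zero (prod_zpow_ne a _) c
  closedE := isClosed_univ
  invE _ _ _ _ := trivial
  baseE _ _ _ _ _ := trivial
  zer_base := disjoint_left.2 fun j hj => match j, hj with
    | .inl _, a => disjoint_left.1 h.zer_base a
    | .inr _, a => fun b => b a
  lcB := h1
  invB := h2

theorem PB.Ok.good_fam (h : P.Ok K₀ k D) (hZ : Z ≠ univ) (h1 : IsLocallyClosed B)
    (h2 : ∀ τ, IsUnit τ → ∀ l ∈ B, (P.fam wt wl B Z).actL τ l ∈ B)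
    (h3 : ∀ τ, IsUnit τ → ∀ l ∈ B, (P.fam wt wl B Z).actL τ l = l → τ = 1)
    (h4 : ∀ (τ : ℕ → S → ℂ) (l : ℕ → Λ → ℂ) l₀ l₁, (∀ n, IsUnit (τ n)) → (∀ n, l n ∈ B) →
      l₀ ∈ B → l₁ ∈ B → Tendsto l atTop (𝓝 l₀) →
      Tendsto (fun n => (P.fam wt wl B Z).actL (τ n) (l n)) atTop (𝓝 l₁) →
      ∃ C : ℝ, ∀ n i, ‖τ n i‖ ≤ C ∧ ‖(τ n i)⁻¹‖ ≤ C) : (P.fam wt wl B Z).Good where
  toInv := PB.inv_fam h.good.toInv h.goodE.toInv h1 h2
  deg k := (PB.tdeg_G k).trans_ne (h.goodE.deg k)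
  freeB := h3
  properB := h4
  free t ht z hz e := h.goodE.free t ht _ (PB.cone_iff.1 hz).2.1
    (Prod.ext (Subsingleton.elim _ _) (congrArg Prod.snd ((PB.act_one t z).symm.trans e) :))
  proper t z z' ht hz hz' y hy e := h.goodE.proper t _ _ ht (PB.cone_iff.1 hz).2.1
    (PB.cone_iff.1 hz').2.1 y hy fun j hj =>
      (e j hj).congr fun n => congrFun (congrArg Prod.snd (PB.act_one (t n) (z.1, y n))) j
  cpt B' hB hc := by
    obtain ⟨C, a, b, c⟩ := h.goodE.cpt univ Subset.rfl (subsingleton_univ.isCompact)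
    refine ⟨B' ×ˢ (Prod.snd '' C ∩ {y | ∀ i ∈ Z, y (.inr i) = 0}), ?_, hc.prod
      ((b.image continuous_snd).inter_right ?_), fun z hz e => ?_⟩
    · rintro z ⟨d, ⟨z', e, f⟩, g⟩
      exact PB.cone_iff.2 ⟨hB d, mem_of_eq_of_mem (Prod.ext (Subsingleton.elim _ _) f.symm) (a e), g⟩
    · simp only [ofPred_forall]
      exact isClosed_iInter fun i => isClosed_iInter fun _ =>
        isClosed_eq (continuous_apply _) continuous_const
    · obtain ⟨t, d, f⟩ := c _ (PB.cone_iff.1 hz).2.1 trivial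
      refine ⟨t, d, ?_⟩
      rw [PB.act_one]
      exact ⟨e, mem_image_of_mem _ f, fun i hi => by
        simp only [Wt.actT, (PB.cone_iff.1 hz).2.2 i hi, mul_zero]⟩
  ample := let ⟨_, _, a⟩ := h.goodE.ample; ⟨_, _, PB.ample a⟩
  mov_ne := let ⟨i, a⟩ := (ne_univ_iff_exists_notMem Z).1 hZ; ⟨.inr i, a⟩

theorem PB.Ok.good_E (h : P.Ok K₀ k D) (hZ : Z ≠ univ) : (P.E Z).Good :=
  h.good_fam hZ isClosed_univ.isLocallyClosed (fun _ _ _ _ => trivial)
    (fun _ _ _ _ _ => Subsingleton.elim _ _) fun _ _ _ _ _ _ _ _ _ _ => ⟨0, fun _ i => i.elim⟩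

theorem isOpen_PMs (M : ℕ) : IsOpen (PMs σ M) := by
  simp only [PMs, ofPred_forall, ofPred_exists]
  exact isOpen_iInter_of_finite fun i => isOpen_iUnion fun a =>
    isOpen_ne_fun (continuous_apply _) continuous_const

theorem PB.actL_EM {M : ℕ} (τ : σ → ℂ) (l : σ × Fin (M + 1) → ℂ) (a : σ × Fin (M + 1)) :
    (P.EM Z M).actL τ l a = τ a.1 * l a := by
  refine congrArg (· * l a) ((Finset.prod_eq_single a.1 (fun i _ e => ?_) (by simp)).trans ?_)
  · simp [e]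
  · simp

theorem PB.Ok.good_EM (h : P.Ok K₀ k D) (hZ : Z ≠ univ) (M : ℕ) : (P.EM Z M).Good := by
  refine h.good_fam hZ (isOpen_PMs M).isLocallyClosed (fun τ a l b i => (b i).imp fun c d => ?_)
    (fun τ _ l b e => funext fun i => ?_) fun τ l l₀ l₁ a _ b c d e => ?_
  · exact (PB.actL_EM τ l _).trans_ne (mul_ne_zero (isUnit_pi_iff.1 a i) d)
  · obtain ⟨c, d⟩ := b i
    exact (mul_eq_right₀ d).1 ((PB.actL_EM τ l _).symm.trans (congrFun e (i, c)))
  · have d' := tendsto_pi_nhds.1 d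
    have e' : ∀ x, Tendsto (fun n => τ n x.1 * l n x) atTop (𝓝 (l₁ x)) := fun x =>
      (tendsto_pi_nhds.1 e x).congr fun n => PB.actL_EM _ _ _
    choose u hu using b
    choose v hv using c
    have h1 : Tendsto τ atTop (𝓝 fun i => l₁ (i, u i) / l₀ (i, u i)) := tendsto_pi_nhds.2 fun i =>
      ((e' _).div (d' _) (hu i)).congr' (((d' _).eventually_ne (hu i)).mono fun n f =>
        mul_div_cancel_right₀ _ f)
    have h2 : Tendsto (fun n i => (τ n i)⁻¹) atTop (𝓝 fun i => l₀ (i, v i) / l₁ (i, v i)) :=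
      tendsto_pi_nhds.2 fun i => ((d' _).div (e' _) (hv i)).congr'
        (((e' _).eventually_ne (hv i)).mono fun n f => div_mul_cancel_right₀ (right_ne_zero_of_mul f) _)
    obtain ⟨C, hC⟩ := h1.norm.bddAbove_range
    obtain ⟨C', hC'⟩ := h2.norm.bddAbove_range
    exact ⟨max C C', fun n i => ⟨((norm_le_pi_norm _ i).trans (hC ⟨n, rfl⟩)).trans (le_max_left _ _),
      ((norm_le_pi_norm (fun i => (τ n i)⁻¹) i).trans (hC' ⟨n, rfl⟩)).trans (le_max_right _ _)⟩⟩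

theorem PB.Ok.big_fam (h : P.Ok K₀ k D) : (P.fam wt wl B Z).Big k :=
  let ⟨_, _, a, b⟩ := h.big; ⟨_, _, PB.ample a, b⟩

theorem PB.Ok.bigD_fam (h : P.Ok K₀ k D) : (P.fam wt wl B Z).BigD k D := h.bigD

theorem sm_of_open {F : Fam S Λ R J K} (h : IsOpen F.B) : F.Sm (Fintype.card Λ) := fun l =>
  Module.finrank_fintype_fun_eq_card ℂ (η := Λ) ▸ (Holo.IsMfd.of_lh (Holo.lh_of_range_mem
    IsEmbedding.subtypeVal (Subtype.range_coe.symm ▸ h.mem_nhds l.2))).1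

theorem PB.sm_E : (P.E Z).Sm 0 := Fintype.card_empty ▸ sm_of_open isOpen_univ

theorem PB.sm_EM (M : ℕ) : (P.EM Z M).Sm (Fintype.card σ * (M + 1)) := by
  simpa only [Fintype.card_prod, Fintype.card_fin] using
    sm_of_open (F := P.EM Z M) (isOpen_PMs M)

end fam

section am

variable {m m' : AM Λ (Option R) (J ⊕ σ) ν κ}

theorem bz_inl (j : J) : bz m.L (P.w (.inl j)) = bz (bas m).L (P.F.w j) := by
  simp [bz, PB.w]

theorem bz_inr (i : σ) : bz m.L (P.w (.inr i)) = m.L none * bz (bas m).L (P.wL i) := by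
  simp [bz, PB.w]

end am

end Vale.Agent.P269.LG
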