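import Vale.Agent.P269.LG.BorL
import Vale.Agent.P269.LG.KunA
import Vale.Agent.P287Q.G.LG.Fam
import Vale.Agent.P287Q.G.Prj.Tgt
import Vale.Agent.P269.Bas.Cmp

set_option linter.unusedSectionVars false
set_option linter.style.haveILetI false

/-!
# The parameter space of the Borel construction is the classifying space
-/

namespace Vale.Agent.P269.LG

open Set Function Topology Filter Module Vale.Agent.P291Z Vale.Agent.P269.Ch Vale.Agent.P269.Orb
  Vale.Agent.P269.Loc

variable {σ R J : Type} [Fintype σ] [Fintype R] [Fintype J] {M : ℕ}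
  {W : Wt σ (σ × Fin (M + 1)) R J}

namespace KunA

theorem ev_fund_eq : ev ptH.fund 1 = 1 := by
  obtain ⟨φ, h1, -⟩ := ptH.holOrb.slice ()
  have h2 := ptH.holOrb.val ptH.isQuo h1 1 1 cocycle_one (fun _ _ => rfl) (by
    have := locCo_tau (n := 0)
    rw [tau_zero] at this
    rwa [map_one])
  rwa [stab_eq_one fun _ _ => rfl, Nat.cast_one, one_mul] at h2

theorem intg_fundB (M : ℕ) (f : Loc.R σ) :
    intg ((ptT σ).fundB M) (lam M f) = MvPolynomial.coeff (topM σ M) f := by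
  obtain ⟨pr, -, h2, h3⟩ := (ptT σ).toTS.exists_pr fun _ _ => rfl
  have : CompactSpace ptH.X := inferInstanceAs (CompactSpace Unit)
  have h4 := congrArg (ev · 1) (h3 _ _ (ptT σ).isBM_fund ptH.ori.top M f)
  simp only [ev_push (h2 M) _ one_mem_Zc, map_one, smul_ev, (ptT σ).res_base] at h4
  exact (intg_eq _ _).trans (h4.trans (by rw [ev_fund_eq, mul_one]))

end KunA

theorem mem_PMs (p : PM σ M) : uncurry p.val ∈ PMs σ M := fun i => ne_iff.1 (p.ne i)

theorem exists_pm {l : σ × Fin (M + 1) → ℂ} (h : l ∈ PMs σ M) : ∃ p : PM σ M, uncurry p.val = l :=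
  ⟨⟨curry l, fun i => ne_iff.2 (h i)⟩, rfl⟩

variable (hW : ∀ τ l a, W.actL τ l a = τ a.1 * l a)
include hW

theorem fp_PMs : Mono.FP W.actL (PMs σ M) := by
  classical
  refine Tq.fp_of (fun τ a l b i => (b i).imp fun c d =>
    (hW τ l _).trans_ne (mul_ne_zero (isUnit_pi_iff.1 a i) d)) (isOpen_PMs M).isLocallyClosed
    (fun τ _ l b e => funext fun i => ?_) fun l τ l₀ l₁ _ _ b _ d e => ?_
  · obtain ⟨c, d⟩ := b i
    exact (mul_eq_right₀ d).1 ((hW τ l _).symm.trans (congrFun e (i, c)))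
  · have d' := tendsto_pi_nhds.1 d
    choose u hu using b
    have h1 : Tendsto τ atTop (𝓝 fun i => l₁ (i, u i) / l₀ (i, u i)) := tendsto_pi_nhds.2 fun i =>
      ((tendsto_pi_nhds.1 e _).div (d' _) (hu i)).congr' (((d' _).eventually_ne (hu i)).mono
        fun n f => (congrArg (· / _) (hW _ _ _)).trans (mul_div_cancel_right₀ _ f))
    exact not_tendsto_atTop_of_tendsto_nhds h1.norm

theorem dim_PMs : Tq.Dim W.actL (PMs σ M) (Fintype.card σ * M) := fun x hx => by
  classical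
  have := (Holo.IsMfd.of_lh ((isOpen_PMs M).isOpenEmbedding_subtypeVal.lh ⟨x, hx⟩)).1
  rw [finrank_fintype_fun_eq_card, Fintype.card_prod, Fintype.card_fin, mul_add_one,
    add_comm (_ * M)] at this
  exact ⟨hx, by rwa [finrank_fintype_fun_eq_card]⟩

/-- **comparison of the parameter space with the classifying space** -/
theorem exists_eB [Nice (W.Bs (PMs σ M))] : ∃ eB : C(Bs σ M, W.Bs (PMs σ M)), IsHomeomorph eB ∧
    (∀ p, eB (bp p) = Quo.mk W.actL ⟨uncurry p.val, mem_PMs p⟩) ∧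
    (∀ i, H.map eB (Tq.lcq W.actL (PMs σ M) fun τ => τ i) = lam M (MvPolynomial.X i)) ∧
    ∀ f, intg (res eB (Tq.fnd W.actL (PMs σ M))) (lam M f) = MvPolynomial.coeff (topM σ M) f := by
  haveI := fp_PMs hW
  have hd := dim_PMs hW
  let U : (σ → ℂ)ˣ ≃ₜ* Tor σ := ContinuousMulEquiv.piUnits
  let c : (σ → Fin (M + 1) → ℂ) →L[ℂ] σ × Fin (M + 1) → ℂ := .pi fun a =>
    .comp (.proj a.2) (ContinuousLinearMap.proj (φ := fun _ : σ => Fin (M + 1) → ℂ) a.1)
  let m : Mor ((TS.triv σ pt).B M) (Tq.sp W.actL (PMs σ M)) :=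
    ⟨U.symm.toMulEquiv.toMonoidHom.comp (MonoidHom.snd PUnit (Tor σ)),
      fun t => Holo.Sp.of W.actL (uncurry t.2.val) (mem_PMs t.2),
      U.symm.continuous.comp continuous_snd,
      Holo.Sp.isEmbedding_val.continuous_iff.2
        (c.continuous.comp (PM.continuous_val.comp continuous_snd)),
      fun g t => Holo.Sp.ext (funext fun a => (hW (U.symm g.2).val (uncurry t.2.val) a).symm)⟩
  have e := Holo.etale ((KunA.ptT σ).bo M) (hd.ho W.lin_actL) (zero_add _) m
    (fun t => ⟨fun v => c v.2, (c.analyticAt _).comp analyticAt_snd, .of_forall fun _ => rfl⟩)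
    (ContinuousLinearMap.snd ℂ (Fin 0 → ℂ) (σ → ℂ)) (fun x => Units.ext (funext fun i => by
      letI := NormedAlgebra.restrictScalars ℚ ℂ ℂ
      exact (congrFun Complex.exp_eq_exp_ℂ _).trans (Pi.coe_exp x.2 i).symm))
    Prod.snd_surjective (fun g => ⟨(1, U g), U.symm_apply_apply g⟩) fun t t' e =>
      ⟨1, ⟨map_one _, (one_smul _ _).trans (Prod.ext rfl (PM.ext (uncurry_injective
        (congrArg (Holo.Sp.val (act := W.actL)) e))))⟩,
        fun g hg => Prod.ext rfl (U.symm.injective (hg.1.trans (map_one _).symm))⟩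
  refine ⟨m.map, ⟨m.map.continuous, e.1.isOpenMap, e.1.injective, fun z => ?_⟩,
    fun p => m.map_π _, fun i => ?_, fun f => ?_⟩
  · obtain ⟨⟨l, hl⟩, rfl⟩ := Tq.mk_surj z
    obtain ⟨p, rfl⟩ := exists_pm hl
    exact ⟨bp p, m.map_π _⟩
  · have hc : Tq.Hm fun τ : σ → ℂ => τ i :=
      ⟨rfl, fun _ _ _ _ => rfl, fun _ _ => (continuous_apply i).continuousAt⟩
    rw [← Tq.lce_val hc, lam, TS.e_apply, TS.ev_X]
    exact congrArg Subtype.val ((map_c1 m hc.ρ).trans
      (congrArg c1 (ContinuousMonoidHom.ext fun _ => Units.ext rfl)))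
  · rw [hd.fnd_eq]
    exact (congrArg (intg · _) e.2.2.2.1).trans (KunA.intg_fundB M f)

end Vale.Agent.P269.LG
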