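import Vale.Agent.P287Q.G.LG.Geo
import Vale.Agent.P287Q.G.Glu.PrBun

/-! The space of decomposed maps: the interface. -/

set_option linter.unusedSectionVars false

namespace Vale.Agent.P269

open Set Function Topology Vale.Agent.P291Z Vale.Agent.P269.Ch Vale.Agent.P269.Orb
  Vale.Agent.P269.Loc LG

variable {S Λ R J K ν ν₁ ν₂ : Type} [Fintype S] [Fintype Λ] [Fintype R] [Fintype J] [Fintype K]
  [Fintype ν] [Fintype ν₁] [Fintype ν₂] [DecidableEq R]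

namespace Fam

variable (F : Fam S Λ R J K) (ν) (k D : ℕ) (g g₁ g₂ : ℤ) (d d₁ d₂ : R → ℤ)

/-- the moduli space of the absolute theory -/
abbrev M0 : Type := F.Mod (Fin 0) k D g d (0 : ν → J → ℕ)

/-- the parameter of a point -/
noncomputable abbrev pM0 : C(F.M0 ν k D g d, F.Bs F.B) := Ch.parM F _

variable {ν k D g g₁ g₂ d d₁ d₂}

/-- `Y` is the space of maps with a decomposition of the domain -/
structure Dec (φ : ν₁ ⊕ ν₂ ≃ ν) {Y : Type} [TopologicalSpace Y] [P291Z.Nice Y]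
    (Φ : C(Y, F.M0 ν₁ k D g₁ d₁ × F.M0 ν₂ k D g₂ d₂)) (Ψ : C(Y, F.M0 ν k D g d)) : Prop where
  emb : IsClosedEmbedding Φ
  rng : range Φ = {p | F.pM0 _ _ _ _ _ p.1 = F.pM0 _ _ _ _ _ p.2}
  up : ∀ x m m₁ m₂ j₁ j₂, F.At x m → AM.Split m m₁ m₂ φ e00 j₁ j₂ → m₁.Typ g₁ d₁ →
    ∃ y, Ψ y = x ∧ F.At (Φ y).1 m₁ ∧ F.At (Φ y).2 m₂
  down : ∀ y m, F.At (Ψ y) m → ∃ m₁ m₂ j₁ j₂, AM.Split m m₁ m₂ φ e00 j₁ j₂ ∧
    F.At (Φ y).1 m₁ ∧ F.At (Φ y).2 m₂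
  ψ₁ : ∀ n, H.map Ψ (hcls (psiF (.inl (φ (.inl n))))) =
    H.map (ContinuousMap.fst.comp Φ) (hcls (psiF (.inl n)))
  ψ₂ : ∀ n, H.map Ψ (hcls (psiF (.inl (φ (.inr n))))) =
    H.map (ContinuousMap.snd.comp Φ) (hcls (psiF (.inl n)))
  deg : ∀ [Holo.IsAct F.actL F.B] [P291Z.Nice (F.Bs F.B)] [P291Z.Nice (F.M0 ν k D g d)]
    [P291Z.Nice (F.M0 ν₁ k D g₁ d₁)] [P291Z.Nice (F.M0 ν₂ k D g₂ d₂)] (b : ℕ)
    (Δ : Coch (F.Bs F.B × F.Bs F.B)), BsOk F.actL F.B b → IsDB F.actL F.B b Δ →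
    ∀ {A A' : Type} [TopologicalSpace A] [TopologicalSpace A'] [P291Z.Nice A] [P291Z.Nice A']
      [CompactSpace A'] (i : A → F.M0 ν k D g d) (i' : A' → Y) (f : A' → A), IsClosedEmbedding i →
      IsClosedEmbedding i' → (∀ a, Ψ (i' a) = i (f a)) → Isol (range i') (Ψ ⁻¹' range i) →
      ∃ c : A → ℕ, IsLocallyConstant c ∧ (∀ a m, F.At (i a) m → c a = {U : Set m.X | ∃ m₁ m₂ j₁ j₂,
        AM.Split m m₁ m₂ φ e00 j₁ j₂ ∧ range j₁ = U ∧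
          ∃ a', F.At (Φ (i' a')).1 m₁ ∧ F.At (Φ (i' a')).2 m₂}.ncard) ∧
        ∀ u (n : ℤ), LCo (range i) u → IsDeg (2 * n) u →
          push f (lgys i' (pull Ψ u) (gys Φ (pull (Prod.map (F.pM0 _ _ _ _ _) (F.pM0 _ _ _ _ _)) Δ)
            (cross Prod.fst Prod.snd (F.vir (Fin 0) k D g₁ d₁ 0) (F.vir (Fin 0) k D g₂ d₂ 0)))) =
          cap (hcls (fn fun a => (c a : ℂ))) (lgys i u (F.vir (Fin 0) k D g d 0))

end Fam

end Vale.Agent.P269
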