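import Vale.Agent.P287Q.G.LG.HSC
import Vale.Agent.P287Q.G.LG.HSD
import Vale.Agent.P287Q.G.Glu.PrPsi
import Vale.Agent.P287Q.G.Glu.PrPt
import Vale.Agent.P287Q.G.Glu.FpD

/-! The space of decomposed maps exists. -/

set_option linter.unusedSectionVars false
set_option linter.style.haveILetI false

namespace Vale.Agent.P269.Fam

open Set Function Topology Vale.Agent.P291Z Vale.Agent.P269.Ch Vale.Agent.P269.Orb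
  Vale.Agent.P269.Loc LG

variable {S Λ R J K ν ν₁ ν₂ : Type} [Fintype S] [Fintype Λ] [Fintype R] [Fintype J] [Fintype K]
  [Fintype ν] [Fintype ν₁] [Fintype ν₂] [DecidableEq R] {F : Fam S Λ R J K} {K₀ : RD R}
  {b k D : ℕ} {g g₁ g₂ : ℤ} {d d₁ d₂ : R → ℤ}

theorem exists_dec0 (φ : ν₁ ⊕ ν₂ ≃ ν) (h : F.Good) (r : F.Reg K₀) (m : F.Sm b) (hA : F.Abs)
    (hk : F.Big k) (hD : F.BigD k D) (hg : g₁ + g₂ = g + 1) (hd : d₁ + d₂ = d) :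
    ∃ (Y : Type) (_ : TopologicalSpace Y) (_ : P291Z.Nice Y)
      (Φ : C(Y, F.M0 ν₁ k D g₁ d₁ × F.M0 ν₂ k D g₂ d₂)) (Ψ : C(Y, F.M0 ν k D g d)), F.Dec φ Φ Ψ := by
  let s : Sv ν (Fin 0) ν₁ (Fin 0) ν₂ (Fin 0) := ⟨φ, e00⟩
  obtain ⟨b', c⟩ := h.bsOk m
  obtain ⟨U₁, U₂, N₁, N₂, O, M, n, q, -⟩ := qz0 s h r m hA hk hD c hg hd
  haveI := q.nice₁
  haveI := q.nice₂
  obtain ⟨p₁, p₂⟩ := q.isClosedEmbedding s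
  haveI := P291Z.Nice.of_isEmbedding p₁.isEmbedding p₁.isClosed_range.isLocallyClosed
  have cl := CQ.cls (fun _ z => z.1.1) (q.vd.gz q.std).toOZ (q.vd₁.gz q.ok₁.toStd).toOZ
    (q.vd₂.gz q.ok₂.toStd).toOZ q.mapsL (eqL₁ s F _ _).maps (eqL₂ s F _ _).maps q.qn
  refine ⟨_, _, this, ΦQ s F _ _, (eqM_fstQ q.mapsL).map, p₁, p₂, ?_, Quot.ind fun z => ?_,
    fun n => cl.1 (.inl n), fun n => cl.2.1 (.inl n), ?_⟩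
  · rintro _ m m₁ m₂ j₁ j₂ ⟨x, rfl, a⟩ e t
    obtain ⟨z, hz, f, r₁, r₂⟩ := exists_dec' (s := s) hk hD hg hd x.2.1.1.2.1 a e t
    exact ⟨Quo.mk _ ⟨z, q.mem_LQ hz (mem_of_eq_of_mem f x.2)⟩, congrArg (Quo.mk _) (Subtype.ext f),
      ⟨_, rfl, r₁⟩, _, rfl, r₂⟩
  · rintro m ⟨x, e, a⟩
    obtain ⟨c, hc, f⟩ := mk_eq_iff.1 e
    have u : IsUnit ((c, 1) : Ch.AQ _ (F.nms ν₁ (Fin 0) k D g₁ d₁) (F.nms ν₂ (Fin 0) k D g₂ d₂) ν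
      (Fin 0) S) := AP.isUnit_iff.2 ⟨hc, isUnit_one⟩
    have v := ivt_LQ q.std.inv q.vd₁.inv q.vd₂.inv _ u _ z.2
    obtain ⟨m₁, m₂, j₁, j₂, w, r₁, r₂⟩ := CQ.exists_rep q.lat v.1.1 (f ▸ a)
    have y := congrArg (ΦQ s F _ _) (Quot.sound ⟨_, u, rfl⟩ : Quo.mk _ z = Quo.mk _ ⟨_, v⟩)
    exact ⟨m₁, m₂, j₁, j₂, w, ⟨_, congrArg Prod.fst y, r₁⟩, _, congrArg Prod.snd y, r₂⟩
  · intro _ _ _ _ _ b Δ c hΔ A A' _ _ _ _ _ i i' f hi hi' sq hr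
    obtain ⟨U₁, U₂, N₁, N₂, O, M, n, q, hm⟩ := qz0 s h r m hA hk hD c hg hd
    haveI := q.vd.nice q.std
    obtain ⟨c, c₁, c₂, c₃⟩ := q.eta hm hΔ hi hi' sq hr
    refine ⟨c, c₁, ?_, c₃⟩
    rintro a m ⟨x, e, t⟩
    obtain ⟨B, π, u, v, t⟩ := t.exists_data x.2.1.1.2.1
    rw [← c₂ a x e, ← InjOn.ncard_image (f := preimage π)]
    · refine congrArg ncard (Set.ext fun U => ⟨?_, ?_⟩)
      · rintro ⟨_, ⟨z, ⟨⟨hz, a', w⟩, y⟩, rfl⟩, rfl⟩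
        obtain ⟨m₁, m₂, j₁, j₂, p, p'⟩ := CQ.exists_split hz.1.1 (y ▸ t)
        obtain ⟨r₁, r₂⟩ := CQ.rep q.lat hz.1.1 (y ▸ t) p p'
        exact ⟨m₁, m₂, j₁, j₂, p, p', a', w ▸ ⟨_, rfl, r₁⟩, w ▸ ⟨_, rfl, r₂⟩⟩
      · rintro ⟨m₁, m₂, j₁, j₂, p, rfl, a', w₁, w₂⟩
        obtain ⟨z, hz, y, p', r₁, r₂⟩ := exists_dec (s := s) hk hD hg hd t p w₁.typ
        have hz' := q.mem_LQ hz (mem_of_eq_of_mem y x.2)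
        exact ⟨_, ⟨z, ⟨⟨hz', a', p₁.injective (Prod.ext
          ((w₁.eq_iff hD ⟨_, rfl, r₁⟩).2 (.refl _)) ((w₂.eq_iff hD ⟨_, rfl, r₂⟩).2 (.refl _)))⟩, y⟩,
          rfl⟩, p'.symm⟩
    · rintro _ ⟨z, ⟨⟨hz, -⟩, y⟩, rfl⟩ _ ⟨z', ⟨⟨hz', -⟩, y'⟩, rfl⟩ w
      exact CQ.part_eq hz.1.1 hz'.1.1 (y.trans y'.symm) (y ▸ t) w

end Vale.Agent.P269.Fam
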