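import Vale.Agent.P287Q.G.Vir.KP
import Vale.Agent.P269.Map.SQD
import Vale.Agent.P269.Prj.Quo
import Vale.Agent.P287Q.G.Pt.Rep

set_option linter.unusedSectionVars false

/-!
# The central torus of a chart
-/

namespace Vale.Agent.P269.Ch

open Set Function Topology Filter Base

variable {S Λ R J K ι ν κ ν' : Type} [Fintype S] [Fintype Λ] [Fintype R] [Fintype J] [Fintype K]
  [Fintype ι] [DecidableEq ι] [Fintype ν] [Fintype κ] [Fintype ν'] {ch : Ch ι J} {t : ι → ℂ}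

variable (ch ν') in
/-- the rescaling of the frames -/
noncomputable def ctr (t : ι → ℂ) : ch.A ν' :=
  (fun i => (t i)⁻¹ • 1, fun l => chr (ch.a l) t • 1, fun _ => t)

theorem ctr_one : ch.ctr ν' 1 = 1 :=
  Prod.ext (funext fun i => by simp [ctr]) (Prod.ext (funext fun l => by simp [ctr]) rfl)

theorem ctr_mul (s t : ι → ℂ) : ch.ctr ν' (s * t) = ch.ctr ν' s * ch.ctr ν' t :=
  Prod.ext (funext fun i => ContinuousLinearMap.ext fun v => by simp [ctr, smul_smul, mul_comm])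
    (Prod.ext (funext fun l => ContinuousLinearMap.ext fun v => by
      simp [ctr, smul_smul, chr_mul, mul_comm])
      rfl)

theorem ctr_comm (t : ι → ℂ) (a : ch.A ν') : ch.ctr ν' t * a = a * ch.ctr ν' t :=
  Prod.ext (funext fun i => ContinuousLinearMap.ext fun v => by simp [ctr])
    (Prod.ext (funext fun l => ContinuousLinearMap.ext fun v => by simp [ctr]) (mul_comm _ _))

theorem hm_ctr : Tq.Hm (ch.ctr ν') :=
  ⟨ctr_one, fun a b _ _ => ctr_mul a b, fun a ha =>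
    (continuousAt_pi.2 fun i => ((continuous_apply i).continuousAt.inv₀
      (isUnit_pi_iff.1 ha i)).smul continuousAt_const).prodMk
    ((continuousAt_pi.2 fun _ => (analyticAt_chr a).continuousAt.smul continuousAt_const).prodMk
      (continuousAt_pi.2 fun _ => continuousAt_id))⟩

theorem dup_ctr : dup (ch.ctr (ν ⊕ κ) t) = ch.ctr (Mk ν κ) t := rfl

theorem sub_ctr' {σ : Type} [Fintype σ] (τ : σ → ι) (μ : Tn ch.M τ) :
    sub (ch.ctr ν' t) τ μ = (∏ s, t (τ s))⁻¹ • μ :=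
  ContinuousMultilinearMap.ext fun v => by
    rw [← Finset.prod_inv_distrib]
    exact μ.map_smul_univ _ v

theorem prod_sigma_chr (a : ι → ℕ) (t : ι → ℂ) : ∏ s : Σ i, Fin (a i), t s.1 = chr a t := by
  rw [Fintype.prod_sigma]
  exact Finset.prod_congr rfl fun i _ => Fin.prod_const (a i) (t i)

theorem sub_ctr {a : ι → ℕ} (μ : Tens ch.M a) : sub (ch.ctr ν' t) _ μ = (chr a t)⁻¹ • μ :=
  (sub_ctr' _ μ).trans (by rw [prod_sigma_chr])

variable (ht : ∀ i, t i ≠ 0)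
include ht

theorem act_ctr (h : ∏ i, t i ^ ch.χ i = 1) (x : ch.W ν') :
    act (ch.ctr ν' t) x = scl (fun j => ∏ i, t i ^ ch.wd j i) x := by
  refine W.ext (fun l => ContinuousLinearMap.ext fun μ => ?_) (fun n => funext fun i => ?_)
    (ContinuousLinearMap.ext fun μ => ?_) fun j => ContinuousLinearMap.ext fun μ => ?_
  · rw [act_Q, sub_ctr, map_smul]
    exact smul_inv_smul₀ (chr_ne_zero ht) _
  · exact smul_inv_smul₀ (ht i) _
  · have a : ∏ s, t (ch.slot s) = chr (ch.a none) t := by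
      rw [Cv.chr_χ t ht, h, one_mul, Fintype.prod_sum_type, mul_comm, ← prod_sigma_chr]
      refine congrArg₂ (· * ·) rfl ?_
      simp [slot, mul_pow, ← pow_add, pow_mul', sq]
    rw [act_Ξ, sub_ctr', map_smul, a]
    exact smul_inv_smul₀ (chr_ne_zero ht) _
  · rw [act_X, sub_ctr, map_smul]
    refine (map_smul _ _ _).trans ((smul_smul _ _ (x.X j μ)).trans ?_)
    rw [Cv.chr_wd ht, mul_comm, mul_inv_cancel_right₀ (chr_ne_zero ht)]
    rfl

theorem zz_ctr (τ : S → ℂ) (z : ch.Pt) : zz ((τ, ch.ctr _ t) : ch.AF ν κ S) z = tz t z := by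
  refine Prod.ext (funext fun i => ?_) (funext fun l => ContinuousLinearMap.ext fun v => ?_)
  · have := Cv.inv_ap (isUnit_fst (hm_ctr.isUnit (isUnit_pi_iff.2 ht) : IsUnit (ch.ctr ν t)) i)
      (t i • z.1 i)
    exact (congrArg _ (inv_smul_smul₀ (ht i) _).symm).trans this
  · exact map_smul (z.2 l) _ v

theorem span_ctr {Z : Type} {T : Set (ch.Pt → Z → ℂ)} {c : ℂ} {φ : Z → Z}
    (h : ∀ g ∈ T, ∀ z m, g (tz t z) (φ m) = c * g z m) {g} (hg : g ∈ Submodule.span ℂ T) (z m) :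
    g (tz t z) (φ m) = c * g z m := by
  induction hg using Submodule.span_induction with
  | mem g b => exact h g b z m
  | zero => simp
  | add _ _ _ _ a b => simp [a, b, mul_add]
  | smul _ _ _ a => simp [a, mul_left_comm]

theorem G1_ctr {j : J} {g} (hg : g ∈ Submodule.span ℂ (ch.G1 j)) (z : ch.Pt)
    (m : ch.Th j × ch.Th j) : g (tz t z) (sub (ch.ctr ν' t) _ m.1, sub (ch.ctr ν' t) _ m.2) =
      (∏ i, t i ^ ch.wd j i) * g z m := by
  refine span_ctr ht (φ := fun m : ch.Th j × ch.Th j =>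
    (sub (ch.ctr ν' t) _ m.1, sub (ch.ctr ν' t) _ m.2)) ?_ hg z m
  rintro _ ⟨a, b, μ, y, rfl⟩ z m
  have := chr_ne_zero (a := ch.b j) ht
  simp only [tz, sub_ctr, map_smul, Base.val_smul, _root_.smul_apply, smul_eq_mul, Cv.chr_wd ht]
  field_simp

theorem G2_ctr {F : Fam S Λ R J K} {e : K → ι → ℕ} {ℓ : R → ι → ℤ} (hF : F.Inv) (h : ch.Fits F e)
    (hℓ : ch.HasWt F ℓ) {k : K} {g}
    (hg : g ∈ Submodule.span ℂ (ch.G2 e (fun k => (F.G k).support) k)) (z : ch.Pt) (ζ : ch.Zt) :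
    g (tz t z) (fun i => ζ i ∘L (ch.ctr ν' t).1 i) = (∏ i, t i ^ F.dk ℓ k i) * g z ζ := by
  refine span_ctr ht (φ := fun (ζ : ch.Zt) i => ζ i ∘L (ch.ctr ν' t).1 i) ?_ hg z ζ
  rintro _ ⟨β, hβ, v, y, μ, rfl⟩ z ζ
  have a := chr_nk hF h hℓ hβ ht
  have b := chr_ne_zero (a := e k) ht
  simp only [tz, ctr, Base.val_smul, _root_.smul_apply, smul_eq_mul, Finset.prod_mul_distrib,
    ContinuousLinearMap.comp_apply, map_smul, one_apply_eq_self,
    Finset.prod_inv_distrib, prod_sigma_chr]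
  rw [Fintype.prod_sigma fun s : Σ j, Fin (β j) => chr (ch.a (some s.1)) t,
    eq_div_of_mul_eq b a.symm]
  simp only [Fin.prod_const]
  unfold rst
  ring

variable {τ : S → ℂ} {a : ch.A (ν ⊕ κ)}

theorem zz_mul_ctr (ha : IsUnit a) (z : ch.Pt) :
    zz ((τ, a * ch.ctr _ t) : ch.AF ν κ S) z = tz t (zz ((τ, a) : ch.AF ν κ S) z) :=
  (zz_mul (s := ((1, a) : ch.AF ν κ S)) (Prod.isUnit_iff.2 ⟨isUnit_one, ha⟩) (τ, ch.ctr _ t) z).trans
    (zz_ctr ht τ _)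

theorem ρF_ctr_fst {F : Fam S Λ R J K} (ha : IsUnit a) {f : ch.P K} {j : J}
    (hf : f.1 j ∈ Submodule.span ℂ (ch.G1 j)) (z m) :
    (ρF F ((τ, a * ch.ctr _ t) : ch.AF ν κ S) f).1 j z m =
      (∏ i, t i ^ ch.wd j i) * (ρF F ((τ, a) : ch.AF ν κ S) f).1 j z m := by
  rw [ρF_fst, ρF_fst, zz_mul_ctr ht ha, mul_left_comm]
  exact congrArg _ (G1_ctr ht hf _ (sub a _ m.1, sub a _ m.2))

theorem ρF_ctr_snd {F : Fam S Λ R J K} {e : K → ι → ℕ} {ℓ : R → ι → ℤ} (hF : F.Inv)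
    (h : ch.Fits F e) (hℓ : ch.HasWt F ℓ) (ha : IsUnit a) {f : ch.P K} (hf : f ∈ ch.polF F e)
    (k z ζ) : (ρF F ((τ, a * ch.ctr _ t) : ch.AF ν κ S) f).2 k z ζ =
      (∏ i, t i ^ F.dk ℓ k i) * (ρF F ((τ, a) : ch.AF ν κ S) f).2 k z ζ := by
  rw [ρF_snd, ρF_snd, zz_mul_ctr ht ha, mul_left_comm]
  exact congrArg _ (G2_ctr (ν' := ν ⊕ κ) ht hF h hℓ ((mem_polS.1 hf).2 k) _ fun i => ζ i ∘L a.1 i)

variable {W : Wt S Λ R J} {j : J}

theorem actF_ctr (h : ∏ i, t i ^ ch.χ i = 1) (x : ch.WF ν κ Λ) :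
    (actF W ((τ, a * ch.ctr _ t) : ch.AF ν κ S) x).2 =
      act (dup a) (scl (fun j => (∏ i, t i ^ ch.wd j i) * ∏ i, τ i ^ W.wt j i) x.2) := by
  rw [actF_snd, dup_mul, act_mul, dup_ctr, act_ctr ht h, ← scl_mul]
  rfl

theorem ρX_ctr (X : Tens ch.M (ch.b j) →L[ℂ] ch.E (some j)) :
    ρX W j ((τ, a * ch.ctr _ t) : ch.AF ν κ S) X =
      (∏ i, t i ^ ch.wd j i) • ρX W j ((τ, a) : ch.AF ν κ S) X := by
  refine (congrArg (fun Y : Tens ch.M (ch.b j) →L[ℂ] ch.E (some j) => (∏ i, τ i ^ W.wt j i) • Y)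
    (ContinuousLinearMap.ext fun μ => ?_)).trans (smul_comm _ (∏ i, t i ^ ch.wd j i) _)
  change a.2.1 _ (chr _ t • X (sub (dup (a * ch.ctr _ t)) _ μ)) =
    (∏ i, t i ^ ch.wd j i) • a.2.1 _ (X (sub (dup a) _ μ))
  rw [dup_mul, sub_mul, dup_ctr, sub_ctr, map_smul, map_smul, map_smul, smul_smul, Cv.chr_wd ht,
    mul_inv_cancel_right₀ (chr_ne_zero ht)]

theorem ρK_ctr (ha : IsUnit a) {f : ch.P Empty} (hf : f ∈ ch.polK j) :
    ρK W ((τ, a * ch.ctr _ t) : ch.AF ν κ S) f =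
      (∏ i, t i ^ ch.wd j i) • ρK W ((τ, a) : ch.AF ν κ S) f :=
  P_ext (fun j' z m => by
    by_cases e : j' = j
    · subst e
      exact ρF_ctr_fst ht (F := ⟨W, 0, Empty.elim, Empty.elim, Empty.elim, ∅, ∅, ∅, ∅, ∅⟩) ha
        ((mem_polS.1 hf.1).1 j') z m
    · change _ * f.1 j' _ _ = _ * (_ * f.1 j' _ _)
      simp [hf.2 j' e]) fun k => k.elim

theorem ρψ_ctr (n : Mk ν κ) (v : V ch.M) : (ch.sdψ S Λ n).ρ (τ, a * ch.ctr _ t) v =
    (ch.sdψ S Λ n).ρ (τ, a) v := funext fun i => by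
  change ((dup a).2.2 n i * t i) • a.1 i ((t i)⁻¹ • v i) = _
  rw [map_smul, smul_smul, mul_inv_cancel_right₀ (ht i)]

omit ht

theorem Lat.exists_dual {ℓ : R → ι → ℤ} (h : ch.Lat W ℓ) (r₀ : R) : ∃ n : ι → ℤ,
    ∑ i, ch.χ i * n i = 0 ∧ ∀ w : R → ℤ, ∑ i, (∑ r, w r * ℓ r i) * n i = w r₀ := by
  obtain ⟨v, a, b, -⟩ := h.dual
  refine ⟨v (some r₀), b none _ nofun, fun w => ?_⟩
  simp only [Finset.sum_mul, mul_assoc]
  rw [Finset.sum_comm, Finset.sum_eq_single r₀ (fun r _ e => ?_) (by simp), ← Finset.mul_sum,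
    show ∑ i, ℓ r₀ i * v (some r₀) i = 1 from a (some r₀), mul_one]
  rw [← Finset.mul_sum, show ∑ i, ℓ r i * v (some r₀) i = 0 from
    b (some r) _ fun d => e (Option.some.inj d).symm, mul_zero]

theorem prod_zpow_zpow {u : ℂ} (hu : u ≠ 0) (n b : ι → ℤ) :
    ∏ i, (u ^ n i) ^ b i = u ^ ∑ i, b i * n i := by
  rw [zpow_sum_ne hu]
  exact Finset.prod_congr rfl fun i _ => by rw [← zpow_mul, mul_comm]

theorem hm_zpow (n : ι → ℤ) : Tq.Hm fun (u : ℂ) i => u ^ n i :=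
  ⟨funext fun _ => one_zpow _, fun a b _ _ => funext fun _ => mul_zpow a b _, fun _ ha =>
    continuousAt_pi.2 fun _ => continuousAt_id.zpow₀ _ (.inl ha.ne_zero)⟩

end Vale.Agent.P269.Ch
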