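import Vale.Agent.P287Q.G.LG.Hy

/-! The geometric half of localisation: the statement. -/

set_option linter.unusedSectionVars false

namespace Vale.Agent.P269

open Set Function TensorProduct B Fock Filter Vale.Agent.P291Z Vale.Agent.P269.Ch

namespace LG

variable {V : Type} [AddCommGroup V] [Module ℂ V] {p : Par ℂ V} {ι : Type} [Fintype ι]
  {fr : Frame p ι} {R J K : Type} [Fintype R] [Fintype J] [Fintype K] [DecidableEq R] {r : ℕ}

/-- the total space of the projective bundle -/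
abbrev PB.XE {σ : Type} [Fintype σ] (P : PB R J K σ) : Type := (P.E ∅).X (P.E ∅).cone

/-- the data of the statement of localisation -/
structure Cx (P : PB R J K (Fin (r + 1))) (k : ℕ) {ac : Act fr (Hev P.X)} (D : Dic ac P.X)
    (w : Fin (r + 1) → ℂ) (c : Fin (r + 1) → Hev P.X) (i₀ : V →ₗ[ℂ] H P.XE)
    (iP : (Fin (r + 1) → V) →ₗ[ℂ] H P.XE) : Prop where
  tg : P.F.Tg
  goodE : (P.E ∅).Good
  big : (P.E ∅).Big k
  jC : ∀ x, D.jC x = x
  int : ∀ x, D.int x = P.F.intX _ x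
  i0 : ∀ v, i₀ v = (P.E ∅).pb P.F.toWt (fun z => (z.1, z.2 ∘ .inl)) _ (D.jH v)
  ip : ∀ v, iP v = ∑ l : Fin (r + 1), (P.E ∅).lc _ 0 (Pi.single none 1) ^ (l : ℕ) * i₀ (v l)
  ev0 : IsEv p (parH _) i₀
  evP : IsEv (p.pi _) (parH _) iP
  lc : ∀ l, (c l).1 = P.F.lc _ 0 (P.wL l)
  nil : ∀ l, IsNilpotent (c l)
  li : LinearIndependent ℚ w

variable (P : PB R J K (Fin (r + 1))) (k : ℕ) (p)

/-- the twisted invariants of the fixed components -/
noncomputable def ZVs (i₀ : V →ₗ[ℂ] H P.XE) (w : Fin (r + 1) → ℂ) (n : Fin (r + 1)) (β : R → ℤ)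
    (j : ℤ) (m : ℕ) : Fock.S (p.fs ℕ) →ₗ[ℂ] ℂ :=
  (P.E {n}ᶜ).ser0 k ((P.E ∅).exT (thV .inr w n m)) p i₀ (vxD P n β) j

/-- the invariants of the projective bundle -/
noncomputable def ZEs (iP : (Fin (r + 1) → V) →ₗ[ℂ] H P.XE) :
    (Option R → ℤ) → ℤ → Fock.S ((p.pi (Fin (r + 1))).fs ℕ) →ₗ[ℂ] ℂ :=
  (P.E ∅).ser0 k (P.E ∅).ex0 (p.pi _) iP

end LG

namespace St

open LG in
/-- **The geometric half of localisation.** -/
def LocG : Prop :=
  ∀ {V : Type} [AddCommGroup V] [Module ℂ V] {p : Fock.Par ℂ V} {ι : Type} [Fintype ι]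
    {fr : Frame p ι}
    {R J K : Type} [Fintype R] [Fintype J] [Fintype K] [DecidableEq R] {r : ℕ}
    (P : PB R J K (Fin (r + 1))) (k : ℕ) {ac : Act fr (Hev P.X)} (D : Dic ac P.X) (w c i₀ iP),
    Cx P k D w c i₀ iP → ∃ T : Th P P.X, Hy T D w c (ZVs p P k i₀ w) (ZEs p P k iP)

/-- The integrals can be computed for every `D` that is big for `k` (absolute theory). -/
def WellD : Prop :=
  ∀ {S Λ R J K ν κ : Type} [Fintype S] [Fintype Λ] [Fintype R] [Fintype J] [Fintype K] [Fintype ν]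
    [Fintype κ] [IsEmpty κ] [DecidableEq R] (F : Fam S Λ R J K) (k D : ℕ) (g : ℤ) (d : R → ℤ)
    (fs : List (Fac F.toWt ν κ)), F.Nice 0 → F.Abs → F.Cp → F.Big k → F.BigD k D →
    (∀ f ∈ fs, f.Ok F 0) →
    F.inv k g d 0 (fun _ => True) fs = F.intg (F.vir κ k D g d 0) (fun _ => True) fs

end St

end Vale.Agent.P269
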