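import Vale.Agent.P269.LG.BorV
import Vale.Agent.P269.LG.BorP
import Vale.Agent.P287Q.G.LG.HR
import Vale.Agent.P287Q.G.LG.Fix
import Vale.Agent.P287Q.G.LG.FixB
import Vale.Agent.P287Q.G.Vir.Std
import Vale.Agent.P287Q.G.Cpt.Quo

/-! The charts of the moduli spaces of maps to a projective bundle as torus charts. -/

set_option linter.unusedSectionVars false
set_option linter.style.haveILetI false

namespace Vale.Agent.P269.LG

open Set Function Topology Filter Module TensorProduct Vale.Agent.P291Z Vale.Agent.P269.Ch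
  Vale.Agent.P269.Orb Vale.Agent.P269.Loc

variable {R J K σ ι ν κ : Type} [Fintype R] [Fintype J] [Fintype K] [Fintype σ] [Fintype ι]
  [DecidableEq ι] [Fintype ν] [Fintype κ]

section alg

variable (σ) in
/-- splittings of an algebra -/
abbrev UT (A B : Type) [NormedRing A] [NormedAlgebra ℂ A] [NormedRing B] [NormedAlgebra ℂ B] :
    Type := (A × (σ → ℂ)) ≃ₐ[ℂ] B

variable {J' : Type} [Fintype J'] (ch : Ch ι J') (ν κ σ)

/-- the algebra of the group with the torus -/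
noncomputable def uA : UT σ (ch.AF ν κ Empty) (ch.AF ν κ σ) where
  toFun a := (a.2, a.1.2)
  invFun b := ((1, b.2), b.1)
  left_inv _ := Prod.ext (Prod.ext (Subsingleton.elim _ _) rfl) rfl
  right_inv _ := rfl
  map_mul' _ _ := rfl
  map_add' _ _ := rfl
  commutes' _ := rfl

/-- the coordinates of the Borel construction -/
noncomputable def μA (M : ℕ) :
    (ch.WF ν κ Empty × (σ → Fin (M + 1) → ℂ)) ≃L[ℂ] ch.WF ν κ (σ × Fin (M + 1)) :=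
  LinearEquiv.toContinuousLinearEquiv
    { toFun := fun x => (uncurry x.2, x.1.2)
      invFun := fun y => ((0, y.2), curry y.1)
      left_inv := fun _ => Prod.ext (Prod.ext (Subsingleton.elim _ _) rfl) rfl
      right_inv := fun _ => rfl
      map_add' := fun _ _ => rfl
      map_smul' := fun _ _ => rfl }

variable {ch ν κ σ}

theorem uA_apply (a : ch.AF ν κ Empty) (s : σ → ℂ) : uA σ ν κ ch (a, s) = (s, a.2) := rfl

theorem uA_symm (b : ch.AF ν κ σ) : (uA σ ν κ ch).symm b = ((1, b.2), b.1) := rfl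

theorem μA_apply {M : ℕ} (x : ch.WF ν κ Empty) (p : σ → Fin (M + 1) → ℂ) :
    μA σ ν κ ch M (x, p) = (uncurry p, x.2) := rfl

theorem μA_symm {M : ℕ} (y : ch.WF ν κ (σ × Fin (M + 1))) :
    (μA σ ν κ ch M).symm y = ((0, y.2), curry y.1) := rfl

end alg

variable [DecidableEq σ]

namespace PB

variable (P : PB R J K σ)

/-- the projective bundle with the action of the torus -/
noncomputable abbrev ET (Z : Set σ) : Fam σ Empty (Option R) (J ⊕ σ) K :=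
  P.fam (fun i => Pi.single i 1) Empty.elim univ Z

variable (ch : Ch ι (J ⊕ σ)) (e : K → ι → ℕ) (K₀ : RD R) (ℓ : Option R → ι → ℤ)

/-- the hypotheses on a chart -/
structure Sd : Prop where
  inv : P.F.Inv
  reg : P.F.Reg K₀
  abs : P.F.Abs
  B : P.F.B = univ
  std : ch.Std (P.E ∅) e (P.rd K₀ ∅) ℓ

variable (ν κ) in
/-- the solutions -/
abbrev Z0 (Z : Set σ) : Set (ch.WF ν κ Empty) :=
  ch.solF ν κ (P.E Z) ∩ ch.cyc κ (P.E Z) (0 : ν → J ⊕ σ → ℕ)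

variable (ν κ) in
/-- the solutions in the Borel construction -/
abbrev ZM (Z : Set σ) (M : ℕ) : Set (ch.WF ν κ (σ × Fin (M + 1))) :=
  ch.solF ν κ (P.EM Z M) ∩ ch.cyc κ (P.EM Z M) (0 : ν → J ⊕ σ → ℕ)

variable {ch} in
/-- `O` is a smooth domain of dimension `n` that is invariant under the compact torus -/
structure Am (Z : Set σ) (O : Set (ch.WF ν κ Empty)) (n : ℕ) : Prop extends P.Sd ch e K₀ ℓ where
  dom : Ch.Dom (P.E Z) e (ch.cyc κ (P.E Z) 0) O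
  mf : KD.Mf (ch.AF ν κ Empty) O n
  cpt : ∀ s : σ → ℂ, (∀ i, ‖s i‖ = 1) → ∀ x ∈ O, actF (P.ET Z).toWt (s, 1) x ∈ O
  cZ : CompactSpace (Quo (actF (P.E Z).toWt) (P.Z0 ν κ ch Z))

variable {P ch e K₀ ℓ} {Z : Set σ} {O : Set (ch.WF ν κ Empty)} {n M : ℕ} {S Λ : Type} [Fintype S]
  [Fintype Λ] {wt : σ → S → ℤ} {wl : Λ → S → ℤ} {B : Set (Λ → ℂ)}

theorem wt_single (s : σ → ℂ) {wl : Λ → σ → ℤ} :
    (fun j => ∏ i, s i ^ (P.fam (fun i => Pi.single i 1) wl B Z).wt j i) =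
      Sum.elim (1 : J → ℂ) s :=
  funext fun j => match j with
    | .inl _ => Finset.prod_eq_one fun _ _ => zpow_zero _
    | .inr l => (Finset.prod_eq_single l (fun i _ e => by simp [e]) (by simp)).trans (by simp)

theorem actF_ET (s : σ → ℂ) (x : ch.WF ν κ Empty) :
    actF (P.ET Z).toWt (s, 1) x = (x.1, scl (Sum.elim 1 s) x.2) :=
  Prod.ext (Subsingleton.elim _ _) ((Ch.act_one _).trans (congrArg (scl · x.2) (wt_single s)))

theorem actF_E (a : ch.AF ν κ Empty) (x : ch.WF ν κ Empty) :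
    actF (P.E Z).toWt a x = actF (P.ET Z).toWt (1, a.2) x :=
  Prod.ext (Subsingleton.elim _ _) (congrArg (fun c => act (dup a.2) (scl c x.2))
    (funext fun _ => (Fintype.prod_empty _).trans (Finset.prod_eq_one fun _ _ => one_zpow _).symm))

theorem actF_EM (b : ch.AF ν κ σ) (x : ch.WF ν κ Empty) (p : σ → Fin (M + 1) → ℂ) :
    actF (P.EM Z M).toWt b (μA σ ν κ ch M (x, p)) =
      μA σ ν κ ch M (actF (P.ET Z).toWt b x, fun i => b.1 i • p i) :=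
  haveI := Classical.decEq R
  Prod.ext (funext (PB.actL_EM b.1 _)) rfl

theorem polF_eq : ch.polF (P.fam wt wl B Z) e = ch.polF (P.E ∅) e :=
  congrArg (ch.polS e) (funext PB.supp_G)

theorem hp_eq (l : Λ → ℂ) : hp (ch := ch) (P.fam wt wl B Z) e l = hp (P.E Z) e Empty.elim := by
  funext k ζ c
  rw [hp, hp, PB.supp_G, PB.supp_G (Z := Z)]
  refine Finset.sum_congr rfl fun α _ => congrArg (fun t => MvPolynomial.monomial α (t * _)) ?_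
  rw [← MvPolynomial.coeff_map, ← MvPolynomial.coeff_map]
  exact congrArg _ (PB.fib_F l k)

theorem kd_E : (ch.kd ν κ (P.ET Z) e).pb (fun a => uA σ ν κ ch (a, 1)) id = ch.kd ν κ (P.E Z) e := by
  have h (a : Empty → ℂ) (w : σ → ℤ) (w' : Empty → ℤ) :
      ∏ i, (1 : σ → ℂ) i ^ w i = ∏ i, a i ^ w' i :=
    (Finset.prod_eq_one fun _ _ => one_zpow _).trans (Fintype.prod_empty _).symm
  exact congrArg (fun r => KD.mk r _ _ _ _) (funext₂ fun a f => congrArg (ρ (dup a.2))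
    (Prod.ext (funext fun j => congrArg (· • f.1 j) (h _ _ _))
      (funext fun j => congrArg (· • f.2 j) (h _ _ _))))

theorem kd_EM : (ch.kd ν κ (P.ET Z) e).pb id (fun y => ((μA σ ν κ ch M).symm y).1) =
    ch.kd ν κ (P.EM Z M) e := by
  have h : ch.polF (P.ET Z) e = ch.polF (P.EM Z M) e := polF_eq.trans polF_eq.symm
  have h1 (y : ch.WF ν κ (σ × Fin (M + 1))) : vanM (P.ET Z) e (0, y.2) = vanM (P.EM Z M) e y :=
    congrArg (· ⊓ _) h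
  have h2 (y : ch.WF ν κ (σ × Fin (M + 1))) : obsM (P.ET Z) e (0, y.2) = obsM (P.EM Z M) e y := by
    simp only [obsM, Ch.pd, h, hp_eq]
  have h3 (y : ch.WF ν κ (σ × Fin (M + 1))) : sctF (P.ET Z) e (0, y.2) = sctF (P.EM Z M) e y := by
    rw [sctF, sctF, PB.fib_eq, PB.fib_eq y.1]
  exact (congrArg (KD.mk _ · _ _ _) h).trans ((congrArg (KD.mk _ _ · _ _) (funext h1)).trans
    ((congrArg (KD.mk _ _ _ · _) (funext h2)).trans (congrArg (KD.mk _ _ _ _) (funext h3))))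

theorem mem_cyc {F : Fam S Λ R J K} {ch : Ch ι J} (hA : F.Abs) (hF : F.Inv) {x : ch.WF ν κ Λ} :
    x ∈ ch.cyc κ F (0 : ν → J → ℕ) ↔ x ∈ ch.baseF ν κ F.B ∧ ∀ j ∉ F.mov, x.2.X j = 0 := by
  refine ⟨fun h => ⟨h.2, fun j hj => closure_minimal (t := {x : ch.WF ν κ Λ | x.2.X j = 0})
    (fun y b => b.1.2.2.2.1 j (hA.1 hj)) (isClosed_eq ?_ continuous_const) h.1⟩, fun ⟨a, b⟩ =>
      ⟨subset_closure ⟨⟨a, fun j hj c _ => ⟨0, fun u _ μ => by simp [b j hj]⟩,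
        fun _ _ => hA.2 ▸ mem_univ _, fun j hj => b j (disjoint_left.1 hF.zer_base hj),
        fun j hj q => ?_⟩, fun j c e => (e (hA.1 c)).elim⟩, a⟩⟩
  · exact (continuous_apply j).comp
      (continuous_snd.comp (continuous_snd.comp (continuous_snd.comp continuous_snd)))
  · rw [fld_of_zero (a.2.1.2.2.2.1 _).1 (b j hj), fld_of_zero (a.2.1.2.2.2.1 _).1 (b j hj)]

theorem main_eq {F : Fam S Λ R J K} {ch : Ch ι J} (hA : F.Abs) :
    ch.main κ F (0 : ν → J → ℕ) = ch.adm ν κ F :=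
  Set.ext fun _ => and_iff_left fun _ c e => (e (hA.1 c)).elim

namespace Sd

variable (h : P.Sd ch e K₀ ℓ)
include h

theorem std_fam (h1 : IsLocallyClosed B)
    (h2 : ∀ τ, IsUnit τ → ∀ l ∈ B, (P.fam wt wl B Z).actL τ l ∈ B) :
    ch.Std (P.fam wt wl B Z) e (P.rd K₀ Z) ℓ :=
  haveI := Classical.decEq R
  ⟨PB.inv_fam h.inv h.std.inv h1 h2, PB.reg h.B h.abs h.reg, ⟨h.std.fits.wt,
    fun k α a => h.std.fits.le k α ((PB.supp_G k).le a), h.std.fits.ne⟩, h.std.cuts, h.std.wt⟩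

theorem std_E : ch.Std (P.E Z) e (P.rd K₀ Z) ℓ :=
  h.std_fam isClosed_univ.isLocallyClosed fun _ _ _ _ => trivial

theorem std_ET : ch.Std (P.ET Z) e (P.rd K₀ Z) ℓ :=
  h.std_fam isClosed_univ.isLocallyClosed fun _ _ _ _ => trivial

theorem std_EM : ch.Std (P.EM Z M) e (P.rd K₀ Z) ℓ :=
  haveI := Classical.decEq R
  h.std_fam (isOpen_PMs M).isLocallyClosed fun τ a l b i => (b i).imp fun _ d =>
    (PB.actL_EM τ l _).trans_ne (mul_ne_zero (isUnit_pi_iff.1 a i) d)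

theorem mem_cyc_EM {x : ch.WF ν κ Empty} {p : σ → Fin (M + 1) → ℂ} :
    μA σ ν κ ch M (x, p) ∈ ch.cyc κ (P.EM Z M) 0 ↔ x ∈ ch.cyc κ (P.E Z) 0 ∧ ∀ i, p i ≠ 0 := by
  rw [mem_cyc (PB.abs h.abs) h.std_EM.inv, mem_cyc (PB.abs h.abs) h.std_E.inv]
  exact ⟨fun ⟨⟨a, b⟩, c⟩ => ⟨⟨⟨trivial, b⟩, c⟩, fun i => ne_iff.2 (a i)⟩,
    fun ⟨⟨⟨_, b⟩, c⟩, a⟩ => ⟨⟨fun i => ne_iff.1 (a i), b⟩, c⟩⟩

theorem mem_ZM {x : ch.WF ν κ Empty} {p : σ → Fin (M + 1) → ℂ} :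
    μA σ ν κ ch M (x, p) ∈ P.ZM ν κ ch Z M ↔ x ∈ P.Z0 ν κ ch Z ∧ ∀ i, p i ≠ 0 := by
  have e : (μA σ ν κ ch M (x, p)).2 ∈ ch.sol (Mk ν κ) ((P.EM Z M).fib (uncurry p)) ↔
      x.2 ∈ ch.sol (Mk ν κ) ((P.E Z).fib x.1) := by
    rw [PB.fib_eq, PB.fib_eq x.1]; rfl
  exact ⟨fun ⟨⟨_, a⟩, b⟩ => ⟨⟨⟨(h.mem_cyc_EM.1 b).1.2, e.1 a⟩, (h.mem_cyc_EM.1 b).1⟩,
    (h.mem_cyc_EM.1 b).2⟩, fun ⟨⟨⟨_, a⟩, b⟩, c⟩ =>
      ⟨⟨(h.mem_cyc_EM.2 ⟨b, c⟩).2, e.2 a⟩, h.mem_cyc_EM.2 ⟨b, c⟩⟩⟩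

theorem cyc_eq : ch.cyc κ (P.E Z) (0 : ν → _) = ch.adm ν κ (P.E Z) :=
  (h.std.cuts.cyc_subset_adm h.std_E.inv 0).antisymm fun _ a =>
    ⟨subset_closure ((main_eq (PB.abs h.abs)).ge a), a.1⟩

theorem Z0_eq : P.Z0 ν κ ch Z = ch.solF ν κ (P.E Z) :=
  inter_eq_left.2 fun _ a => h.cyc_eq.ge ((solF_subset_adm_iff a).2 fun j b _ =>
    ((Fam.mem_cone _).1 (vl_mem a _)).1.2.2 j ((PB.abs h.abs).1 b) |>.trans
      (((Fam.mem_cone _).1 (vl_mem a _)).1.2.2 j ((PB.abs h.abs).1 b)).symm)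

theorem ivt_cyc : Ivt (actF (P.ET Z).toWt) (ch.cyc κ (P.E Z) (0 : ν → _)) :=
  fun _ hs _ => actF_mem_cyc h.std_ET.inv hs

theorem ivt_Z0 : Ivt (actF (P.ET Z).toWt) (P.Z0 ν κ ch Z) :=
  fun _ hs _ a => ⟨actF_mem_solF h.std_ET.inv hs a.1, actF_mem_cyc h.std_ET.inv hs a.2⟩

/-- every smooth domain contains a domain that is invariant under the compact torus -/
theorem exists_am (hd : Ch.Dom (P.E Z) e (ch.cyc κ (P.E Z) 0) O)
    (hm : KD.Mf (ch.AF ν κ Empty) O n)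
    (hc : CompactSpace (Quo (actF (P.E Z).toWt) (P.Z0 ν κ ch Z))) :
    ∃ U, IsOpen U ∧ P.Am e K₀ ℓ Z (O ∩ U) n := by
  obtain ⟨V, hV, rfl⟩ := hd.opn
  have u {s : σ → ℂ} (hs : ∀ i, ‖s i‖ = 1) : IsUnit ((s, 1) : ch.AF ν κ σ) :=
    isUnitF_iff.2 ⟨fun i => norm_ne_zero_iff.1 ((hs i).trans_ne one_ne_zero), isUnit_one⟩
  obtain ⟨U, a, b, c, d⟩ := exists_cpt (b := fun s x => actF (P.ET Z).toWt (s, 1) x)
    (fun z hz => (an_actF (P := (σ → ℂ) × ch.WF ν κ Empty) (analyticAt_fst.prod analyticAt_const)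
      analyticAt_snd (ne_S (u hz.1))).continuousAt.continuousWithinAt) actF_one
    (fun s t x => (congrArg (fun a => actF _ (s * t, a) x) (mul_one 1).symm).trans
      (actF_mul (s, 1) (t, 1) x)) hV
  refine ⟨U, b, h, hd.inter b (fun x hx => (d x).2 fun s hs => (hd.sub (h.ivt_Z0 _ (u hs) x hx)).2)
    fun t ht x hx => (d _).2 fun s hs => ?_, fun x hx => (hm x hx.1).inter' b hx.2,
    fun s hs x hx => ⟨⟨h.ivt_cyc _ (u hs) x hx.1.1, (d x).1 hx.2 s hs⟩, c s hs x hx.2⟩, hc⟩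
  have := hd.isAct.mem t ht _ ⟨h.ivt_cyc _ (u hs) x hx.1.1, (d x).1 hx.2 s hs⟩
  rw [actF_E, ← actF_mul] at this ⊢
  exact mem_of_eq_of_mem (congrArg (actF _ · x)
    (Prod.ext (mul_comm _ _) ((one_mul _).trans (mul_one _).symm))) this.2

end Sd

namespace Am

variable (h : P.Am e K₀ ℓ Z O n)

/-- the torus chart -/
noncomputable def tc : TC σ (actF (P.E Z).toWt) (actF (P.ET Z).toWt) (ch.kd ν κ (P.ET Z) e)
    (P.Z0 ν κ ch Z) where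
  u := uA σ ν κ ch
  O := O
  dm := ch.dom ν κ (P.ET Z) e
  n := n
  v := (h.std_ET.ok (ν := ν) (κ := κ)).choose
  r := (ch.rk (P.ET Z) ℓ (P.rd K₀ Z)).toNat
  isAct₀ := isActF_univ
  isAct := isActF_univ
  lin b _ := (linF _ b).isLinear
  eq a _ := actF_E a
  ok := (h.std_ET.ok (ν := ν) (κ := κ)).choose_spec
  sub := Dom.subset_dom (F := P.E Z) h.cyc_eq.le h.dom
  ivt _ hs _ := actF_mem_dom h.std_ET.inv hs
  ivtZ := h.ivt_Z0
  dom := by rw [kd_E]; exact h.dom.self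
  cpt := h.cpt
  mf := h.mf
  cZ := h.cZ

/-- the approximations of the Borel construction -/
noncomputable def lv (M : ℕ) : h.tc.Lv M (actF (P.EM Z M).toWt) (P.ZM ν κ ch Z M) where
  μ := μA σ ν κ ch M
  isAct := isActF_univ
  eqv b _ := actF_EM b
  mem _ _ := h.mem_ZM

theorem tc_u : h.tc.u = uA σ ν κ ch := rfl

theorem tc_O : h.tc.O = O := rfl

theorem tc_n : h.tc.n = n := rfl

theorem lv_μ : (h.lv M).μ = μA σ ν κ ch M := rfl

theorem D₀_eq : h.tc.D₀ = ch.kd ν κ (P.E Z) e := kd_E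

theorem D'_eq : (h.lv M).D' = ch.kd ν κ (P.EM Z M) e := kd_EM

theorem b_apply (s : Tor σ) (x : ch.WF ν κ Empty) :
    h.tc.b s x = (x.1, scl (Sum.elim 1 fun i => s i) x.2) := actF_ET _ x

theorem isW₀ : (ch.kd ν κ (P.E Z) e).IsW _ _ (ch.cyc κ (P.E Z) 0) n h.tc.β₀ :=
  h.D₀_eq ▸ h.tc.isW h.dom.opn

theorem isW (M : ℕ) : (ch.kd ν κ (P.EM Z M) e).IsW _ _ (ch.cyc κ (P.EM Z M) 0)
    (n + Fintype.card σ * M) (h.lv M).β :=
  h.D'_eq ▸ (h.lv M).isW h.ivt_cyc h.dom.opn fun _ _ => h.mem_cyc_EM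

include h in
/-- shrinking the domain -/
theorem exists_le {U : Set (ch.WF ν κ Empty)} (hU : IsOpen U) (hi : Ivt (actF (P.E Z).toWt) U)
    (hZ : P.Z0 ν κ ch Z ⊆ U) : ∃ U' ⊆ U, IsOpen U' ∧ P.Am e K₀ ℓ Z (O ∩ U') n :=
  let ⟨V, a, b⟩ := h.exists_am (h.dom.inter hU hZ fun s hs x hx => hi s hs x hx.2)
    (fun x hx => (h.mf x hx.1).inter' hU hx.2) h.cZ
  ⟨U ∩ V, inter_subset_left, hU.inter a, inter_assoc O U V ▸ b⟩

theorem rep_b {x : ch.WF ν κ Empty} {m : AM Empty (Option R) (J ⊕ σ) ν κ} (hx : Rep ℓ univ x m)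
    (s : Tor σ) : Rep ℓ univ (h.tc.b s x) (tor (Sum.elim 1 fun i => s i) m) :=
  let ⟨a, B, π, c, d, f⟩ := hx
  h.b_apply s x ▸ ⟨a, B, π, ⟨c.par, c.mark, c.triv, c.xi⟩, d, fun j hj z => (f j hj z).scl _⟩

/-- the fixed points -/
theorem mem_FZ (hl : ch.Lat (P.E Z).toWt ℓ) (ht : ch.Tight) {x} (hx : x ∈ P.Z0 ν κ ch Z)
    {m : AM Empty (Option R) (J ⊕ σ) ν κ} (hm : Rep ℓ univ x m) :
    x ∈ h.tc.FZ ↔ ∀ s : σ → ℂ, (∀ i, ‖s i‖ = 1) →
      AM.Iso (P.E Z).toWt univ m (tor (Sum.elim 1 s) m) := by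
  have a (s : Tor σ) := hm.iso_iff hx.1.1.2.1 hl h.std.cuts.ne ht (h.rep_b hm s)
    (h.tc.b_mem h.ivt_Z0 s hx).1.1.2.1
  exact ⟨fun b s hs => (a fun i => Units.mk0 (s i)
    (norm_ne_zero_iff.1 ((hs i).trans_ne one_ne_zero))).2 (b.2 _ hs),
    fun b => ⟨hx, fun s hs => (a s).1 (b _ hs)⟩⟩

theorem mem_FZ_of {z : h.tc.F} {x : P.Z0 ν κ ch Z} (e : h.tc.g₀ z = Quo.mk _ x) :
    x.1 ∈ h.tc.FZ := by
  obtain ⟨y, hy, rfl⟩ := h.tc.cl_surj z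
  obtain ⟨s, hs, f⟩ := Ch.mk_eq_iff.1 e
  exact mem_of_eq_of_mem f (h.tc.ivt_FZ s hs y hy)

theorem virF_E {O' M' n'} (hv : Vd (P.E Z) e (ch.cyc κ (P.E Z) (0 : ν → _)) O' M' n') :
    virF (P.E Z) e (ch.cyc κ (P.E Z) 0) = h.tc.β₀ := ((hv.isV_iff h.std_E).1 h.isW₀.isV).symm

theorem virF_EM {O' M' n'} (hv : Vd (P.EM Z M) e (ch.cyc κ (P.EM Z M) (0 : ν → _)) O' M' n') :
    virF (P.EM Z M) e (ch.cyc κ (P.EM Z M) 0) = (h.lv M).β :=
  ((hv.isV_iff h.std_EM).1 (h.isW M).isV).symm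

end Am

end PB

/-- smooth domains of absolute problems -/
theorem abs_vd {S Λ : Type} [Fintype S] [Fintype Λ] {F : Fam S Λ R J K} {ch : Ch ι J}
    {e : K → ι → ℕ} {K₀ : RD R} {ℓ : R → ι → ℤ} {b : ℕ} {U : Set (ch.WF ν κ Λ)}
    (h : ch.Ok F e K₀ ℓ b U) (hA : F.Abs) : ∃ O M,
      Vd F e (ch.cyc κ F (0 : ν → _)) O M ((ch.dimM ν κ F b 0).toNat - finrank ℂ (ch.AF ν κ S)) ∧
      KD.Mf (ch.AF ν κ S) O ((ch.dimM ν κ F b 0).toNat - finrank ℂ (ch.AF ν κ S)) := by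
  have hG : Gr ch F (0 : ν → _) (Fin.elim0 : Fin 0 → J) 0 1 :=
    h.lat.gr h.inv (δ := 0) ⟨nofun, linearIndependent_empty_type, nofun,
      fun _ a b => (b (hA.1 a)).elim, fun _ _ _ => ⟨analyticAt_const, one_ne_zero⟩,
      fun _ a b => (b (hA.1 a)).elim, fun _ a b => (b (hA.1 a)).elim, fun _ _ _ _ _ =>
        iff_of_true (hA.2.ge (mem_univ _)) fun _ a b => (b (hA.1 a)).elim, fun _ _ => rfl⟩ 0
  have hv := h.vd hG (locAn_main h.cuts h.wt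
    ⟨∅, nofun, hA.2.trans (eq_univ_of_forall fun _ _ e => nomatch e).symm⟩ _)
  refine ⟨_, _, hv, fun x hx => ?_⟩
  obtain ⟨V, a, c⟩ := h.dom_open (ν := ν) (κ := κ)
  have e1 := PB.main_eq (ν := ν) (κ := κ) (ch := ch) hA
  have e2 : Holo.MfdAt _ (ch.dimM ν κ F b 0).toNat x := (h.num.mfd_main h.sm hG (e1.ge hx.2.1)).2
  rw [Nat.add_sub_cancel' (h.pr.finrank_le (lev_main h.inv 0) e2 hx.1.2)]
  refine mem_of_eq_of_mem (s := {T | Holo.MfdAt T _ x}) ?_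
    ((e2.inter' h.pr.opn hx.1.2).inter' a (c.le hx.2).2)
  rw [c, e1]
  exact Set.ext fun y => ⟨fun ⟨⟨_, f⟩, g⟩ => ⟨⟨g.1, f⟩, g.2⟩, fun ⟨⟨d, f⟩, g⟩ =>
    ⟨⟨⟨subset_closure (e1.ge d), d.1⟩, f⟩, d, g⟩⟩

theorem rep_μA {ch : Ch ι (J ⊕ σ)} {ℓ : Option R → ι → ℤ} {x : ch.WF ν κ Empty}
    {m : AM Empty (Option R) (J ⊕ σ) ν κ} {M : ℕ} {p : σ → Fin (M + 1) → ℂ} :
    Rep ℓ univ (μA σ ν κ ch M (x, p)) (par (uncurry p) m) ↔ Rep ℓ univ x m :=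
  and_congr_left' (iff_of_true rfl (Subsingleton.elim _ _))

variable [DecidableEq R] {P : PB R J K σ} {K₀ : RD R} {k D : ℕ} {g : ℤ} {d : Option R → ℤ}

namespace PB

variable (P ν k D g d)

/-- the standard chart -/
noncomputable abbrev ch : Ch (Option (Option R)) (J ⊕ σ) := (P.E ∅).sch ν (Fin 0) k D g d

/-- the degrees of the tests -/
noncomputable abbrev td : K → Option (Option R) → ℕ := (P.E ∅).tdeg (P.ch ν k D g d)

variable {P} in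
theorem td_eq {S Λ : Type} [Fintype S] [Fintype Λ] {wt : σ → S → ℤ} {wl : Λ → S → ℤ}
    {B : Set (Λ → ℂ)} {Z : Set σ} :
    (P.fam wt wl B Z).tdeg (P.ch ν k D g d) = P.td ν k D g d :=
  funext₂ fun q _ => congrArg (· * _) (PB.tdeg_G q)

variable {ν k D g d} in
/-- domains in the standard chart -/
abbrev As (K₀ : RD R) (Z : Set σ) (O : Set ((P.ch ν k D g d).WF ν (Fin 0) Empty)) (n : ℕ) : Prop :=
  P.Am (P.td ν k D g d) K₀ ℓs Z O n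

variable {P k D}

theorem Ok.sd (h : P.Ok K₀ k D) : P.Sd (P.ch ν k D g d) (P.td ν k D g d) K₀ ℓs :=
  ⟨h.good.toInv, h.reg, h.abs, h.B, Fam.chart_std h.goodE (PB.reg h.B h.abs h.reg) h.bigD⟩

theorem Ok.exists_vd {S Λ : Type} [Fintype S] [Fintype Λ] {wt : σ → S → ℤ} {wl : Λ → S → ℤ}
    {B : Set (Λ → ℂ)} {Z : Set σ} (h : P.Ok K₀ k D) (hG : (P.fam wt wl B Z).Good) {b : ℕ}
    (hb : (P.fam wt wl B Z).Sm b) : ∃ O M, Vd (P.fam wt wl B Z) (P.td ν k D g d)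
      ((P.ch ν k D g d).cyc (Fin 0) (P.fam wt wl B Z) (0 : ν → _)) O M
        (((P.ch ν k D g d).dimM ν (Fin 0) (P.fam wt wl B Z) b 0).toNat -
          finrank ℂ ((P.ch ν k D g d).AF ν (Fin 0) S)) ∧
      KD.Mf ((P.ch ν k D g d).AF ν (Fin 0) S) O
        (((P.ch ν k D g d).dimM ν (Fin 0) (P.fam wt wl B Z) b 0).toNat -
          finrank ℂ ((P.ch ν k D g d).AF ν (Fin 0) S)) := by
  obtain ⟨U, a⟩ := hG.ok' ν (Fin 0) (PB.reg h.B h.abs h.reg) hb h.big_fam h.bigD_fam g d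
  rw [← td_eq ν k D g d (wt := wt) (wl := wl) (B := B) (Z := Z)]
  exact abs_vd a (PB.abs h.abs)

theorem Ok.exists_as' (h : P.Ok K₀ k D) {Z : Set σ} (hG : (P.E Z).Good) :
    ∃ O : Set ((P.ch ν k D g d).WF ν (Fin 0) Empty), P.As K₀ Z O
      (((P.ch ν k D g d).dimM ν (Fin 0) (P.E Z) 0 0).toNat -
        finrank ℂ ((P.ch ν k D g d).AF ν (Fin 0) Empty)) :=
  let ⟨_, _, a, b⟩ := h.exists_vd ν g d hG PB.sm_E
  let ⟨_, _, c⟩ := (h.sd ν g d).exists_am a.dom b (Cpt.compactSpace_mod hG h.big_fam h.bigD_fam rfl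
    (T := univ) subsingleton_univ.isCompact Subset.rfl (fun _ _ => ⟨1, isUnit_one, trivial⟩) 0)
  ⟨_, c⟩

/-- **existence of domains** -/
theorem Ok.exists_as (h : P.Ok K₀ k D) {Z : Set σ} (hZ : Z ≠ univ) :
    ∃ O : Set ((P.ch ν k D g d).WF ν (Fin 0) Empty), P.As K₀ Z O
      (((P.ch ν k D g d).dimM ν (Fin 0) (P.E Z) 0 0).toNat -
        finrank ℂ ((P.ch ν k D g d).AF ν (Fin 0) Empty)) := h.exists_as' ν g d (h.good_E hZ)

variable {ν g d} {Z : Set σ} {O : Set ((P.ch ν k D g d).WF ν (Fin 0) Empty)} {n : ℕ}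
  (hP : P.Ok K₀ k D) (h : P.As K₀ Z O n)
include hP

theorem Ok.vir_E' (hG : (P.E Z).Good) : (P.E Z).vir (Fin 0) k D g d 0 = h.tc.β₀ :=
  let ⟨_, _, a, _⟩ := hP.exists_vd ν g d hG PB.sm_E
  (congrArg (virF _ · _) (td_eq ν k D g d)).trans (h.virF_E a)

theorem Ok.vir_EM' {M : ℕ} (hG : (P.EM Z M).Good) :
    (P.EM Z M).vir (Fin 0) k D g d 0 = (h.lv M).β :=
  let ⟨_, _, a, _⟩ := hP.exists_vd ν g d hG (PB.sm_EM M)
  (congrArg (virF _ · _) (td_eq ν k D g d)).trans (h.virF_EM a)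

theorem Ok.vir_E (hZ : Z ≠ univ) : (P.E Z).vir (Fin 0) k D g d 0 = h.tc.β₀ :=
  hP.vir_E' h (hP.good_E hZ)

theorem Ok.vir_EM (hZ : Z ≠ univ) (M : ℕ) : (P.EM Z M).vir (Fin 0) k D g d 0 = (h.lv M).β :=
  hP.vir_EM' h (hP.good_EM hZ M)

/-- the fixed points -/
theorem Ok.mem_FZ {x} (hx : x ∈ P.Z0 ν (Fin 0) (P.ch ν k D g d) Z) {m : AM0 R J σ ν}
    (hm : Rep ℓs univ x m) : x ∈ h.tc.FZ ↔ Fixd m P :=
  h.mem_FZ (Fam.chart_lat hP.bigD) Fam.chart_tight hx hm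

end PB

namespace Geo

variable {a : σ → ℂ} {τ : Md P P.X ν g d} (G : Geo k D a τ) (hP : P.Ok K₀ k D)
  {O : Set ((P.ch ν k D g d).WF ν (Fin 0) Empty)} {n : ℕ} (h : P.As K₀ ∅ O n)

include hP in
theorem range_g0 : range G.g0 = range h.tc.g₀ := by
  refine Set.ext fun y => ⟨?_, ?_⟩
  · rintro ⟨z, rfl⟩
    obtain ⟨m, hm⟩ := τ.ex z
    obtain ⟨x, b, c⟩ := (G.rp z m).1 hm
    exact ⟨h.tc.cl x.1 ((hP.mem_FZ h x.2 c).2 ((τ.fx hm).str.fixd (τ.fx hm).sol)), b.symm⟩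
  · rintro ⟨z, e⟩
    obtain ⟨m, f⟩ := Fam.exists_at (F := P.E ∅) hP.bigD y
    have s1 : m.Sol (P.E ∅) := f.sol hP.goodE.toInv
    have s2 := f.stable hP.bigD
    have s3 : m.Typ g d := f.typ
    obtain ⟨x, b, c⟩ := id f
    have s4 : Fixd m P := (hP.mem_FZ h x.2 c).1 (h.mem_FZ_of (e.trans b))
    have s5 : Fx m P g d := ⟨s1, s2, s3, s4.str hP.good hP.B hP.abs s1⟩
    obtain ⟨z', hz⟩ := τ.surj s5
    exact ⟨z', (((G.rp z' m).1 hz).eq_iff hP.bigD f).2 ((f.eq_iff hP.bigD f).1 rfl)⟩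

include hP in
theorem exists_φ : ∃ φ : τ.A ≃ₜ h.tc.F, ∀ x, h.tc.g₀ (φ x) = G.g0 x :=
  ⟨(G.emb.isEmbedding.toHomeomorph.trans (Homeomorph.setCongr (G.range_g0 hP h))).trans
    h.tc.isClosedEmbedding_g₀.isEmbedding.toHomeomorph.symm, fun x => congrArg Subtype.val
      (h.tc.isClosedEmbedding_g₀.isEmbedding.toHomeomorph.apply_symm_apply _)⟩

/-- the identification with the fixed locus of a chart -/
noncomputable def φ : τ.A ≃ₜ h.tc.F := (G.exists_φ hP h).choose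

theorem g₀_φ (x : τ.A) : h.tc.g₀ (G.φ hP h x) = G.g0 x := (G.exists_φ hP h).choose_spec x

theorem rp_iff {z : τ.A} {m : AM0 R J σ ν} :
    τ.Rp z m ↔ ∃ x hx, G.φ hP h z = h.tc.cl x hx ∧ Rep ℓs univ x m := by
  rw [G.rp, ← G.g₀_φ hP h]
  refine ⟨fun ⟨x, b, c⟩ => ?_, fun ⟨x, hx, b, c⟩ => ⟨⟨x, hx.1⟩, congrArg h.tc.g₀ b, c⟩⟩
  exact ⟨x.1, h.mem_FZ_of b, h.tc.isClosedEmbedding_g₀.injective b, c⟩

theorem i_φ (M : ℕ) (z : τ.A) (b : Bs σ M) : (h.lv M).i (G.φ hP h z, b) = G.i M (z, b) := by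
  obtain ⟨p, rfl⟩ := HR.bp_surj b
  obtain ⟨m, hm⟩ := τ.ex z
  obtain ⟨x, hx, e, c⟩ := (G.rp_iff hP h).1 hm
  have f := G.pt M z p m hm
  rw [e, TC.Lv.i_cl]
  exact (Fam.At.eq_iff hP.bigD_fam ⟨_, rfl, rep_μA.2 c⟩ f).2 ((f.eq_iff hP.bigD_fam f).1 rfl)

/-- the inclusion in the chart -/
noncomputable def gY : C(τ.A, h.tc.Y.X) := h.tc.g.comp (G.φ hP h : C(_, _))

theorem range_gY : range (G.gY hP h) = h.tc.Y.π '' (h.tc.h.toTS.Fix ∩ h.tc.k.Zs) :=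
  ((G.φ hP h).surjective.range_comp h.tc.g).trans h.tc.range_g

theorem pc : Pc h.tc.h.toTS h.tc.k.Zs (fun M => (h.lv M).j) (G.gY hP h) G.i :=
  ⟨(TC.pc h.lv).emb, (TC.pc h.lv).rng, (TC.pc h.lv).inj.comp (G.φ hP h).injective,
    (G.range_gY hP h).le, Isol.of_subset (G.range_gY hP h).ge, fun M z t p e =>
      (congrArg _ (G.i_φ hP h M z _).symm).trans ((TC.pc h.lv).eq M _ t p e)⟩

include hP in
theorem loc' : haveI := fun M => (h.lv M).nice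
    IsLoc (chiA a) (fun M => (h.lv M).β) G.i τ.I :=
  (funext fun M => hP.vir_EM' h (hP.good_EM0 M) : P.vM ν k D g d = _) ▸ G.loc

theorem isLoc (ha : LinearIndependent ℚ a) : haveI := fun M => (h.lv M).nice
    IsLoc (chiA a) (fun M => (h.lv M).β) (fun M => (h.lv M).i)
      (τ.I ∘ₗ (pb B.F (G.φ hP h : C(_, _))).toLinearMap) := by
  haveI := fun M => (h.lv M).nice
  obtain ⟨_, p, u, hp, hu, -⟩ := TC.exists_isLoc h.lv (chiA_lin_ne ha)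
  have := (G.loc' hP h).push hp hu (f := fun _ => id) (fun _ => IsPr.id) (φ := G.φ hP h)
    (fun M z => (G.i_φ hP h M z.1 z.2).symm) fun M _ ⟨z, e⟩ => ⟨((G.φ hP h).symm z.1, z.2),
      (G.i_φ hP h M _ _).symm.trans ((congrArg (fun t => (h.lv M).i (t, z.2))
        ((G.φ hP h).apply_symm_apply _)).trans e)⟩
  simpa only [push_id'] using this

end Geo

end Vale.Agent.P269.LG
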