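import Vale.Agent.P287Q.G.LG.All
import Vale.Agent.P287Q.G.Bas.Num

/-! The series of an absolute problem as integrals. -/

set_option linter.unusedSectionVars false

namespace Vale.Agent.P269.LG

open Set Function Vale.Agent.P291Z Fock

variable {S Λ R J K ν : Type} [Fintype S] [Fintype Λ] [Fintype R] [Fintype J] [Fintype K]
  [Fintype ν] [DecidableEq R] {F : Fam S Λ R J K} {k D : ℕ} {A : Set ((Λ → ℂ) × (J → ℂ))}
  {V : Type} [AddCommGroup V] [Module ℂ V] {p : Par ℂ V} {i : V →ₗ[ℂ] H (F.X A)}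

namespace Num

theorem enum_nil {α β : Type} [IsEmpty α] : Enum ([] : List (α × β)) := ⟨.nil, isEmptyElim⟩

theorem ind_univ {Y : Type} : ind (univ : Set Y) = 1 :=
  fn_one ▸ Subtype.ext (funext fun l => by rcases l with _ | ⟨y, _ | ⟨z, l⟩⟩ <;> simp [ind, fn])

theorem itg_eq {ι κ : Type} [Fintype ι] [DecidableEq ι] [Fintype κ] [IsEmpty κ] {ch : Ch ι J}
    {Z : Set (ch.WF ν κ Λ)} (v : BM (Quo (Ch.actF F.toWt) Z)) : F.itg v = Loc.intg v := by
  rw [Fam.itg, Fam.dgT, Finset.univ_eq_empty, Finset.toList_empty]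
  rfl

/-- integrals of absolute problems without nodes at every big level -/
theorem inv_eq_intg {κ : Type} [Fintype κ] [IsEmpty κ] (hW : St.WellD) (hN : F.Nice 0) (hA : F.Abs)
    (hC : F.Cp) (hk : F.Big k) (hD : F.BigD k D) (g : ℤ) (d : R → ℤ) {fs : List (Fac F.toWt ν κ)}
    (hf : ∀ f ∈ fs, f.Ok F 0) : F.inv k g d 0 (fun _ => True) fs =
      Loc.intg (F.vir κ k D g d (0 : ν → J → ℕ)) (fs.map (F.cl _)).prod := by
  obtain ⟨a, ⟨r, b⟩, -⟩ := hN.dg St.dg
  have l : F.Lvl k D g d (0 : ν → J → ℕ) (fun _ => True) fs :=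
    ⟨hD, hN.gz κ hk hD g d (0 : ν → ℕ), by rw [Fam.sel_true hD]; exact isClopen_univ,
      hN.toGood.isCompact_dia hC hk hD _, fun f c => hN.at_of_ok (u := 0) hk hD (hf f c),
      isEmptyElim⟩
  rw [hW F k D g d fs hN hA hC hk hD hf, l.intg_eq a b, Fam.sel_true hD, ind_univ, hcls_one,
    one_mul, itg_eq, Fam.clL_eq (by
      rw [List.eq_nil_iff_forall_not_mem (l := fs.filterMap Fac.dq) |>.2 isEmptyElim]; exact .nil)]
  refine congrArg (Loc.intg _ <| List.prod ·) (List.map_congr_left fun f _ => ?_)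
  cases f
  exacts [rfl, rfl, rfl, isEmptyElim ‹κ›, rfl]

end Num

theorem ser0_eq_intg (hS : St.Spec) (hW : St.WellD) (hR : St.Rel) (hN : F.Nice 0) (hA : F.Abs)
    (hC : F.Cp) (hk : F.Big k) (hD : F.BigD k D) (hA' : F.cone ⊆ A) (hi : IsEv p (parH _) i)
    (Θ : MvPolynomial (J × ℕ) ℂ) (g : ℤ) (d : R → ℤ) {L : List (ν × ℕ × V)} (hL : Enum L) :
    F.ser0 k (F.exT Θ) p i d (g - 1) (L.map fun x => ι _ (Finsupp.single x.2.1 x.2.2)).prod =
      Loc.intg (F.vir (Fin 0) k D g d (0 : ν → J → ℕ)) (F.cl _ (.tw Θ) * (L.map fun x =>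
        F.cl _ (.psi (.inl x.1)) ^ x.2.1 * F.cl _ (.ev (.inl x.1) A (i x.2.2))).prod) := by
  have h : F.CorOk k (F.exT Θ) 0 A A :=
    ⟨hN, hC, hk, (St.selC F k Θ univ 1 hN.toGood hk (subset_univ _) (one_mem _)).1, hA',
      fun _ a => hA' a.1⟩
  have a := h.cor_eq (ν₃ := Fin 0) (κ := Fin 0) d hR (g - 1) (t := 0)
    (hL.map_snd fun x => (x.2.1, i x.2.2)) Num.enum_nil Num.enum_nil nofun
  have u : (fun n => (0 : ν → ℕ) (Equiv.sumEmpty ν (Fin 0) n)) =
      (Sum.elim 0 fun s => (0 : Fin 0 → ℕ) s + 1 : ν ⊕ Fin 0 → ℕ) :=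
    funext (Sum.rec (fun _ => rfl) isEmptyElim)
  have v := h.iv (ν₃ := Fin 0) (κ := Fin 0) d g 0 (L.map fun x => (x.1, x.2.1, i x.2.2))
    Num.enum_nil []
  have b := hR F 0 k g d (Equiv.sumEmpty ν (Fin 0)) (.refl (Fin 0)) 0 _ (fun _ => True) _
    (u.symm ▸ v) fun _ => Iff.rfl
  rw [Fam.ser0, LinearMap.comp_apply, AlgHom.toLinearMap_apply,
    show Fock.map _ _ _ = monT p (L.map Prod.snd) [] by simp [monT, map_list_prod, comp_def],
    (hS F 0 k _ (A' := A) p i hN hC hk h.ex hA' hi).1 rfl, List.map_map]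
  rw [List.map_map, Fintype.card_fin, Nat.cast_zero, sub_zero, sub_add_cancel] at a
  refine a.trans ((congrArg (fun u : ν ⊕ Fin 0 → ℕ => F.inv k g d (fun n => u n • 0) _ _)
    u).symm.trans (b.symm.trans ((Num.inv_eq_intg hW hN hA hC hk hD g d (List.forall_mem_map.2
      (Wt.forall_fsW (P := fun f => Fac.Ok F 0 (f.re _ _)) (fun _ => trivial) (fun _ => trivial)
        trivial (subset_univ _) (fun _ _ _ c => hA' c.1) isEmptyElim))).trans (congrArg _ ?_))))
  simp only [Wt.fsW, List.map_cons, List.map_append, List.map_flatten, List.map_map, comp_def,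
    List.map_replicate, List.map_nil, List.prod_cons, List.prod_flatten, List.prod_append,
    List.prod_replicate, List.prod_nil, mul_one, List.flatten_nil, Fac.re]
  exact congrArg _ ((congrArg (· * _) (((hN.gz (Fin 0) hk hD g d (0 : ν → ℕ)).cl_par
    (fun _ _ => mem_univ _) 1).trans (map_one _))).trans (one_mul _))

end Vale.Agent.P269.LG
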