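import Vale.Agent.P287Q.G.LG.LevB
import Vale.Agent.P287Q.G.LG.Num
import Vale.Agent.P287Q.G.LG.TopB
import Vale.Agent.P287Q.G.LG.Bas

/-! The global localisation formula. -/

set_option linter.unusedSectionVars false
set_option linter.style.haveILetI false
set_option maxSynthPendingDepth 3

namespace Vale.Agent.P269.LG

open Set Function Topology Filter TensorProduct B Vale.Agent.P291Z Vale.Agent.P269.Ch
  Vale.Agent.P269.Loc

namespace HGP

theorem mul_pow_eq {A : Type} [Ring A] {e x y : A} (h : ∀ z, e * z = z * e) (a : e * x = e * y) :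
    ∀ n : ℕ, e * x ^ n = e * y ^ n
  | 0 => by rw [pow_zero, pow_zero]
  | n + 1 => by
    rw [pow_succ, pow_succ, ← mul_assoc, mul_pow_eq h a n, h, mul_assoc, a, ← mul_assoc, ← h,
      mul_assoc]

theorem piece {Y : Type} [TopologicalSpace Y] {U : Set Y} (hU : IsClopen U) {c : H Y}
    (h : H.map (⟨Subtype.val, continuous_subtype_val⟩ : C(U, Y)) c = 0) :
    hcls (fn (U.indicator 1)) * c = 0 := by
  rcases U.eq_empty_or_nonempty with rfl | a
  · rw [indicator_empty', TopP.fn_zero, hcls_zero, zero_mul]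
  haveI := a.to_subtype
  obtain ⟨r, hr⟩ := TopP.exists_retr (φ := ⟨Subtype.val, continuous_subtype_val⟩)
    IsEmbedding.subtypeVal (Subtype.range_coe (s := U) ▸ hU :)
  rw [← H.map_id (f := .id Y) (fun _ => rfl) c, ← TopP.ind_mul_map hU
    (f := .comp ⟨Subtype.val, continuous_subtype_val⟩ r) (g := .id Y) fun y hy => hr y ⟨⟨y, hy⟩, rfl⟩,
    ← H.map_map, h, map_zero, mul_zero]

theorem sum_ind {Y α : Type} [TopologicalSpace Y] [Nice Y] [Fintype α] {U : α → Set Y}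
    (hU : ∀ i, IsClopen (U i)) (h : ∀ y, ∃! i, y ∈ U i) :
    ∑ i, hcls (fn ((U i).indicator 1)) = 1 := by
  rw [← hcls_sum _ fun i _ => Orb.cocycle_fn.2 (TopP.lc_ind (hU i)), ← fn_sum, ← hcls_one, ← fn_one]
  refine congrArg (hcls <| fn ·) (funext fun y => ?_)
  obtain ⟨i, a, b⟩ := h y
  rw [Finset.sum_apply, Finset.sum_eq_single i
    (fun j _ e => indicator_of_notMem (mt (b j) e) _) (by simp), indicator_of_mem a, Pi.one_apply]

theorem exists_poly {σ : Type} (a : σ → ℂ) (Q : Loc.R σ) : ∃ q : Polynomial ℂ,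
    Polynomial.aeval tt q = chiA a Q ∧ q.coeff 0 = MvPolynomial.constantCoeff Q := by
  refine ⟨MvPolynomial.aeval (fun i => a i • Polynomial.X) Q, ?_, ?_⟩
  · exact AlgHom.congr_fun (MvPolynomial.algHom_ext (f := (Polynomial.aeval tt).comp
      (MvPolynomial.aeval fun i => a i • Polynomial.X)) (g := chiA a) fun i => by simp [chiA]) Q
  · exact RingHom.congr_fun (MvPolynomial.ringHom_ext (f := Polynomial.constantCoeff.comp
      (MvPolynomial.aeval fun i => a i • Polynomial.X : Loc.R σ →ₐ[ℂ] _).toRingHom)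
      (g := MvPolynomial.constantCoeff) (by simp) (by simp)) Q

variable {σ : Type} [Fintype σ] {X : ℕ → Type} [∀ M, TopologicalSpace (X M)] {A : Type}
  [TopologicalSpace A] (k : ∀ M, C(X M, X (M + 1))) (i : ∀ M, C(A × Bs σ M, X M))
  (χ : Loc.R σ →ₐ[ℂ] F)

/-- `y` is the restriction of the equivariant class `α` -/
def Lf (α : ∀ M, H (X M)) (y : F ⊗[ℂ] H A) : Prop :=
  α ∈ Tws k ∧ ∃ x, (∀ M, H.map (i M) (α M) = evA A M x) ∧ bc _ χ x = y

variable {k i χ} {α α' : ∀ M, H (X M)} {y y' : F ⊗[ℂ] H A}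

theorem Lf.mul (h : Lf k i χ α y) (h' : Lf k i χ α' y') : Lf k i χ (α * α') (y * y') :=
  let ⟨a, x, b, c⟩ := h
  let ⟨a', x', b', c'⟩ := h'
  ⟨Tws.mul a a', x * x', fun M => by rw [map_mul, ← b, ← b', ← map_mul]; rfl, by rw [map_mul, c, c']⟩

theorem Lf.one : Lf k i χ 1 1 :=
  ⟨Tws.one, 1, fun _ => (map_one _).trans (map_one _).symm, map_one _⟩

theorem Lf.pow (h : Lf k i χ α y) : ∀ n : ℕ, Lf k i χ (α ^ n) (y ^ n)
  | 0 => by rw [pow_zero, pow_zero]; exact Lf.one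
  | n + 1 => by rw [pow_succ, pow_succ]; exact (h.pow n).mul h

theorem Lf.sum {β : Type} [Fintype β] {α : β → ∀ M, H (X M)} {y : β → F ⊗[ℂ] H A}
    (h : ∀ b, Lf k i χ (α b) (y b)) : Lf k i χ (∑ b, α b) (∑ b, y b) := by
  choose x a b using fun b => (h b).2
  exact ⟨sum_mem fun b _ => (h b).1, ∑ b, x b, fun M => by
    simp only [Finset.sum_apply, map_sum, a], by simp only [map_sum, b]⟩

theorem Lf.prod {β : Type} {α : β → ∀ M, H (X M)} {y : β → F ⊗[ℂ] H A}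
    (h : ∀ b, Lf k i χ (α b) (y b)) : ∀ l : List β, Lf k i χ (l.map α).prod (l.map y).prod
  | [] => Lf.one
  | b :: l => (h b).mul (Lf.prod h l)

end HGP

open HGP

variable {R J K σ ν : Type} [Fintype R] [Fintype J] [Fintype K] [Fintype σ] [Fintype ν]
  [DecidableEq R] [DecidableEq σ] {P : PB R J K σ} {K₀ : RD R} {k D : ℕ} {g : ℤ}
  {d : Option R → ℤ} {a : σ → ℂ} {τ : Md P P.X ν g d}

theorem Md.existsUnique_cm (n : ν) (x : τ.A) : ∃! i, x ∈ τ.sel (Cm · n i) := by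
  obtain ⟨m, hm⟩ := τ.ex x
  simp only [τ.mem_sel (inv_cm n _) hm]
  exact existsUnique_of_exists_of_unique ((τ.fx hm).str.cm n) fun _ _ => Ov.unique (τ.fx hm).sol

theorem Md.clopen_cm (n : ν) (i : σ) : IsClopen (τ.sel (Cm · n i)) := by
  refine ⟨τ.cm n i, isClosed_compl_iff.1 (mem_of_eq_of_mem (s := {s | IsClosed s}) ?_
    ((toFinite {l | l ≠ i}).isClosed_biUnion fun l _ => τ.cm n l))⟩
  ext x
  obtain ⟨l, a, b⟩ := τ.existsUnique_cm n x
  exact ⟨fun u => mem_biUnion (fun e : l = i => u (e ▸ a)) a, fun u v =>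
    let ⟨j, c, e⟩ := mem_iUnion₂.1 u
    c ((b j e).trans (b i v).symm)⟩

theorem PB.Am.base_prod {ι κ β γ : Type} [Fintype ι] [DecidableEq ι] [Fintype κ] [Fintype γ]
    {ch : Ch ι (J ⊕ σ)} {e ℓ Z} {O : Set (ch.WF ν κ Empty)} {n} (h : P.Am e K₀ ℓ Z O n)
    (hE : (P.E ∅).Good) (L : List β) (q : β → Mk ν κ) (m : β → ℕ) (l : γ → ℕ) (v : β → γ → H P.X) :
    H.map (h.lv 0).base ((L.map fun x => ((fun _ => hcls (psiF (q x))) ^ m x * ∑ b,
      (fun M => h.ξM M (q x) ^ l b) * fun M => H.map (h.evM M (q x)) (v x b) :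
        ∀ M, H (Quo _ (P.ZM ν κ ch Z M)))).prod 0) =
    (L.map fun x => (P.E Z).cl _ (.psi (q x)) ^ m x * (P.E Z).cl _ (.ev (q x) (P.E ∅).cone
      (∑ b, (P.E ∅).lc _ 0 (Pi.single none 1) ^ l b *
        (P.E ∅).pb P.F.toWt (fun z => (z.1, z.2 ∘ .inl)) _ (v x b)))).prod := by
  rw [Pi.list_prod_apply, map_list_prod, List.map_map, List.map_map]
  refine congrArg List.prod (List.map_congr_left fun x _ => ?_)
  have hA : ∀ y ∈ P.Z0 ν κ ch Z, vl y (q x) ∈ (P.E ∅).cone := fun y hy =>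
    mem_of_eq_of_mem (show vl y (q x) = (Empty.elim, (vl y (q x)).2) from
      Prod.ext (Subsingleton.elim _ _) rfl) (PB.cone_iff.1 (vl_mem hy.1 _)).2.1
  rw [h.gz0.cl_ev _ hA, map_sum]
  simp only [← h.gz0.cl_ev _ hA, h.cl_ev _ hE, comp_apply, Pi.mul_apply, Pi.pow_apply,
    Finset.sum_apply, map_mul, map_pow, map_sum, h.base_psi, h.base_ξ, H.map_map,
    show (h.evM 0 (q x)).comp (h.lv 0).base = h.ev0 (q x) from ContinuousMap.ext (h.evM_base _)]
  rfl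

namespace Geo

variable (G : Geo k D a τ) (hP : P.Ok K₀ k D)
  {O : Set ((P.ch ν k D g d).WF ν (Fin 0) Empty)} {N : ℕ} (h : P.As K₀ ∅ O N)

/-- the inclusion in the Borel construction -/
noncomputable def iM (M : ℕ) : C(τ.A × Bs σ M,
    Quo (actF (P.EM ∅ M).toWt) (P.ZM ν (Fin 0) (P.ch ν k D g d) ∅ M)) := G.i M

/-- restrictions of equivariant classes -/
abbrev Lf := HGP.Lf (fun M => (h.lv M).inc (h.lv (M + 1))) G.iM (chiA a)

include hP

theorem exists_vl (M : ℕ) (n : ν) {z : τ.A × Bs σ M} {m} (hm : τ.Rp z.1 m) :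
    ∃ x l t, G.iM M z = Quo.mk _ x ∧ IsUnit t ∧ (par l m).vl (m.p (.inl n)) ∈ (P.EM ∅ M).cone ∧
      vl x.1 (.inl n) = (P.EM ∅ M).actT (1, t) ((par l m).vl (m.p (.inl n))) := by
  obtain ⟨p, e⟩ := HR.bp_surj z.2
  have s := G.pt M z.1 p m hm
  obtain ⟨x, b, c⟩ := id s
  obtain ⟨t, u, v⟩ := c.vl (W := (P.EM ∅ M).toWt) x.2.1.1.2.1 Fam.chart_wd'
  exact ⟨x, _, _, (congrArg (fun b => G.i M (z.1, b)) e.symm).trans b, u _,
    (s.sol (hP.good_EM0 M).toInv).2.2 _, v _⟩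

theorem evM_comp (M : ℕ) (n : ν) : (h.evM M (.inl n)).comp (G.iM M) = (τ.ev n).comp .fst :=
  ContinuousMap.ext fun z => by
    obtain ⟨m, hm⟩ := τ.ex z.1
    obtain ⟨x, l, t, b, c, e, f⟩ := G.exists_vl hP M n hm
    obtain ⟨_, u⟩ := G.ev n _ _ hm
    obtain ⟨s, v, w⟩ := (Lev.eqv_pr h.B h.abs).eqv (1, t) (Prod.isUnit_iff.2 ⟨isUnit_one, c⟩) _ e
    refine ((congrArg (h.evM M _) b).trans (Eq.symm (Quot.sound ⟨s, v, ?_⟩))).trans u.symm
    exact ((congrArg (fun z : _ × (J ⊕ σ → ℂ) => (Empty.elim, fun j => z.2 (Sum.inl j))) f).trans w).trans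
      (congrArg _ (Prod.ext (Subsingleton.elim _ _) rfl))

theorem i_eq (M : ℕ) : G.iM M = (h.lv M).i.comp (pr (G.φ hP h : C(_, _)) M) :=
  ContinuousMap.ext fun z => (G.i_φ hP h M z.1 z.2).symm

theorem map_e (M : ℕ) (f : Loc.R σ) : H.map (G.iM M) ((h.lv M).e f) = evA _ M (f ⊗ₜ 1) := by
  haveI := fun M => (h.lv M).nice
  rw [G.i_eq hP h, ← H.map_map, TC.map_i_e h.lv, map_evA, pb_tmul, map_one]

theorem lf_psi (n : ν) : G.Lf h (fun _ => hcls (psiF (.inl n))) (inF _ (τ.ψ n)) :=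
  let ⟨x, b, c⟩ := G.psi n
  ⟨h.psi_tws _, inH _ x, c, by rw [← b, inF_bc]⟩

theorem lf_ev (n : ν) (c : H P.X) :
    G.Lf h (fun M => H.map (h.evM M (.inl n)) c) (1 ⊗ₜ H.map (τ.ev n) c) :=
  haveI := hP.good.fp
  ⟨h.ev_tws _ c, 1 ⊗ₜ H.map (τ.ev n) c, fun M => by
    rw [H.map_map, G.evM_comp hP h, evA_tmul, map_one, map_one, one_mul, H.map_map], by
    rw [bc_tmul, map_one]⟩

theorem lf_ξ (n : ν) (l : ℕ) : G.Lf h (fun M => h.ξM M (.inl n) ^ l)
    (∑ i, inF _ (τ.id (Cm · n i)) *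
      (-((a i • tt) ⊗ₜ 1 + 1 ⊗ₜ H.map (τ.ev n) (P.F.lc _ 0 (P.wL i)))) ^ l) := by
  refine ⟨Tws.pow (h.ξ_tws _) l, ∑ i, 1 ⊗ₜ hcls (fn ((τ.sel (Cm · n i)).indicator 1)) *
    (-(MvPolynomial.X i ⊗ₜ 1 + 1 ⊗ₜ H.map (τ.ev n) (P.F.lc _ 0 (P.wL i)))) ^ l, fun M => ?_, ?_⟩
  · have c := fun i => (τ.clopen_cm n i).preimage (continuous_fst (Y := Bs σ M))
    rw [← one_mul (H.map _ _), ← sum_ind c fun z => τ.existsUnique_cm n z.1, Finset.sum_mul, map_sum]
    refine Finset.sum_congr rfl fun i _ => ?_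
    rw [map_mul, map_pow, map_pow, evA_tmul, map_one, map_one, one_mul,
      TopP.map_fn' _ (TopP.lc_ind (τ.clopen_cm n i))]
    refine mul_pow_eq (Hev.commute (fn_mem_Hev _)) ?_ l
    rw [map_neg, map_add, ← G.map_e hP h, evA_tmul, map_one, map_one, one_mul, H.map_map,
      ← G.evM_comp hP h, ← H.map_map, mul_neg, eq_neg_iff_add_eq_zero, ← mul_add, ← map_add,
      ← map_add, ← add_assoc]
    refine piece (c i) ((H.map_map _ _ _).trans
      (h.ξ_fix M _ hP.good (hP.good_EM0 M) i _ fun ⟨z, m, hm, b⟩ => ?_))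
    obtain ⟨x, _, t, e, -, -, f⟩ := G.exists_vl hP M n hm
    exact ⟨x, e, fun j q => (congrArg (·.2 (.inr j)) f).trans
      ((congrArg (_ * ·) (b j q)).trans (mul_zero _))⟩
  · simp only [map_sum, map_mul, map_pow, map_neg, map_add, bc_tmul, map_one, chiA_X]
    rfl

theorem loc_lf (ha : LinearIndependent ℚ a) {α y} (e : G.Lf h α y) : ∃ Q : Polynomial ℂ,
    Polynomial.aeval tt Q = τ.I y ∧ Q.coeff 0 = intg h.tc.β₀ (H.map (h.lv 0).base (α 0)) := by
  haveI := fun M => (h.lv M).nice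
  obtain ⟨b, x, c, rfl⟩ := e
  obtain ⟨Q, u, v⟩ := TC.loc h.lv (chiA_lin_ne ha) (G.isLoc hP h ha) b
    (x := pb _ ((G.φ hP h).symm : C(_, _)) x) fun M => by
      rw [← map_evA, ← c, H.map_map]
      exact congrArg (H.map · _) (ContinuousMap.ext fun z => (congrArg (fun t => (h.lv M).i (t, z.2))
        ((G.φ hP h).apply_symm_apply _).symm).trans (G.i_φ hP h M _ _))
  obtain ⟨q, r, s⟩ := exists_poly a Q
  refine ⟨q, r.trans (u.trans (congrArg τ.I ?_)), s.trans v⟩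
  rw [bc_pb, AlgHom.toLinearMap_apply, pb_pb, Homeomorph.symm_comp_toContinuousMap, pb_id]

end Geo

/-- **the global formula** -/
theorem GeoT.hG {V : Type} [AddCommGroup V] [Module ℂ V] {p : Fock.Par ℂ V} {ι : Type} [Fintype ι]
    {fr : Fock.Frame p ι} {r : ℕ} {P : PB R J K (Fin (r + 1))} {ac : Act fr (Hev P.X)}
    {E : Dic ac P.X} {w c i₀ iP} {T : Th P P.X} (G : GeoT k D w T) (hC : Cx P k E w c i₀ iP)
    (hD : (P.E ∅).BigD k D) (hS : St.Spec) (hW : St.WellD) (hR : St.Rel) :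
    HG T E (chi w c) (ZEs p P k iP) := fun ν _ g d L hL => by
  have hP := hC.ok hD
  obtain ⟨O, h⟩ := hP.exists_as ν g d (Z := ∅) empty_ne_univ
  obtain ⟨Q, a, b⟩ := (G ν g d).loc_lf hP h hC.li (Lf.prod (fun x : ν × ℕ × (Fin (r + 1) → V) =>
    (((G ν g d).lf_psi hP h x.1).pow x.2.1).mul (Lf.sum fun l : Fin (r + 1) =>
      ((G ν g d).lf_ξ hP h x.1 l).mul ((G ν g d).lf_ev hP h x.1 (E.jH (x.2.2 l))))) L)
  refine ⟨Q, a.trans (congrArg _ (congrArg List.prod (List.map_congr_left fun x _ => ?_))),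
    b.trans ?_⟩
  · rw [map_pow, Finset.sum_comm]
    refine congrArg _ (Finset.sum_congr rfl fun l _ => (Finset.sum_mul _ _ _).trans
      (Finset.sum_congr rfl fun i _ => ?_))
    rw [Md.evH_act, mul_assoc, map_pow, map_pow, map_neg, map_neg, chi, map_add, map_add,
      (hC.lc i).symm.trans (congrArg Subtype.val (hC.jC _)).symm,
      ← map_one (H.map ((T ν g d).ev x.1)),
      show (1 : H P.X) = (E.jC 1).1 from (congrArg Subtype.val (map_one E.jC)).symm]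
    rfl
  · have u := ser0_eq_intg hS hW hR
      ((PB.abs hP.abs).nice hP.goodE (PB.reg hP.B hP.abs hP.reg) PB.sm_E) (PB.abs hP.abs)
      (@Finite.compactSpace _ _ (inferInstanceAs (Finite (Quot _)))) hP.big hD Subset.rfl hC.evP 1
      g d hL
    rw [Fam.cl_tw_one, one_mul, hP.vir_E' h hP.goodE] at u
    refine Eq.trans (congrArg _ ((h.base_prod hP.goodE L (fun x => .inl x.1) (fun x => x.2.1)
      (fun l : Fin (r + 1) => l) fun x l => E.jH (x.2.2 l)).trans ?_)) u.symm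
    simp only [hC.ip, hC.i0]

end Vale.Agent.P269.LG
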