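import Vale.Agent.P287Q.G.LG.HNA

/-! Normalisation of a node in localisation: the formal part, with a push-forward formula. -/

set_option linter.unusedSectionVars false

namespace Vale.Agent.P269.LG

open Set Function Topology Filter Module TensorProduct B Vale.Agent.P291Z Vale.Agent.P269.Ch
  Vale.Agent.P269.Orb Vale.Agent.P269.Loc Vale.Agent.P269.Holo HNA

variable {σ : Type} [Fintype σ] {A A' AL : Type} [TopologicalSpace A] [TopologicalSpace A']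
  [TopologicalSpace AL] [Nice A] [CompactSpace A] [Nice A'] [CompactSpace A'] [Nice AL]
  [CompactSpace AL] {X X' XL : ℕ → Type} [∀ M, TopologicalSpace (X M)] [∀ M, Nice (X M)]
  [∀ M, TopologicalSpace (X' M)] [∀ M, Nice (X' M)] [∀ M, TopologicalSpace (XL M)]
  [∀ M, Nice (XL M)] {Y' Y : HO} {h' : TH σ Y'} {h : TH σ Y} {m : Mor Y'.toSp Y.toSp} (e : Imm m)
  (he : h.toTS.IsEq h'.toTS m) (hb : ∀ s v, e.L (h'.b s v) = h.b s (e.L v))
  {ν : ∀ M, VB (h'.toTS.B M)} (hν : Nonempty Y'.T → ∀ M, IsNb e he hb (ν M))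
  {jL : ∀ M, C(XL M, (h'.toTS.B M).X)} {gL : C(AL, Y'.X)} {iL : ∀ M, C(AL × Bs σ M, XL M)}
  {k : KP Y.toSp} (κ : TKP h.toTS k) {j : ∀ M, C(X M, (h.toTS.B M).X)} {g : C(A, Y.X)}
  {i : ∀ M, C(A × Bs σ M, X M)} {i' : ∀ M, C(A' × Bs σ M, X' M)} {χ : R σ →ₐ[ℂ] F}
  {I : F ⊗[ℂ] H A →ₗ[F] F} {I' : F ⊗[ℂ] H A' →ₗ[F] F} {β' : ∀ M, BM (X' M)}

include hν in
/-- **an immersion and a push-forward** -/
theorem imm_push (hP : Pc h.toTS k.Zs j g i) (hL : Pc h'.toTS (m.f ⁻¹' k.Zs) jL gL iL)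
    {φ : C(AL, A)} (hφ : ∀ z, g (φ z) = m.map (gL z)) {ε : R σ ⊗[ℂ] Hev AL}
    (hε : ∀ M, H.map ((jL M).comp (iL M)) (ν M).eu.1 = evA AL M (inH _ ε))
    (hχ : ∀ w ≠ 0, χ (lin w) ≠ 0)
    (hI : IsLoc χ (fun M => (κ.bo (pm σ M)).vir (j M) (h.fundB M)) i I) (hI' : IsLoc χ β' i' I')
    {Φ : ∀ M, XL M → X' M} (hΦ : ∀ M, IsPr (Φ M)) {θ : ∀ M, H (X' M)} (hθ : ∀ M, θ M ∈ Hev _)
    (hg : ∀ M, push (Φ M) (((κ.pb he).bo (pm σ M)).vir (jL M) (h'.fundB M)) = cap (θ M) (β' M))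
    {φ' : C(AL, A')} (hsq : ∀ M z, Φ M (iL M z) = i' M (pr φ' M z))
    (hr : ∀ M, Φ M ⁻¹' range (i' M) ⊆ range (iL M)) {δ : R σ ⊗[ℂ] H A'}
    (hδ : ∀ M, H.map (i' M) (θ M) = evA A' M δ) {η : F ⊗[ℂ] Hev A'}
    (hη : pbE φ' η * bc _ χ ε = 1) : ∃ n : A → ℕ, IsLocallyConstant n ∧
      (∀ z t, g z = Y.π t → Cnt m {t' | Y'.π t' ∈ range gL} t (n z)) ∧
      ∀ x x', pb F φ x = pb F φ' x' →
        I (inF _ (fnE fun z => (n z : ℂ)) * x) = I' (inF _ η * bc _ χ δ * x') := by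
  obtain ⟨IL, hIL⟩ := hL.exists_isLoc hχ (isTw_vir (κ.pb he) hL.emb hL.rng)
  obtain ⟨n, n1, n2, n3⟩ : ∃ n : A → ℕ, IsLocallyConstant n ∧
      (∀ z t, g z = Y.π t → Cnt m {t' | Y'.π t' ∈ range gL} t (n z)) ∧
      ∀ y, IL (pb F φ y * inF _ (pbE φ' η)) = I (inF _ (fnE fun z => (n z : ℂ)) * y) := by
    rcases isEmpty_or_nonempty Y'.T with h0 | h0
    · have : IsEmpty AL := gL.1.isEmpty
      refine ⟨0, .const 0, fun _ _ _ => ⟨Fin.elim0, fun a => a.elim0, fun t => isEmptyElim t⟩,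
        fun y => ?_⟩
      rw [Subsingleton.elim (_ * _) 0, map_zero, show (fun z => ((0 : A → ℕ) z : ℂ)) = 0 from
        funext fun _ => Nat.cast_zero, fnE_zero, map_zero]
      exact ((congrArg I (zero_mul y)).trans (map_zero I)).symm
    · exact imm_unit e he hb (hν h0) κ hP hL hφ hε hχ hI hIL hη
  refine ⟨n, n1, n2, fun x x' hx => ?_⟩
  rw [← n3, hx, ← pb_inF, ← map_mul, hIL.push_eq (hI'.cap hδ) hΦ hg hsq hr, LinearMap.comp_apply,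
    LinearMap.mulRight_apply, mul_assoc (inF _ η),
    comm_of_ev χ (fun M => hδ M ▸ map_mem_Hev _ (hθ M)), ← inF_comm, mul_assoc]

set_option maxSynthPendingDepth 3 in
include hν in
/-- **(HN), formal part**: the same over an open and closed part `U` of the second fixed locus -/
theorem imm_push_part (hP : Pc h.toTS k.Zs j g i) (hL : Pc h'.toTS (m.f ⁻¹' k.Zs) jL gL iL)
    {φ : C(AL, A)} (hφ : ∀ z, g (φ z) = m.map (gL z)) {ε : R σ ⊗[ℂ] Hev AL}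
    (hε : ∀ M, H.map ((jL M).comp (iL M)) (ν M).eu.1 = evA AL M (inH _ ε))
    (hχ : ∀ w ≠ 0, χ (lin w) ≠ 0)
    (hI : IsLoc χ (fun M => (κ.bo (pm σ M)).vir (j M) (h.fundB M)) i I) (hI' : IsLoc χ β' i' I')
    {Φ : ∀ M, XL M → X' M} (hΦ : ∀ M, IsPr (Φ M)) {θ : ∀ M, H (X' M)} (hθ : ∀ M, θ M ∈ Hev _)
    (hg : ∀ M, push (Φ M) (((κ.pb he).bo (pm σ M)).vir (jL M) (h'.fundB M)) = cap (θ M) (β' M))
    {φ' : C(AL, A')} (hsq : ∀ M z, Φ M (iL M z) = i' M (pr φ' M z))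
    (hr : ∀ M, Φ M ⁻¹' range (i' M) ⊆ range (iL M)) {U : Set A'} (hU : IsClopen U)
    {δ : R σ ⊗[ℂ] H U} {δF : F ⊗[ℂ] H A'}
    (hδ : ∀ M, H.map ((i' M).comp (pr ⟨_, continuous_subtype_val⟩ M)) (θ M) = evA U M δ)
    (hF : bc _ χ δ = pb F ⟨_, continuous_subtype_val⟩ δF) {η : F ⊗[ℂ] Hev A'}
    (hη : pbE φ' (idE U) * (bc _ χ ε * pbE φ' η - 1) = 0) : ∃ n : A → ℕ, IsLocallyConstant n ∧
      (∀ z t, g z = Y.π t → Cnt m {t' | Y'.π t' ∈ gL '' (φ' ⁻¹' U)} t (n z)) ∧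
      ∀ x x', pb F φ x = pb F φ' x' →
        I (inF _ (fnE fun z => (n z : ℂ)) * x) = I' (inF _ (idE U * η) * δF * x') := by
  classical
  have hU' := hU.preimage φ'.continuous
  have := Nice.of_isLocallyClosed hU.isClosed.isLocallyClosed
  have := Nice.of_isLocallyClosed hU'.isClosed.isLocallyClosed
  have := isCompact_iff_compactSpace.1 hU.isClosed.isCompact
  have := isCompact_iff_compactSpace.1 hU'.isClosed.isCompact
  let v : C(U, A') := ⟨_, continuous_subtype_val⟩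
  let w : C(φ' ⁻¹' U, AL) := ⟨_, continuous_subtype_val⟩
  let ψ : C(φ' ⁻¹' U, U) := ⟨fun z => ⟨φ' z.1, z.2⟩, by fun_prop⟩
  have s : v.comp ψ = φ'.comp w := rfl
  obtain ⟨IU, u1, u2⟩ := hI'.part (e := v) hU.isOpen.isOpenEmbedding_subtypeVal
  obtain ⟨n, n1, n2, n3⟩ := imm_push e he hb hν κ hP
    (hL.part (e := w) hU'.isOpen.isOpenEmbedding_subtypeVal) (φ := φ.comp w) (fun z => hφ z.1)
    (ε := pbR w ε) (fun M => by
      rw [inH_pbR, ← map_evA, ← hε, H.map_map]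
      rfl) hχ hI u1 hΦ hθ hg (φ' := ψ) (fun M z => hsq M _) (fun M y ⟨z, hz⟩ => by
      obtain ⟨x, rfl⟩ := hr M ⟨_, hz⟩
      have := (hI'.emb M).injective (hz.trans (hsq M x))
      exact ⟨(⟨x.1, mem_preimage.2 ((show z.1.1 = φ' x.1 from congrArg Prod.fst this) ▸ z.1.2)⟩,
        x.2), rfl⟩) hδ (η := pbE v η) (by
      have := congrArg (pbE w) hη
      rw [map_mul, pbE_idE _ hU, pbE_idE _ hU', show w ⁻¹' (φ' ⁻¹' U) = univ from
        Subtype.coe_preimage_self _, idE_univ] at this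
      have := (one_mul (M := F ⊗[ℂ] Hev (φ' ⁻¹' U)) _).symm.trans this
      rwa [map_zero, map_sub, map_one, sub_eq_zero, map_mul, pbE_pbE, ← s, ← pbE_pbE, pbE_bc,
        mul_comm] at this)
  refine ⟨n, n1, fun z t a => (n2 z t a).congr fun t' _ => ⟨fun ⟨x, hx⟩ => ⟨_, x.2, hx⟩,
    fun ⟨x, hx, b⟩ => ⟨⟨x, hx⟩, b⟩⟩, fun x x' hx => ?_⟩
  rw [n3 x (pb F v x') (by rw [pb_pb, s, ← pb_pb, ← pb_pb, hx]), hF, ← pb_inF, ← map_mul, ← map_mul,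
    u2, ← inF_fnE, ← inF_comm, map_mul (inF A'), mul_assoc (_ * inF A' η),
    mul_assoc (inF A' (idE U)), mul_assoc]
  exact congrArg (fun S => I' (inF _ (idE S) * (inF _ η * (δF * x')))) Subtype.range_coe

end Vale.Agent.P269.LG
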