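import Vale.Agent.P287Q.G.LG.HNS
import Vale.Agent.P287Q.G.LG.HNB
import Vale.Agent.P287Q.G.LG.Dg3

/-! Normalisation of a node in localisation: the classes. -/

set_option linter.unusedSectionVars false
set_option linter.style.haveILetI false

namespace Vale.Agent.P269.LG

open Set Function Topology Filter TensorProduct B Vale.Agent.P291Z Vale.Agent.P269.Ch
  Vale.Agent.P269.Loc HNA

variable {V : Type} [AddCommGroup V] [Module ℂ V] {p : Fock.Par ℂ V} {ι : Type} [Fintype ι]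
  {fr : Fock.Frame p ι} {C : Type} [CommRing C] [Algebra ℂ C] {R J K σ ν ν' : Type} [Fintype R]
  [Fintype J] [Fintype K] [Fintype σ] [Fintype ν] [Fintype ν'] [DecidableEq R] [DecidableEq σ]
  {P : PB R J K σ} {K₀ : RD R} {k D : ℕ} {g g' : ℤ} {d : Option R → ℤ} {a : σ → ℂ}

/-- the cotangent line classes on a space over the fixed locus -/
theorem Geo.psi_pb {τ : Md P P.X ν g d} (G : Geo k D a τ) {A : Type} [TopologicalSpace A]
    (φ : C(A, τ.A)) (n : ν) : ∃ x : Loc.R σ ⊗[ℂ] Hev A, bc _ (chiA a) x = pbE φ (τ.ψ n) ∧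
      ∀ M (f : C(A × Bs σ M, P.XM ν k D g d M)), (∀ z, f z = G.i M (pr φ M z)) →
        H.map f (hcls (psiF (.inl n))) = evA _ M (inH _ x) := by
  obtain ⟨x, a, b⟩ := G.psi n
  refine ⟨pbR φ x, by rw [← a, pbE_bc], fun M f e => ?_⟩
  rw [inH_pbR, ← map_evA, ← b, H.map_map]
  exact congrArg (H.map · _) (ContinuousMap.ext e)

section abs

variable {τ : Md P P.X ν g d} {τ' : Md P P.X (ν ⊕ Unit × Bool) g' d} (G : Geo k D a τ)
  (G' : Geo k D a τ') {A : Type} [TopologicalSpace A] [Nice A] [CompactSpace A] {XL : ℕ → Type}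
  [∀ M, TopologicalSpace (XL M)] {iL : ∀ M, C(A × Bs σ M, XL M)}
  {Ψ : ∀ M, C(XL M, P.XM ν k D g d M)} {Φ : ∀ M, C(XL M, P.XM (ν ⊕ Unit × Bool) k D g' d M)}
  {φ : C(A, τ.A)} {φ' : C(A, τ'.A)} (hsq : ∀ M z, Φ M (iL M z) = G'.i M (pr φ' M z))
include hsq

theorem Geo.nod_ψ (hq : ∀ M z, Ψ M (iL M z) = G.i M (pr φ M z)) (n : ν)
    (hψ : ∀ M, H.map (Φ M) (hcls (psiF (.inl (.inl n)))) = H.map (Ψ M) (hcls (psiF (.inl n)))) :
    pbE φ (τ.ψ n) = pbE φ' (τ'.ψ (.inl n)) := by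
  obtain ⟨x, a, b⟩ := G.psi_pb φ n
  obtain ⟨x', a', b'⟩ := G'.psi_pb φ' (.inl n)
  rw [← a, ← a']
  refine congrArg _ (inH_inj (evA_ext fun M => ?_))
  rw [← b M ((Ψ M).comp (iL M)) (hq M), ← b' M ((Φ M).comp (iL M)) (hsq M), ← H.map_map,
    ← H.map_map, hψ]

set_option maxSynthPendingDepth 3 in
theorem Geo.nod_eq (hP : P.Ok K₀ k D) (ha : LinearIndependent ℚ a) {ac : Act fr C} (E : Dic ac P.X)
    (hint : ∀ x, E.int x = P.F.intX _ x) {c : σ → C}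
    (hc : ∀ l, (E.jC (c l)).1 = P.F.lc _ 0 (P.wL l)) {χ : σ → F ⊗[ℂ] C}
    (hχ : ∀ l, χ l = (a l • tt) ⊗ₜ 1 + 1 ⊗ₜ c l) [∀ M, Nice (XL M)] {X : ℕ → Type}
    [∀ M, TopologicalSpace (X M)] [∀ M, Nice (X M)] {Y' Y : HO} {h' : TH σ Y'} {h : TH σ Y}
    {m : Mor Y'.toSp Y.toSp} (e : Imm m) (he : h.toTS.IsEq h'.toTS m)
    (hb : ∀ s v, e.L (h'.b s v) = h.b s (e.L v)) {N : ∀ M, VB (h'.toTS.B M)}
    (hν : Nonempty Y'.T → ∀ M, IsNb e he hb (N M)) {jL : ∀ M, C(XL M, (h'.toTS.B M).X)}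
    {gL : C(A, Y'.X)} {K : KP Y.toSp} (κ : TKP h.toTS K) {j : ∀ M, C(X M, (h.toTS.B M).X)}
    {gY : C(τ.A, Y.X)} {i : ∀ M, C(τ.A × Bs σ M, X M)} (hp : Pc h.toTS K.Zs j gY i)
    (hL : Pc h'.toTS (m.f ⁻¹' K.Zs) jL gL iL) (hφ : ∀ z, gY (φ z) = m.map (gL z))
    (hI : IsLoc (chiA a) (fun M => (κ.bo (pm σ M)).vir (j M) (h.fundB M)) i τ.I)
    (hε : ∀ M, H.map (jL M) (N M).eu.1 = -H.map (Φ M) (hcls (psiF (.inl (qq false)))) -
      H.map (Φ M) (hcls (psiF (.inl (qq true))))) (hΦ : ∀ M, IsClosedEmbedding (Φ M))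
    (hg : haveI := G'.nice; ∀ M, ∃ t n, Nd.IsD3 (P.EM ∅ M) t ∧
      IsDeg (2 * n) (evT (.inl (qq false)) (.inl (qq true)) (P.EM ∅ M).cone3 t :
        Coch (P.XM (ν ⊕ Unit × Bool) k D g' d M)) ∧
      push (Φ M) (((κ.pb he).bo (pm σ M)).vir (jL M) (h'.fundB M)) =
        cap (hcls (evT (.inl (qq false)) (.inl (qq true)) (P.EM ∅ M).cone3 t)) (P.vM _ k D g' d M))
    (hr : ∀ M, Φ M ⁻¹' range (G'.i M) ⊆ range (iL M))
    {Q : AM0 R J σ (ν ⊕ Unit × Bool) → Prop} {l : σ} {η : F ⊗[ℂ] Hev τ'.A} (hU : IsClopen (τ'.sel Q))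
    (hQ : ∀ m, Q m → Cm m (qq false) l ∧ Cm m (qq true) l)
    (hη : pbE φ' (τ'.id Q * ((-τ'.ψ (qq false) - τ'.ψ (qq true)) * η - 1)) = 0)
    {f : AM0 R J σ ν → ℕ} (hf : ∀ z t n, gY z = Y.π t →
      Loc.Cnt m {t' | Y'.π t' ∈ gL '' (φ' ⁻¹' τ'.sel Q)} t n → (n : ℂ) = τ.cf f z) :
    IsLocallyConstant (τ.cf f) ∧ ∀ x x', pb F φ x = pb F φ' x' → τ.I (inF _ (fnE (τ.cf f)) * x) =
      τ'.I (inF _ (τ'.id Q * η) * τ'.dg E χ l (qq false) (qq true) * x') := by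
  have := G'.nice
  have := Nice.of_isLocallyClosed hU.isClosed.isLocallyClosed
  choose t n t1 t2 t3 using hg
  obtain ⟨x, a, b⟩ := G'.psi_pb φ' (qq false)
  obtain ⟨x', a', b'⟩ := G'.psi_pb φ' (qq true)
  obtain ⟨δ, d1, d2⟩ := G'.dg3 hP E hint hc hχ (qq false) (qq true) l
    (⟨_, continuous_subtype_val⟩ : C(τ'.sel Q, τ'.A)) fun z => z.2.imp fun m b => ⟨b.1, hQ m b.2⟩
  obtain ⟨r, r1, r2, r3⟩ := imm_push_part e he hb hν κ hp hL hφ (ε := -x - x') (fun M => by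
      rw [map_sub, map_neg, map_sub, map_neg, ← b M ((Φ M).comp (iL M)) (hsq M),
        ← b' M ((Φ M).comp (iL M)) (hsq M), ← H.map_map, ← H.map_map, ← H.map_map, hε, map_sub,
        map_neg]) (chiA_lin_ne ha) hI G'.loc (fun M => .of_isClosedEmbedding (hΦ M))
    (fun M => mem_Hev (hcls_isDeg (t2 M))) t3 hsq hr hU (fun M => d2 M _ (t1 M)) d1 (η := η) (by
      rwa [map_mul, map_sub, map_one, map_mul, map_sub, map_neg, ← a, ← a', ← map_neg,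
        ← map_sub] at hη)
  have e : τ.cf f = fun z => (r z : ℂ) := funext fun z =>
    let ⟨t, e⟩ := Y.surj (gY z); (hf z t _ e.symm (r2 z t e.symm)).symm
  exact e ▸ ⟨r1.comp _, r3⟩

end abs

variable {τ : Md P P.X ν (g + 1) d} (G : Geo k D a τ) (hP : P.Ok K₀ k D)
  {O : Set ((P.ch ν k D (g + 1) d).WF ν (Fin 0) Empty)} {N : ℕ} (h : P.Al ν k D g d K₀ O N)

variable (P ν k D g d) in
/-- the normalised curves that can be glued -/
def PB.TM (M : ℕ) : Set (((P.ch ν k D (g + 1) d).re ((P.E ∅).nms ν (Fin 0 ⊕ Unit) k D g d)).WF ν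
    (Fin 0 ⊕ Unit) (σ × Fin (M + 1))) := (P.EM ∅ M).TL ν k D g d

variable (P ν k D g d) in
/-- the labelled spaces -/
abbrev PB.LM (M : ℕ) : Type := Quo (actG (P.EM ∅ M).toWt) (ZL (P.EM ∅ M) (P.TM ν k D g d M))

/-- the approximations of the labelled space -/
noncomputable def PB.Ok.ll (M : ℕ) :
    h.tl.Lv M (actG (P.EM ∅ M).toWt) (ZL (P.EM ∅ M) (P.TM ν k D g d M)) := h.ll hP.mem_TL

/-- forgetting the label -/
noncomputable def Geo.φL : C(h.tl.F, τ.A) := .comp ((G.φ hP h.toAm).symm : C(_, _)) h.mp.φ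

section lev

variable {M : ℕ} {Ψ : C(P.LM ν k D g d M, P.XM ν k D (g + 1) d M)}
  {Φ : C(P.LM ν k D g d M, P.XM (ν ⊕ Unit × Bool) k D g d M)} (hN : (P.EM ∅ M).GNc Ψ Φ)
include hN

theorem PB.psi_eq (n : ν) :
    H.map Φ (hcls (psiF (.inl (.inl n)))) = H.map Ψ (hcls (psiF (.inl n))) := hN.psi n

theorem PB.Ok.eu_eq : H.map (hP.ll h M).j (h.nb M).eu.1 =
    -H.map Φ (hcls (psiF (.inl (qq false)))) - H.map Φ (hcls (psiF (.inl (qq true)))) :=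
  (h.eu_nb hP.mem_TL).trans ((congrArg₂ (fun a b => -a - b) (hN.psiN false) (hN.psiN true)).trans
    ((sub_neg_eq_add _ _).trans (congrArg (· + _) (neg_neg _)))).symm

theorem PB.isPr [Nice (P.XM (ν ⊕ Unit × Bool) k D g d M)] : IsClosedEmbedding Φ :=
  haveI : CompactSpace (P.LM ν k D g d M) := hN.cpt
  Φ.continuous.isClosedEmbedding hN.inj

theorem PB.Ok.push_eq [Nice (P.XM (ν ⊕ Unit × Bool) k D g d M)] {t} (ht : Nd.IsD3 (P.EM ∅ M) t) :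
    push Φ (hP.ll h M).β = cap (hcls (evT (.inl (qq false)) (.inl (qq true)) (P.EM ∅ M).cone3 t))
      (P.vM _ k D g d M) := by
  obtain ⟨m, c⟩ := hN.co t ht
  have := (hP.ll h M).nice
  have v : ∀ e, e = P.td ν k D (g + 1) d → ((P.ch ν k D (g + 1) d).kdL ν (Fin 0) Unit _ (P.EM ∅ M)
      e).IsV _ _ (Zf (P.EM ∅ M) (P.TM ν k D g d M)) (hP.ll h M).β := fun _ e =>
    e ▸ h.isV (T' := P.TM ν k D g d M) hP.mem_TL
  exact (congrArg _ (hN.vir t ht _ (v _ (PB.td_eq ν k D _ d))).symm).trans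
    (push_gys_eq_cap (PB.isPr hN) c.cocycle c.supp _)

end lev

end Vale.Agent.P269.LG
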