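import Vale.Agent.P269.LG.BorL
import Vale.Agent.P287Q.G.LG.Geo
import Vale.Agent.P287Q.G.LG.OpsA

/-! The image of the fixed locus in the Borel construction. -/

set_option linter.unusedSectionVars false

namespace Vale.Agent.P269.LG

open Set Function Topology Vale.Agent.P291Z Vale.Agent.P269.Ch Vale.Agent.P269.Loc

section tc

variable {σ : Type} [Fintype σ] {A B W W' P : Type} [NormedRing A] [NormedAlgebra ℂ A]
  [NormedRing B] [NormedAlgebra ℂ B] [NormedAddCommGroup W] [NormedSpace ℂ W]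
  [NormedAddCommGroup W'] [NormedSpace ℂ W'] [AddCommGroup P] [Module ℂ P] [TopologicalSpace P]
  [FiniteDimensional ℂ A] [FiniteDimensional ℂ B] [FiniteDimensional ℂ W] [FiniteDimensional ℂ W']
  {act₀ : A → W → W} {act : B → W → W} {D : KD B W P} {Z : Set W} {c : TC σ act₀ act D Z} {M : ℕ}
  {act' : B → W' → W'} {Z' : Set W'} [IsTopologicalAddGroup P] [ContinuousSMul ℂ P] [T2Space P]

theorem TC.Lv.cl_eq (L : c.Lv M act' Z') {x y : W} {hx hy} {p q : PM σ M} :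
    L.cl x hx p = L.cl y hy q ↔ ∃ k : Aˣ × Tor σ, act₀ k.1 (c.b k.2 x) = y ∧ k.2 • p = q := by
  have := L.gd.isActZ
  refine ⟨fun e => ?_, fun ⟨k, e, e'⟩ => (L.cl_smul k hx p (e ▸ hy)).symm.trans (L.cl_congr e e')⟩
  obtain ⟨b, e⟩ := (Holo.Sp.mk_eq_iff (act := act')).1 e
  obtain ⟨k, rfl⟩ := c.U.surjective b
  have := L.μ.injective ((L.eqvU k x p.val).symm.trans (congrArg Holo.Sp.val e))
  exact ⟨k, congrArg Prod.fst this, Subtype.ext (congrArg Prod.snd this)⟩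

theorem TC.Lv.mem_range_i (L : c.Lv M act' Z') {x : W} (hx : x ∈ Z) (p : PM σ M) :
    L.cl x hx p ∈ range L.i ↔ x ∈ c.FZ := by
  refine ⟨fun ⟨⟨z, b⟩, e⟩ => ?_, fun h => ⟨_, L.i_cl x h p⟩⟩
  obtain ⟨y, hy, rfl⟩ := c.cl_surj z
  obtain ⟨q, rfl⟩ := isOpenQuotientMap_bp.surjective b
  obtain ⟨k, rfl, -⟩ := L.cl_eq.1 ((L.i_cl y hy q).symm.trans e)
  exact c.ivt_FZ _ k.1.isUnit _ (c.b_mem_FZ hy k.2)

end tc

variable {R J K σ ν Λ : Type} [Fintype R] [Fintype J] [Fintype K] [Fintype σ] [Fintype ν]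
  [Fintype Λ] [DecidableEq R] [DecidableEq σ] {P : PB R J K σ} {K₀ : RD R} {k D M : ℕ} {g : ℤ}
  {d : Option R → ℤ} {a : σ → ℂ} {Z : Set σ} {m m' : AM0 R J σ ν}

theorem PB.Ok.inv_EM (h : P.Ok K₀ k D) : (P.EM Z M).Inv :=
  PB.inv_fam h.good.toInv h.goodE.toInv (isOpen_PMs M).isLocallyClosed fun τ a l b i =>
    (b i).imp fun _ d => (PB.actL_EM τ l _).trans_ne (mul_ne_zero (isUnit_pi_iff.1 a i) d)

theorem sol_of_par {l} (h : (par l m).Sol (P.EM ∅ M)) : m.Sol (P.E ∅) :=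
  ⟨trivial, h.2.1, fun z => mem_of_eq_of_mem (show m.vl z = (Empty.elim, ((par l m).vl z).2) from
    Prod.ext (Subsingleton.elim _ _) rfl) (PB.cone_iff.1 (h.2.2 z)).2.1⟩

theorem tr_par {l l'} {e : m.X ≃ m'.X} {t τ}
    (h : AM.IsoD (P.EM Z M).toWt univ (par l m) (par l' m') e t τ) : Tr m m' id e :=
  ⟨h.liso, e.injective, fun x z => (AM.CmpP.node h x z :), fun _ => h.mark _, fun n _ _ => ⟨n, rfl⟩,
    fun r U _ => h.degOn_L r U, fun l x => (congrArg (· = 0) (h.y (.inr l) trivial x)).to_iff.trans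
      (mul_eq_zero.trans (or_iff_right (mul_ne_zero
        (prod_zpow_ne (isUnit_pi_iff.1 h.unit) _) (prod_zpow_ne (fun i => h.ne i x) _))))⟩

/-- the image of the fixed locus consists of fixed maps -/
theorem Geo.fx_of_range {τ : Md P P.X ν g d} (G : Geo k D a τ) (hP : P.Ok K₀ k D) {M : ℕ}
    {y : P.XM ν k D g d M} {p : PM σ M} {m : AM0 R J σ ν}
    (h : (P.EM ∅ M).At y (par (uncurry p.val) m)) (hy : y ∈ range (G.i M)) : Fx m P g d := by
  obtain ⟨⟨x, b⟩, rfl⟩ := hy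
  obtain ⟨q, rfl⟩ := isOpenQuotientMap_bp.surjective b
  obtain ⟨m', hm⟩ := τ.ex x
  obtain ⟨e, t, s, c⟩ := AM.iso_iff.1 ((h.eq_iff hP.bigD_fam (G.pt M x q m' hm)).1 rfl)
  have h1 := h.stable hP.bigD_fam
  have h2 := h.typ
  exact ⟨sol_of_par (h.sol hP.inv_EM), h1, h2, (tr_par (m := m) (m' := m') c).str (τ.fx hm).str⟩

/-- fixed maps lie in the image of the fixed locus -/
theorem Geo.mem_range_i {τ : Md P P.X ν g d} (G : Geo k D a τ) (hP : P.Ok K₀ k D) {M : ℕ}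
    {y : P.XM ν k D g d M} {p : PM σ M} {m : AM0 R J σ ν}
    (h : (P.EM ∅ M).At y (par (uncurry p.val) m)) : y ∈ range (G.i M) ↔ Fx m P g d :=
  ⟨G.fx_of_range hP h, fun b => let ⟨x, hx⟩ := τ.surj b
    ⟨(x, bp p), ((G.pt M x p m hx).eq_iff hP.bigD_fam h).2 (.refl _)⟩⟩

/-- the image of the fixed locus in the moduli space -/
theorem Geo.mem_range_g0 {τ : Md P P.X ν g d} (G : Geo k D a τ) (hP : P.Ok K₀ k D)
    {y : P.X0 ν k D g d} (h : (P.E ∅).At y m) : y ∈ range G.g0 ↔ Fx m P g d :=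
  ⟨fun ⟨x, e⟩ => τ.fx ((G.rp x m).2 (e ▸ h)), fun b => let ⟨x, hx⟩ := τ.surj b
    ⟨x, (((G.rp x m).1 hx).eq_iff hP.bigD h).2 (.refl _)⟩⟩

end Vale.Agent.P269.LG
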