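import Vale.Agent.P287Q.G.LG.HNC
import Vale.Agent.P287Q.G.LG.HNQ
import Vale.Agent.P287Q.G.Glu.Pts
import Vale.Agent.P287Q.G.Glu.Std0

/-! The labels over a stable map correspond to its oriented nodes. -/

set_option linter.unusedSectionVars false

namespace Vale.Agent.P269

open Set Function Topology Vale.Agent.P291Z Vale.Agent.P269.Ch Vale.Agent.P269.Ch.GPts

variable {S Λ R J K ν : Type} [Fintype S] [Fintype Λ] [Fintype R] [Fintype J] [Fintype K]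
  [Fintype ν] {F : Fam S Λ R J K}

theorem Ch.exists_lbls {ι κ κ' : Type} [Fintype ι] [DecidableEq ι] [Fintype κ] [Fintype κ']
    {ch : Ch ι J} {n : Nm ι J} {ℓ : R → ι → ℤ} {T : Set ((ch.re n).WF ν (κ ⊕ κ') Λ)} (hF : F.Inv)
    (hl : ch.Lat F.toWt ℓ) (hn : ch.GN n κ') (hT : Lev F T) {x : ch.WF ν κ Λ}
    (hx : x ∈ ch.solF ν κ F) (ha : x ∈ ch.adm ν κ F) {m : AM Λ R J ν κ} (r : Rep ℓ univ x m)
    (lab : Lab κ' n x.2) (hm : ∀ w, (x, w) ∈ Zf F ((ch.re n).adm ν (κ ⊕ κ') F) → μL x w ∈ T) :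
    ∃ w : {v : κ' × Bool → m.X // m.Nds v} → ch.WG n ν κ κ' Λ,
      (∀ v, w v ∈ ZL F T ∧ (w v).1 = x ∧ Rep ℓ univ (lf F (w v)) (m.cut v.2)) ∧
      ∀ z ∈ ZL F T, z.1 = x → ∃! v, ∃ a, IsUnit a ∧ a.1 = 1 ∧ actG F.toWt a (w v) = z := by
  obtain ⟨B, π, u, s, c⟩ := r.exists_data hx.1.2.1
  choose w w1 w2 using fun v : {v : κ' × Bool → m.X // m.Nds v} =>
    c.exists_lbl hF hl hn ha v.2 lab
  have w3 : ∀ v, (x, w v) ∈ ZL F T := fun v =>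
    ⟨⟨⟨(w1 v).1.1, hm _ (w1 v), (w1 v).1.2.2⟩, (w1 v).2⟩, hx⟩
  refine ⟨fun v => (x, w v), fun v => ⟨w3 v, rfl, (w2 v).rep_lf hl hn hT (w3 v) c v.2⟩, ?_⟩
  rintro ⟨y, w'⟩ hz e
  obtain rfl : x = y := Eq.symm e
  obtain ⟨v, hv, b⟩ := hz.1.1.1.exists_lbl c
  refine ⟨⟨v, hv⟩, (w2 ⟨v, hv⟩).orbit hn hT.adm (w3 _).1 hz.1 b,
    fun v' ⟨a, ha, h1, e⟩ => Subtype.ext ?_⟩
  have := (w2 v').act (Wg := F.toWt) (w1 v').1.1 ha h1
  rw [show actG F.toWt a (x, w v') = (x, w') from e] at this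
  exact Lbl.unique hz.1.1.1 c this b

namespace Fam

variable [DecidableEq R] {k D : ℕ} {g g' : ℤ} {d : R → ℤ}

theorem at_iff_rep [IsEmpty S] {κ : Type} [Fintype κ] {u : ν → J → ℕ} (hF : F.Inv)
    (hD : F.BigD k D) {x} {m : AM Λ R J ν κ} :
    F.At (Quo.mk _ x : F.Mod κ k D g d u) m ↔ Ch.Rep ℓs univ x.1 m := by
  refine ⟨fun ⟨y, a, b⟩ => ?_, fun b => ⟨x, rfl, b⟩⟩
  obtain ⟨s, hs, e⟩ := Ch.mk_eq_iff.1 a.symm
  obtain ⟨f, t, τ, c⟩ := AM.iso_iff.1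
    (AM.iso_scl (F := F.toWt) (A := univ) (m := m) (Prod.isUnit_iff.1 hs).1)
  rw [e]
  exact (b.actF y.2.1.1.2.1 hs).of_isoD (Ch.actF_mem_solF hF hs y.2.1).1.2.1 (chart_lat hD)
    (Subsingleton.elim τ 1 ▸ c)

/-- a label determines an oriented node -/
theorem exists_nds (hF : F.Inv) (hk : F.Big k) (hD : F.BigD k D) (hg : g = g' + 1)
    {z : F.WL ν k D g g' d} (hz : z ∈ F.SL ν k D g g' d) {m : AM Λ R J ν (Fin 0)}
    (r : Ch.Rep ℓs univ z.1 m) : ∃ v, ∃ h : m.Nds v, Ch.Rep ℓs univ (Ch.lf F z) (m.cut h) := by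
  obtain ⟨B, π, u, s, c⟩ := r.exists_data hz.2.1.2.1
  obtain ⟨v, hv, b⟩ := hz.1.1.1.exists_lbl c
  exact ⟨v, hv, b.rep_lf (chart_lat hD)
    (gn hk hD (by rw [hg, Fintype.card_unit, Nat.cast_one])) (lev_TL hF) hz c hv⟩

set_option linter.unusedVariables false in
/-- **labels and oriented nodes** -/
theorem exists_lbls (hF : F.Inv) (hA : F.Abs) (hk : F.Big k) (hD : F.BigD k D) (hg : g = g' + 1)
    {x : (F.sch ν (Fin 0) k D g d).WF ν (Fin 0) Λ} (hx : x ∈ Ch.solF _ ν (Fin 0) F)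
    {m : AM Λ R J ν (Fin 0)} (r : Ch.Rep ℓs univ x m) :
    ∃ w : {v : Unit × Bool → m.X // m.Nds v} → F.WL ν k D g g' d,
      (∀ v, w v ∈ F.SL ν k D g g' d ∧ (w v).1 = x ∧ Ch.Rep ℓs univ (Ch.lf F (w v)) (m.cut v.2)) ∧
      ∀ z ∈ F.SL ν k D g g' d, z.1 = x →
        ∃! v, ∃ a, IsUnit a ∧ a.1 = 1 ∧ F.acL ν k D g g' d a (w v) = z := by
  have hg' : g' + Fintype.card Unit = g := by rw [hg, Fintype.card_unit, Nat.cast_one]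
  have hn := gn (F := F) (ν := ν) (κ := Fin 0) (d := d) hk hD hg'
  have hp := sol_posG hF hk hD hx
  exact Ch.exists_lbls hF (chart_lat hD) hn (lev_TL hF) hx
    ((solF_subset_adm_iff hx).2 fun _ _ q => q.elim0) r (lab_posG hk hD hg' hp ⟨trivial, hx.1.2⟩)
    fun _ a => ⟨a.1.2.1, μG_pos hk hD a.1.1 a.1.2.1.1 hp⟩

variable {Ψ : C(F.ML ν k D g g' d, F.Mod (Fin 0) k D g d (0 : ν → J → ℕ))}
  {Φ : C(F.ML ν k D g g' d, F.Mod (Fin 0) k D g' d (0 : ν ⊕ Unit × Bool → J → ℕ))}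
  (G : F.GNc Ψ Φ) (hF : F.Inv) (hA : F.Abs) (hk : F.Big k) (hD : F.BigD k D) (hg : g = g' + 1)
include G hF hA hk hD hg

omit hA in
/-- a labelled map is a map with an oriented node -/
theorem GNc.pt (z : F.SL ν k D g g' d) {m : AM Λ R J ν (Fin 0)} (r : Ch.Rep ℓs univ z.1.1 m) :
    ∃ v, ∃ h : m.Nds v, F.At (Φ (Quo.mk _ z)) ((m.cut h).re (unp ν (Fin 0) Unit).toEmbedding) :=
  let ⟨v, h, a⟩ := exists_nds hF hk hD hg z.2 r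
  ⟨v, h, G.rep z _ a⟩

omit hA in
theorem GNc.pt' (y : F.ML ν k D g g' d) : ∃ m v, ∃ h : m.Nds v, F.At (Ψ y) m ∧
    F.At (Φ y) ((m.cut h).re (unp ν (Fin 0) Unit).toEmbedding) := by
  obtain ⟨z, rfl⟩ := Quot.exists_rep y
  obtain ⟨m, r⟩ := (chart_lat hD).exists_rep_sol z.2.2
  obtain ⟨v, h, a⟩ := G.pt hF hk hD hg z r
  obtain ⟨b, e⟩ := G.fst z
  exact ⟨m, v, h, ⟨_, e, r⟩, a⟩

/-- every oriented node has a label -/
theorem GNc.all {y} {m : AM Λ R J ν (Fin 0)} (hy : F.At y m) {v} (h : m.Nds v) :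
    ∃ y', Ψ y' = y ∧ F.At (Φ y') ((m.cut h).re (unp ν (Fin 0) Unit).toEmbedding) := by
  obtain ⟨x, rfl, r⟩ := hy
  obtain ⟨w, w1, -⟩ := exists_lbls hF hA hk hD hg x.2.1 r
  obtain ⟨b, e⟩ := G.fst ⟨_, (w1 ⟨v, h⟩).1⟩
  exact ⟨_, e.trans (congrArg _ (Subtype.ext (w1 ⟨v, h⟩).2.1)), G.rep _ _ (w1 ⟨v, h⟩).2.2⟩

/-- the fibres of the forgetful map are finite -/
theorem GNc.finite_fib (y) : (Ψ ⁻¹' {y}).Finite := by
  obtain ⟨x, m, rfl, r⟩ := exists_mk hD y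
  obtain ⟨w, w1, w2⟩ := exists_lbls hF hA hk hD hg x.2.1 r
  have : Finite {v : Unit × Bool → m.X // m.Nds v} := (finite_nds m).to_subtype
  refine (finite_range fun v => Quo.mk (F.acL ν k D g g' d) ⟨_, (w1 v).1⟩).subset fun y hy => ?_
  obtain ⟨z, rfl⟩ := Quot.exists_rep y
  obtain ⟨b, e⟩ := G.fst z
  obtain ⟨a, ha, e'⟩ := Ch.mk_eq_iff.1 (e.symm.trans hy)
  have u : IsUnit (show F.AL ν k D g g' d from (a, 1)) := AP.isUnit_iff.2 ⟨ha, isUnit_one⟩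
  have t : F.acL ν k D g g' d _ z.1 ∈ F.SL ν k D g g' d :=
    ⟨ivt_Zf (lev_TL hF).inv _ u _ z.2.1, actF_mem_solF hF ha z.2.2⟩
  obtain ⟨v, ⟨c, hc, -, f⟩, -⟩ := w2 _ t e'.symm
  exact ⟨v, (Quot.sound ⟨c, hc, f.symm⟩ : _ = Quo.mk _ ⟨_, t⟩).trans (Quot.sound ⟨_, u, rfl⟩).symm⟩

end Fam

end Vale.Agent.P269
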