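import Vale.Agent.P287Q.G.LG.LT
import Vale.Agent.P287Q.G.LG.Ops0
import Vale.Agent.P269.Pt.Iso
import Vale.Agent.P269.Pt.Glue

/-! Normalisation of an oriented node. -/

set_option linter.unusedSectionVars false

namespace Vale.Agent.P269.LG

open Set Function Topology Filter Cv B

variable {R J K σ ν ν' ν₁ ν₂ : Type} [Fintype R] [Fintype J] [Fintype K] [Fintype σ] [Fintype ν]
  [Fintype ν'] [Fintype ν₁] [Fintype ν₂] {P : PB R J K σ} {m m' : AM0 R J σ ν} {e : Edge σ}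
  {a b z : m.X} {i : σ} {s t : En ν} {g g₁ g₂ : ℤ} {d d₁ d₂ : Option R → ℤ} {k : ℕ}
  {β : σ → R → ℤ} {T : Set σ} {Q Q' : AM0 R J σ ν → Prop}

section ctp

variable {n : Unit × Bool → m.X} (h : m.Nds n)

theorem ctp_p_inl (a : ν) : (ctp m h).p (.inl (.inl a)) = m.p (.inl a) := rfl

theorem ctp_p_qq (b : Bool) : (ctp m h).p (.inl (qq b)) = n ((), b) := rfl

theorem sm_ctp : Sm (ctp m h).N z ↔ Sm m.N z ∨ z ∈ range n := by
  simp only [sm_iff, AC.jn_cut h, not_and', ← or_iff_not_imp_left]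
  exact forall_or_left.trans or_comm

theorem spc_ctp : Spc (ctp m h) z ↔ Spc m z := by
  refine ⟨?_, ?_⟩
  · rintro (⟨(a | a) | a, rfl⟩ | a)
    exacts [.inl ⟨.inl a, rfl⟩, .inr (h.not_sm a), a.1.elim0, .inr fun b => a ((sm_ctp h).2 (.inl b))]
  · rintro (⟨a | a, rfl⟩ | a)
    · exact .inl ⟨.inl (.inl a), rfl⟩
    · exact a.1.elim0
    · exact (em (z ∈ range n)).imp (fun ⟨c, e⟩ => ⟨.inl (.inr c), e⟩) fun b c =>
        ((sm_ctp h).1 c).elim a b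

theorem eg_ctp : Eg (ctp m h) e a b ↔ Eg m e a b :=
  ⟨fun c => { c with spc := fun z x y => c.spc z x ((spc_ctp h).2 y) },
    fun c => { c with spc := fun z x y => c.spc z x ((spc_ctp h).1 y) }⟩

theorem cm_ctp (a : ν) : Cm (ctp m h) (.inl a) i ↔ Cm m a i := Iff.rfl

theorem cm_ctp_qq (hs : m.Sol (P.E ∅)) :
    Cm (ctp m h) (qq false) i ↔ Cm (ctp m h) (qq true) i :=
  forall₂_congr fun l _ => Eq.congr_left (((AM.sol_cut h).1 hs).2 (.inr l) ())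

theorem nfl_ctp : nfl (ctp m h) = nfl m := congrArg ncard (Set.ext fun _ => eg_ctp h)

theorem vdeg_ctp : vdeg (ctp m h) = vdeg m := rfl

theorem pcs_ctp : Pcs k β (ctp m h) ↔ Pcs k β m := by
  rw [Pcs, Pcs, nfl_ctp, vdeg_ctp]

theorem str_ctp : Str (ctp m h) ↔ Str m :=
  forall_congr' fun _ => or_congr_right (exists₃_congr fun _ _ _ => and_congr_left' (eg_ctp h))

theorem card_ctp : (ctp m h).N.card + 1 = m.N.card := AC.card_cut h

theorem Fx.ctp (a : Fx m P (g + 1) d) : Fx (LG.ctp m h) P g d :=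
  ⟨((AM.sol_cut h).1 a.sol).1, (AM.re_stable _).2 ((AM.stable_cut h).2 a.stable),
    (AM.typ_cut h).2 a.typ, (str_ctp h).2 a.str⟩

theorem Fx.of_ctp (hs : m.Sol (P.E ∅)) (a : Fx (LG.ctp m h) P g d) : Fx m P (g + 1) d :=
  ⟨hs, (AM.stable_cut h).1 ((AM.re_stable _).1 a.stable), (AM.typ_cut h).1 a.typ,
    (str_ctp h).1 a.str⟩

omit h in
theorem exists_nds (h : ¬Sm m.N z) : ∃ n : Unit × Bool → m.X, m.Nds n ∧ n ((), true) = z := by
  obtain ⟨y, a⟩ := not_forall_not.1 (mt sm_iff.2 h)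
  refine ⟨fun c => bif c.2 then z else y, ⟨?_, fun _ => a.symm⟩, rfl⟩
  rintro ⟨_, _ | _⟩ ⟨_, _ | _⟩ e
  exacts [rfl, (a.ne m.nd e.symm).elim, (a.ne m.nd e).elim, rfl]

theorem iso_ctp {n' : Unit × Bool → m'.X} (h' : m'.Nds n') {e : m.X ≃ m'.X} {t τ}
    (a : AM.IsoD (P.E ∅).toWt univ m m' e t τ) (hn : ∀ b, e (n b) = n' b) :
    AM.IsoD (P.E ∅).toWt univ (ctp m h) (ctp m' h') e t τ :=
  (a.cut h h' hn).re _ fun _ q => q.elim0

/-- a map with two marked points that have the same image is a normalisation -/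
theorem exists_ctp {m' : AM0 R J σ (ν ⊕ Unit × Bool)} (hs : m'.Sol (P.E ∅)) (hP : (P.E ∅).Inv)
    {t : Option R → ℂ} (ht : IsUnit t) (he : m'.vl (m'.p (.inl (qq true))) =
      (P.E ∅).actT (1, t) (m'.vl (m'.p (.inl (qq false))))) :
    ∃ (m : AM0 R J σ ν) (n : Unit × Bool → m.X) (h : m.Nds n), m.Sol (P.E ∅) ∧
      AM.Iso (P.E ∅).toWt univ m' (ctp m h) := by
  classical
  obtain ⟨c, c0, c1, c2⟩ : ∃ c : Option R → m'.X → ℂ, (∀ r x, c r x ≠ 0) ∧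
      (∀ r, c r (m'.p (.inl (qq false))) = t r) ∧
      ∀ r x, x ≠ m'.p (.inl (qq false)) → c r x = 1 :=
    ⟨fun r x => if x = m'.p (.inl (qq false)) then t r else 1, fun r x => by
      dsimp only
      split_ifs
      exacts [isUnit_pi_iff.1 ht r, one_ne_zero], fun _ => if_pos rfl, fun _ _ e => if_neg e⟩
  let m₁ : AM Empty (Option R) (J ⊕ σ) ν (Fin 0 ⊕ Unit) :=
    ⟨m'.toAC.re (Ch.unp ν (Fin 0) Unit).symm.toEmbedding, fun r => m'.L r * LB.cst _ _ (c0 r), m'.l,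
      fun j x => ((P.E ∅).actT (1, fun r => c r x) (m'.vl x)).2 j⟩
  have a : AM.Iso (P.E ∅).toWt univ m' (ctp m₁.glue AC.nds_glue) :=
    AM.IsoD.iso (e := Equiv.refl _) (t := c) (τ := 1) ⟨LIso.id _, isUnit_one,
      (AM.isoD_glue_cut (W := (P.E ∅).toWt) (A := univ) m₁).node, by
        rintro ((_ | _) | a)
        exacts [rfl, rfl, a.1.elim0],
      fun r => (mul_div_cancel_left (m'.L r) (LB.cst _ _ (c0 r))).symm ▸ cst_mem0 (c0 r)
        fun x hx => (c2 r _ (m'.sm _ x hx).1).trans (c2 r _ (m'.sm _ x hx).2).symm,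
      c0, fun _ q => q.elim0, funext fun a => a.elim, fun _ _ _ => rfl⟩
  have a' := a.sol hP hs
  refine ⟨m₁.glue, _, AC.nds_glue, (AM.sol_cut AC.nds_glue).2 ⟨a', fun j _ => ?_⟩, a⟩
  have b : (fun r => c r (m'.p (.inl (qq true)))) = 1 :=
    funext fun r => c2 r _ fun e => by simpa using m'.inj e
  change ((P.E ∅).actT (1, fun r => c r (m'.p (.inl (qq false))))
      (m'.vl (m'.p (.inl (qq false))))).2 j =
    ((P.E ∅).actT (1, fun r => c r (m'.p (.inl (qq true)))) (m'.vl (m'.p (.inl (qq true))))).2 j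
  rw [b, funext c1, he]
  simp [Wt.actT]

theorem end_ctp (hs : m.Sol (P.E ∅)) (c : Eg m e (n ((), true)) b) :
    End (ctp m h) (t.map .inl) b ↔ End m t b := by
  rcases t with _ | _ | _
  · refine not_congr ((sm_ctp h).trans (or_iff_left ?_))
    rintro ⟨⟨_, _ | _⟩, rfl⟩
    · exact c.ne ((c.src _ mem_connectedComponent).1
        ((((AM.sol_cut h).1 hs).2 _ ()).symm.trans ((c.src _ c.mem).2 rfl)))
    · exact c.ne rfl
  · exact not_congr (spc_ctp h)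
  · exact Iff.rfl

omit h in
theorem eg_snd {b' : m.X} (c : Eg m e a b) (c' : Eg m e a b') : b = b' :=
  (c'.src _ c.mem).1 ((c.src _ c.mem).2 rfl)

theorem flag_ctp (hs : m.Sol (P.E ∅)) :
    (cnt (ctp m h) e (.mark (qq true)) (t.map .inl) = 1 ∧ Cm (ctp m h) (qq false) e.src) ↔
      ∃ b, Eg m e (n ((), true)) b ∧ End m t b := by
  refine ⟨fun ⟨a, _⟩ => ?_, fun ⟨b, c, d⟩ => ⟨ncard_eq_one.2 ⟨(n ((), true), b), ?_⟩,
    (cm_ctp_qq h hs).2 fun l hl => ?_⟩⟩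
  · obtain ⟨⟨x, b⟩, a1, rfl, a2⟩ := nonempty_of_ncard_ne_zero (a.trans_ne one_ne_zero)
    exact ⟨b, (eg_ctp h).1 a1, (end_ctp h hs ((eg_ctp h).1 a1)).1 a2⟩
  · refine eq_singleton_iff_unique_mem.2 ⟨⟨(eg_ctp h).2 c, rfl, (end_ctp h hs c).2 d⟩, ?_⟩
    rintro ⟨x, y⟩ ⟨a1, rfl, -⟩
    exact Prod.ext rfl (eg_snd (m := m) ((eg_ctp h).1 a1) c)
  · by_cases a : l = e.tgt
    · exact a ▸ (c.tgt _ mem_connectedComponent).2 rfl
    · exact c.oth _ mem_connectedComponent l hl a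

omit h in
open Classical in
/-- flags with a node at the source -/
theorem cntN_flag (hs : m.Sol (P.E ∅)) {Q' : AM0 R J σ (ν ⊕ Unit × Bool) → Prop}
    (hQ : ∀ n (h : m.Nds n), Q' (ctp m h) ↔ Q m) :
    cntN m (fun m' => (cnt m' e (.mark (qq true)) (t.map .inl) = 1 ∧ Cm m' (qq false) e.src) ∧
      Q' m') = if Q m then cnt m e .node t else 0 := by
  unfold cntN
  split_ifs with q
  · rw [cnt, ← InjOn.ncard_image (f := fun n : Unit × Bool → m.X => n ((), true)),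
      ← InjOn.ncard_image (f := Prod.fst)]
    · refine congrArg ncard (Set.ext fun z => ⟨?_, ?_⟩)
      · rintro ⟨n, ⟨h, a, -⟩, rfl⟩
        obtain ⟨b, c, d⟩ := (flag_ctp h hs).1 a
        exact ⟨(_, b), ⟨c, h.not_sm _, d⟩, rfl⟩
      · rintro ⟨⟨x, b⟩, ⟨c, a, d⟩, rfl⟩
        obtain ⟨n, h, rfl⟩ := exists_nds a
        exact ⟨n, ⟨h, (flag_ctp h hs).2 ⟨b, c, d⟩, (hQ n h).2 q⟩, rfl⟩
    · rintro ⟨x, y⟩ a ⟨x', y'⟩ b rfl
      exact Prod.ext rfl (eg_snd a.1 b.1)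
    · rintro n ⟨h, -⟩ n' ⟨h', -⟩ a
      funext ⟨_, c⟩
      cases c
      exacts [(h.jn ()).symm.unique m.nd ((show n _ = n' _ from a) ▸ (h'.jn ()).symm), a]
  · refine (congrArg ncard (eq_empty_of_forall_notMem ?_)).trans (ncard_empty _)
    exact fun n ⟨h, _, a⟩ => q ((hQ n h).1 a)

end ctp

end Vale.Agent.P269.LG
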