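import Vale.Agent.P287Q.G.LG.NrmA

/-! The Euler class of the normal line. -/

set_option linter.unusedSectionVars false
set_option linter.style.haveILetI false

namespace Vale.Agent.P269.Ch

open Set Function Topology Filter Vale.Agent.P291Z KD Base

section gen

variable {A W P P' P'' : Type} [NormedRing A] [NormedAlgebra ℂ A] [NormedAddCommGroup W]
  [NormedSpace ℂ W] [NormedAddCommGroup P] [NormedSpace ℂ P] [NormedAddCommGroup P']
  [NormedSpace ℂ P'] [NormedAddCommGroup P''] [NormedSpace ℂ P''] [FiniteDimensional ℂ A]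
  [FiniteDimensional ℂ W] [FiniteDimensional ℂ P] [FiniteDimensional ℂ P'] [FiniteDimensional ℂ P'']
  {act : A → W → W} {Z : Set W} {E : SD A W P} {E' : SD A W P'} {E'' : SD A W P''} {r r' r'' : ℕ}

namespace NrmB

variable [Holo.IsAct act Z] {ho : Orb.Orb Aˣ (Holo.Sp act Z)} {Y Y' : Ch.Sp} {m : Mor Y (spA ho)}
  {χ : Y.G →ₜ* ℂˣ} {v : Y.T → P}

/-- `v` generates the pull-back of the line bundle `E`, with the character `χ`. -/
structure Gen (E : SD A W P) (m : Mor Y (spA ho)) (χ : Y.G →ₜ* ℂˣ) (v : Y.T → P) : Prop where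
  cont : Continuous v
  mem : ∀ t, v t ∈ E.B ((presA ho).i (m.f t))
  ne : ∀ t, v t ∉ E.N ((presA ho).i (m.f t))
  eqv : ∀ g t, E.ρ ((presA ho).u (m.ρ g)) (v t) - (χ g : ℂ) • v (g • t) ∈
    E.N ((presA ho).i (m.f (g • t)))

theorem Gen.pb (h : Gen E m χ v) (m' : Mor Y' Y) :
    Gen E (m.comp m') (m'.chr χ) fun t => v (m'.f t) :=
  ⟨h.cont.comp m'.cf, fun _ => h.mem _, fun _ => h.ne _, fun g t => by
    have := h.eqv (m'.ρ g) (m'.f t)
    rwa [← m'.eqv] at this⟩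

theorem Gen.eu (h : E.Ok act Z (r + 1) r) (a : Gen E m χ v) :
    H.map m.map (hcls (E.eu act Z)) = (c1 χ).1 := by
  obtain ⟨E₀, E₁, ι, M, -, h1, h2, -, h3⟩ := h.exists_isMod ho
  rw [Nat.add_sub_cancel_left] at h1
  choose w w1 w2 using fun t => (h2.map (m.f t)).ge (a.mem t)
  have c : Continuous w := h2.emb.continuous_iff.2 (a.cont.congr fun t => (w2 t).symm)
  have f : Fr (E₁.pb m) (fun _ : Unit => χ) fun _ t => M (m.f t) (w t) :=
    Fr.of_li (fun _ => h2.hom.continuous m.cf c w1) (fun _ g t => by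
      have b := E₀.inv (m.ρ g) _ _ (w1 t)
      have d : M (m.ρ g • m.f t) _ = m.ρ g • _ := h2.hom.eqv (m.ρ g) _ _ (w1 t)
      rw [← m.eqv] at b d
      refine d.symm.trans (((h2.map_eq_iff b ((E₀.F _).smul_mem (χ g : ℂ) (w1 _))).2 ?_).trans
        (map_smul _ _ _))
      rw [h3, map_smul, w2, w2]
      exact a.eqv g t)
      (fun t => linearIndependent_unique_iff.2 fun e => a.ne t (w2 t ▸ (h2.ker _ _ (w1 t)).1 e))
      (fun _ t => h2.hom.mem _ _ (w1 t)) h1.symm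
  exact (congrArg _ (SD.hcls_presA ho h2)).trans (congrArg Subtype.val ((E₁.eu_pb m).symm.trans
    (f.eu.trans (Fintype.prod_unique _))))

theorem exists_gen (h : E.Ok act Z (r + 1) r) (m : Mor Y (spA ho)) : ∃ (Y' : Ch.Sp) (m' : Mor Y' Y),
    Injective (H.map m'.map) ∧ ∃ χ v, Gen E (m.comp m') χ v := by
  obtain ⟨E₀, E₁, ι, M, -, h1, h2, -, h3⟩ := h.exists_isMod ho
  rw [Nat.add_sub_cancel_left] at h1
  obtain ⟨σ, s1, s2⟩ := h2.hom.exists_sect h2.surj
  obtain ⟨Y', m', a, χ, v, f⟩ := (E₁.pb m).exists_fr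
  have i : Fin (E₁.pb m).r := ⟨0, h1.ge⟩
  have s3 := fun t => s1.mem _ _ (f.mem i t)
  refine ⟨Y', m', a, χ i, fun t => ι (σ ((m.comp m').f t) (v i t)), h2.emb.continuous.comp
    (s1.continuous (m.comp m').cf (f.cont i) (f.mem i)), fun t => h2.mem (s3 t),
    fun t e => (f.li t).ne_zero i ((s2 _ _ (f.mem i t)).symm.trans ((h2.ker _ _ (s3 t)).2 e)),
    fun g t => mem_of_eq_of_mem (sub_eq_zero.2 ?_) (zero_mem _)⟩
  have d : σ ((m.comp m').ρ g • (m.comp m').f t) _ = (m.comp m').ρ g • _ :=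
    s1.eqv ((m.comp m').ρ g) _ _ (f.mem i t)
  rw [← (m.comp m').eqv] at d
  rw [← h3, ← d, ← map_smul]
  exact congrArg _ ((congrArg _ (f.eqv i g t)).trans (map_smul _ _ _))

theorem cont_lin {T : Type} [TopologicalSpace T] {L : T → P →ₗ[ℂ] P'} {w : T → P}
    (h : ∀ v, Continuous fun t => L t v) (hw : Continuous w) : Continuous fun t => L t (w t) :=
  haveI := FiniteDimensional.complete ℂ P
  (continuous_clm_apply.2 h : Continuous fun t => (L t).toContinuousLinearMap).clm_apply hw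

end NrmB

open NrmB

/-- **tensor products of line bundles** -/
theorem SD.Ok.eu_bil [Holo.IsAct act Z] (ho : Orb.Orb Aˣ (Holo.Sp act Z)) (h : E.Ok act Z (r + 1) r)
    (h' : E'.Ok act Z (r' + 1) r') (h'' : E''.Ok act Z (r'' + 1) r'')
    {B : W → P →ₗ[ℂ] P' →ₗ[ℂ] P''} (cont : ∀ v v', ContinuousOn (fun x => B x v v') Z)
    (mem : ∀ x ∈ Z, ∀ v ∈ E.B x, ∀ v' ∈ E'.B x, B x v v' ∈ E''.B x)
    (ker : ∀ x ∈ Z, ∀ v ∈ E.B x, ∀ v' ∈ E'.B x, B x v v' ∈ E''.N x ↔ v ∈ E.N x ∨ v' ∈ E'.N x)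
    (eqv : ∀ x ∈ Z, ∀ a, IsUnit a → ∀ v ∈ E.B x, ∀ v' ∈ E'.B x,
      B (act a x) (E.ρ a v) (E'.ρ a v') - E''.ρ a (B x v v') ∈ E''.N (act a x)) :
    hcls (E''.eu act Z) = hcls (E.eu act Z) + hcls (E'.eu act Z) := by
  obtain ⟨Y₁, m₁, i₁, χ₁, v₁, a₁⟩ := exists_gen h (Mor.id (spA ho))
  obtain ⟨Y, m₂, i₂, χ', v', a'⟩ := exists_gen h' ((Mor.id _).comp m₁)
  have a := a₁.pb m₂
  have i : Injective (H.map (((Mor.id _).comp m₁).comp m₂).map) := Mor.injective_comp
    (Mor.injective_comp (fun a b e => by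
      rwa [H.map_id (Mor.map_id _), H.map_id (Mor.map_id _)] at e) i₁) i₂
  generalize ((Mor.id _).comp m₁).comp m₂ = m at a a' i
  generalize m₂.chr χ₁ = χ at a
  generalize (fun t => v₁ (m₂.f t)) = v at a
  have z := fun t => (presA ho).mem (m.f t)
  have c : Continuous fun t => (presA ho).i (m.f t) := (presA ho).emb.continuous.comp m.cf
  have b : Gen E'' m (χ * χ') fun t => B ((presA ho).i (m.f t)) (v t) (v' t) := by
    refine ⟨cont_lin (fun w => cont_lin (L := fun t => (B ((presA ho).i (m.f t))).flip w)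
      (fun u => (cont u w).comp_continuous c z) a.cont) a'.cont,
      fun t => mem _ (z t) _ (a.mem t) _ (a'.mem t),
      fun t e => ((ker _ (z t) _ (a.mem t) _ (a'.mem t)).1 e).elim (a.ne t) (a'.ne t), fun g t => ?_⟩
    have u : IsUnit ((presA ho).u (m.ρ g)) := Units.isUnit _
    have e : act ((presA ho).u (m.ρ g)) ((presA ho).i (m.f t)) = (presA ho).i (m.f (g • t)) := by
      rw [m.eqv]
      rfl
    have k1 := eqv _ (z t) _ u _ (a.mem t) _ (a'.mem t)
    have k2 := h'.famB.inv _ (z t) _ u _ (a'.mem t)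
    rw [e] at k1 k2
    have k3 := (ker _ (z _) _ (h.le _ (z _) (a.eqv g t)) _ k2).2 (.inl (a.eqv g t))
    have k4 := (ker _ (z _) _ (a.mem (g • t)) _ (h'.le _ (z _) (a'.eqv g t))).2 (.inr (a'.eqv g t))
    refine mem_of_eq_of_mem ?_ (sub_mem (add_mem k3 (Submodule.smul_mem _ (χ g : ℂ) k4)) k1)
    simp only [map_sub, map_smul, LinearMap.sub_apply, LinearMap.smul_apply, smul_sub, smul_smul,
      ContinuousMonoidHom.mul_apply, Units.val_mul]
    abel
  exact i ((b.eu h'').trans ((congrArg Subtype.val (c1_mul χ χ')).trans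
    ((congrArg₂ (· + ·) (a.eu h) (a'.eu h')).symm.trans (map_add _ _ _).symm)))

end gen

variable {S Λ R J K ι ν κ : Type} [Fintype S] [Fintype Λ] [Fintype R] [Fintype J] [Fintype K]
  [Fintype ι] [DecidableEq ι] [Fintype ν] [Fintype κ] {ch : Ch ι J} {n : Nm ι J} {F : Wt S Λ R J}
  (hn : ch.GN n Unit) {Z : Set (ch.WG n ν κ Unit Λ)} (hZ : Z ⊆ ch.allG Λ ν κ n)
include hn hZ

/-- **the Euler class of the normal line** -/
theorem euN [Holo.IsAct (actG F : ch.AG n ν κ Unit S → _) Z]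
    (ho : Orb.Orb (ch.AG n ν κ Unit S)ˣ (Holo.Sp (actG F) Z)) :
    hcls ((ch.sdN S Λ ν κ n).eu (actG F) Z) =
      hcls ((((ch.re n).sdψ S Λ (nq () false)).pb θG μG).eu (actG F) Z) +
        hcls ((((ch.re n).sdψ S Λ (nq () true)).pb θG μG).eu (actG F) Z) := by
  have o := fun q => (hn.cuts'.okψ (S := S) (F := F) (Z := {x | x.2 ∈ (ch.re n).base _})
    (fun _ h => h) (q : Mk ν (κ ⊕ Unit))).pb (eqM_μG.mono (subset_univ Z) fun z hz => (hZ hz).1.mem')
  exact SD.Ok.eu_bil (P'' := ch.N4) ho (o _) (o _) (okN hn hZ) (B := NrmA.wz)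
    (fun v v' z _ => (NrmA.continuous_wz continuousAt_id continuousAt_const
      continuousAt_const).continuousWithinAt) (fun z _ v hv v' hv' => NrmA.wz_mem hv hv')
    (fun z hz v hv v' hv' => NrmA.wz_eq_zero (hZ hz).1 hv hv') fun z _ a ha v _ v' _ =>
      sub_eq_zero.2 (NrmA.wz_act ha z v v')

end Vale.Agent.P269.Ch
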