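import Vale.Agent.P287Q.G.LG.Nrm0
import Vale.Agent.P287Q.G.Glu.PushA
import Vale.Agent.P287Q.G.Glu.Pcy

/-! The labelled space is a manifold, immersed in the space of curves. -/

set_option linter.unusedSectionVars false

namespace Vale.Agent.P269.Ch

open Set Function Topology Filter Module Vale.Agent.P291Z KD Base Holo

namespace NrmM

section gen

variable {A W W' : Type} [NormedRing A] [NormedAlgebra ℂ A] [NormedAddCommGroup W]
  [NormedSpace ℂ W] [NormedAddCommGroup W'] [NormedSpace ℂ W']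

theorem tan_mono {Z Z' : Set W} {x v : W} (h : ∀ᶠ y in 𝓝 x, y ∈ Z → y ∈ Z') (hv : v ∈ Tan Z x) :
    v ∈ Tan Z' x :=
  let ⟨a, b⟩ := hv
  have a' := h.self_of_nhds a
  ⟨a', fun Φ c e => b Φ c ((ev_sub a (p := fun s => Φ s = 0)).2
    ((((ev_sub a' (p := fun s => Φ s = 0)).1 e).and h).mono fun _ k l => k.1 (k.2 l)))⟩

variable [FiniteDimensional ℂ A] [FiniteDimensional ℂ W] [FiniteDimensional ℂ W']
  {act : A → W → W} [IsAct act univ] {Z : Set W} {D : Set W'} {f : W → W'} {s : W' → W} {z : W}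
  {m : ℕ}

theorem inj (free : Fre act z) {v : A} (e : fderiv ℂ (fun b => act b z) 1 v = 0) : v = 0 := by
  have := FiniteDimensional.complete ℂ A
  have := FiniteDimensional.complete ℂ W
  have e3 : ∀ t : ℂ, NormedSpace.exp (t • v) = 1 := fun t =>
    free _ (expU _).isUnit (fix_of_fderiv e t)
  have e4 := (hasDerivAt_exp_smul_const v (0 : ℂ)).unique
    ((hasDerivAt_const (0 : ℂ) (1 : A)).congr_of_eventuallyEq (.of_forall e3))
  rwa [e3, one_mul] at e4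

/-- A principal bundle with a section. -/
theorem bun (hf : AnalyticAt ℂ f z) (hz : z ∈ Z) (hi : Ivt act Z)
    (inv : ∀ a, IsUnit a → ∀ y ∈ Z, f (act a y) = f y) (free : Fre act z) (fib : GB.Fib act Z f z)
    (hs : AnalyticAt ℂ s (f z)) (s0 : s (f z) = z) (maps : ∀ᶠ y in 𝓝 z, y ∈ Z → f y ∈ D)
    (sec : ∀ᶠ x in 𝓝 (f z), x ∈ D → s x ∈ Z ∧ f (s x) = x) (hD : MfdAt D m (f z)) :
    MfdAt Z (m + finrank ℂ A) z ∧ ∀ v ∈ Tan Z z, fderiv ℂ f z v = 0 →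
      ∃ ξ, v = fderiv ℂ (fun a => act a z) 1 ξ := by
  have := FiniteDimensional.complete ℂ A
  have := FiniteDimensional.complete ℂ W
  have := FiniteDimensional.complete ℂ W'
  let Ψ : W' × A → W := fun q => act q.2 (s q.1)
  have h0 : Ψ (f z, 1) = z := (congrArg (act 1) s0).trans (IsAct.one z (mem_univ z))
  have h1 : AnalyticAt ℂ Ψ (f z, 1) := (act_an (act := act) 1 z).comp_of_eq
    (analyticAt_snd.prod (hs.comp_of_eq analyticAt_fst rfl)) (Prod.ext rfl s0)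
  have e0 : ∀ v, fderiv ℂ Ψ (f z, 1) (0, v) = fderiv ℂ (fun a => act a z) 1 v := fun v => by
    rw [← fderiv_inr h1]
    simp only [Ψ, s0]
  have h2 := analyticAt_fst.prod h1
  obtain ⟨w, h3, h4⟩ := Holo.exists_leftInv h2 ((injective_iff_map_eq_zero _).2 fun ⟨u, v⟩ e => by
    rw [(hasFDerivAt_fst.prodMk h1.differentiableAt.hasFDerivAt).fderiv] at e
    obtain rfl : u = 0 := congrArg Prod.fst e
    exact Prod.ext rfl (inj free ((e0 v).symm.trans (congrArg Prod.snd e))))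
  simp only [h0] at h3
  have h5 : w (f z, z) = (f z, 1) := by simpa only [h0] using h4.self_of_nhds
  have a0 : AnalyticAt ℂ (fun y => (w (f y, y)).2) z :=
    analyticAt_snd.comp (h3.comp_of_eq (hf.prod analyticAt_id) rfl)
  have k : SmoAt Z D f Ψ (fun y => (w (f y, y)).2) z := by
    refine ⟨.of_an hf, .of_an a0, by rwa [h5], ?_, ?_⟩
    · obtain ⟨P, hP, Q, hQ, h6⟩ := eventually_prod_iff.1 (nhds_prod_eq.ge h4)
      have h10 : Tendsto (fun y => (s (f y), y)) (𝓝 z) (𝓝 (z, z)) :=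
        ((hs.continuousAt.tendsto.mono_right (by rw [s0])).comp
          hf.continuousAt.tendsto).prodMk_nhds tendsto_id
      filter_upwards [hf.continuousAt.eventually sec, h10.eventually (fib _ hQ),
        hf.continuousAt.eventually hP, maps] with y a b c d e
      obtain ⟨g, b1, -, b3⟩ := b (a (d e)).1 e (a (d e)).2
      have b4 : Ψ (f y, g) = y := b3
      have b5 := h6 c b1
      simp only [b4] at b5
      rw [b5, b4]
    · rw [h5]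
      have h6 : ∀ᶠ q : W' × A in 𝓝 (f z, 1), IsUnit q.2 :=
        continuousAt_snd.eventually (p := IsUnit) (Units.isOpen.mem_nhds isUnit_one)
      filter_upwards [h4, h6, continuousAt_fst.eventually sec] with q a b c e
      have a1 : f (Ψ q) = q.1 := (inv _ b _ (c e).1).trans (c e).2
      exact ⟨hi _ b _ (c e).1, a1, by rw [a1, a]⟩
  refine ⟨(k.mfdAt Subset.rfl hz hD).congr (maps.mono fun y a => and_iff_left_of_imp a),
    fun v ⟨_, hv⟩ e => ⟨fderiv ℂ (fun y => (w (f y, y)).2) z v, ?_⟩⟩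
  have a1 := hf.prod a0
  have a2 := k.an.comp_of_eq a1 rfl
  have a3 := hv _ (a2.sub analyticAt_id) ((ev_sub hz (p := fun y =>
    Ψ (f y, (w (f y, y)).2) - y = 0)).2 (k.left.mono fun _ a b => sub_eq_zero.2 (a b)))
  have a4 := ((k.an.differentiableAt.hasFDerivAt.comp z (hf.differentiableAt.hasFDerivAt.prodMk
    a0.differentiableAt.hasFDerivAt)).sub (hasFDerivAt_id z)).fderiv
  have a5 := (congrArg (· v) a4).symm.trans a3
  simp only [_root_.sub_apply, ContinuousLinearMap.comp_apply,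
    ContinuousLinearMap.prod_apply, ContinuousLinearMap.id_apply, e, h5, e0] at a5
  exact (sub_eq_zero.1 a5).symm

end gen

end NrmM

open NrmM

variable {S Λ R J K ι ν κ : Type} [Fintype S] [Fintype Λ] [Fintype R] [Fintype J] [Fintype K]
  [Fintype ι] [DecidableEq ι] [Fintype ν] [Fintype κ] {ch : Ch ι J} {n : Nm ι J}
  {F : Fam S Λ R J K} {T : Set ((ch.re n).WF ν (κ ⊕ Unit) Λ)} {O : Set (ch.WF ν κ Λ)}
  {z : ch.WG n ν κ Unit Λ} {N : ℕ}

theorem NrmM.adm (hA : F.Abs) {x : ch.WF ν κ Λ} (h1 : x.1 ∈ F.B) (h2 : x.2 ∈ ch.bm ν κ)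
    (b : ∀ j ∈ F.zer, x.2.X j = 0) : x ∈ ch.adm ν κ F :=
  ⟨mem_baseF.2 ⟨h1, h2⟩, fun j hj _ _ => ⟨0, fun _ _ _ => by simp [b j (hA.1 hj)]⟩,
    fun _ _ => hA.2 ▸ mem_univ _, b, fun j hj _ => by
      rw [fld_of_zero (h2.1.2.2.2.1 _).1 (b j (hA.1 hj)),
        fld_of_zero (h2.1.2.2.2.1 _).1 (b j (hA.1 hj))]⟩

theorem NrmM.ev (hA : F.Abs) (hO : ∃ U, IsOpen U ∧ O = ch.adm ν κ F ∩ U) {x : ch.WF ν κ Λ}
    (hx : x ∈ O) : ∀ᶠ y in 𝓝 x, y.1 ∈ F.B → y.2 ∈ ch.bm ν κ → (∀ j ∈ F.zer, y.2.X j = 0) →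
      y ∈ O := by
  obtain ⟨U, hU, rfl⟩ := hO
  exact mem_of_superset (hU.mem_nhds hx.2) fun y a b c d => ⟨NrmM.adm hA b c d, a⟩

theorem Zf.allG (hn : ch.GN n Unit) (hT : T ⊆ (ch.re n).adm ν _ F) (hz : z ∈ Zf F T) : z ∈ ch.allG Λ ν κ n :=
  ⟨hz.1.1, hn.bmG _ _ hz.1.1 (mem_baseF.1 (hT hz.1.2.1).1).2⟩

theorem NrmQ.ne' {q : ch.WG n ν κ Unit Λ → ch.WF ν κ Λ →ₗ[ℂ] ch.N4} (h : NrmQ F.toWt q) (hA : F.Abs)
    (hz : z ∈ ch.allG Λ ν κ n) (hO : ∃ U, IsOpen U ∧ O = ch.adm ν κ F ∩ U) (h1 : z.1 ∈ O) :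
    ∃ v ∈ Tan O z.1, q z v ≠ 0 := by
  obtain ⟨v, a, b⟩ := h.ne z hz
  have c : z.1 ∈ ch.adm ν κ F := let ⟨_, _, e⟩ := hO; (e.le h1).1
  refine ⟨v, tan_mono ((NrmM.ev hA hO h1).mono fun y d e => ?_) a, b⟩
  obtain ⟨e1, e2, e3⟩ := e
  exact d (e2 ▸ c.1.1) (mem_bm.1 e1) fun j hj => (congrFun e3 j).trans (c.2.2.2.1 j hj)

theorem tan_adm (hO : O ⊆ ch.adm ν κ F) {x v : ch.WF ν κ Λ} (hv : v ∈ Tan O x) :
    v ∈ Tan (ch.baseF ν κ univ) x :=
  tan_mono (.of_forall fun _ a => ⟨trivial, (hO a).1.2⟩) hv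

/-- the smoothing parameters vary along arcs with constant fields -/
theorem NrmM.exists_arc {ε : Type} [Fintype ε] (h : Num₀ ch) {x : ch.W (Mk ν κ)}
    (hx : x ∈ ch.bm ν κ) {σ : ε → ch.W (Mk ν κ) × (ℂ × ℂ) → V ch.M} {τ : ε → ch.W (Mk ν κ) → ℂ}
    (hσ : ∀ e, Chart ch.o (fun y : ch.bm ν κ => crv y.1) Subtype.val ⟨x, hx⟩ (σ e)
      fun y => {z | z.1 * z.2 = τ e y})
    (hτ : ∀ e, AnalyticAt ℂ (τ e) x ∧ τ e x = 0)
    (hi : ∀ e e', Base.Orb (σ e (x, 0)) (σ e' (x, 0)) → e = e') (t : ε → ℂ) :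
    ∃ γ, Arc (ch.bm ν κ) x γ ∧ (∀ᶠ s in 𝓝 0, (γ s).X = x.X) ∧
      ∀ e, deriv (fun s => τ e (γ s)) 0 = t e := by
  obtain ⟨l, hl⟩ := h.cut
  have c0 : ContinuousAt (fun y : ch.bm ν κ => (⟨y.1, y.2.1⟩ : ch.base _)) ⟨x, hx⟩ :=
    (continuous_subtype_val.subtype_mk _).continuousAt
  have hf : LocFam ch.o (fun y : ch.bm ν κ => crv y.1) Subtype.val ⟨x, hx⟩ :=
    LocFam.comp (u := fun y : ch.bm ν κ => (⟨y.1, y.2.1⟩ : ch.base _)) (k := id) (locFam_base hl _) c0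
      (.of_forall fun _ => continuous_subtype_val.continuousAt) analyticAt_id
      (.of_forall fun _ => rfl)
  obtain ⟨τ', k1, k2⟩ := h.exists_tau_res hx.1 (n₀ := fun q => .inr (q, false))
    (n₁ := fun q => .inr (q, true)) (fun _ _ e => by simpa using e) (by simp) hx.2
    (c := fun e => σ e (x, 0)) (fun e => ⟨_, _, (hσ e).isCross (hτ e).2 (crv_ne
      ((hσ e).mem0.self_of_nhds ((mul_zero _).trans (hτ e).2.symm)) _)⟩) hi
  choose a a0 a1 a2 using fun e => NdAt.deriv_arc ⟨_, rfl, (hτ e).1, (hτ e).2, hσ e⟩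
    (NdAt.comp (u := fun y : ch.bm ν κ => (⟨y.1, y.2.1⟩ : ch.base _)) (t' := ⟨x, hx⟩)
      (π' := Subtype.val) (k := id) (k1 e) c0 analyticAt_id (.of_forall fun _ => rfl)) hf
  obtain ⟨γ, m1, m0, m2⟩ := k2 fun e => t e / a e
  obtain ⟨u, u0, u1, u2, u3⟩ := Arc.exists_lift (S := ch.bm ν κ) m1 hx
  refine ⟨γ, m1, m0, fun e => ?_⟩
  have := a2 e u u u0 u0 u1 u1 u2 u2 (.of_forall fun _ => rfl)
  rwa [EventuallyEq.deriv_eq (u3.mono fun s b => congrArg (τ e) b),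
    EventuallyEq.deriv_eq (u3.mono fun s b => congrArg (τ' e ∘ id) b), comp_id, m2 e,
    mul_div_cancel₀ _ (a0 e)] at this

theorem NrmM.an0 {P ν' : Type} [NormedAddCommGroup P] [NormedSpace ℂ P] [Fintype ν'] {q : P}
    {x : P → ch.W ν'} (h : AnalyticAt ℂ x q) : AnalyticAt ℂ (fun y => setX (x y) 0) q :=
  (W.an_iff (x := fun y => setX (x y) 0)).2
    ⟨(W.an_Q h :), (W.an_p h :), (W.an_Ξ h :), fun _ => analyticAt_const⟩

theorem NrmM.fderiv_H (W : Wt S Λ R J) (z : ch.WG n ν κ Unit Λ) (ξ : (ch.re n).A Unit) :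
    ∃ ξ' : ch.AG n ν κ Unit S, fderiv ℂ (fun a : (ch.re n).A Unit => actH a z) 1 ξ =
      fderiv ℂ (fun a : ch.AG n ν κ Unit S => actG W a z) 1 ξ' := by
  have g : AnalyticAt ℂ (fun a : (ch.re n).A Unit => (GBa.inr S a : ch.AG n ν κ Unit S)) 1 :=
    AP.an_iff.2 ⟨analyticAt_const (v := (1 : ch.AF ν κ S)), analyticAt_id⟩
  have a : AnalyticAt ℂ (fun a : ch.AG n ν κ Unit S => actG W a z) 1 :=
    an_actG analyticAt_id analyticAt_const isUnit_one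
  have e : (fun a : (ch.re n).A Unit => actH a z) = fun a => actG W (GBa.inr S a) z :=
    funext fun a => (actG_one W a z).symm
  exact ⟨_, (congrArg (fderiv ℂ · 1 ξ) e).trans (congrArg (· ξ) (fderiv_comp_an
    (g := fun a : ch.AG n ν κ Unit S => actG W a z) (f := GBa.inr S) a g))⟩

/-- **the labelled space is an immersed hypersurface** -/
theorem mfd_lab (hn : ch.GN n Unit) (hF : F.Inv) (hA : F.Abs) (hT : Lev F T)
    (opn : ∃ U, IsOpen U ∧ T = (ch.re n).adm ν _ F ∩ U)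
    (sur : SurjOn μG (Zn F T : Set (ch.WG n ν κ Unit Λ)) T)
    (hO : ∃ U, IsOpen U ∧ O = ch.adm ν κ F ∩ U) (hz : z ∈ Zf F T) (hm : MfdAt O N z.1) :
    (∃ N', N' + 1 = N + finrank ℂ ((ch.re n).A Unit) ∧ MfdAt (Zf F T ∩ Prod.fst ⁻¹' O) N' z) ∧
      ∀ v ∈ Tan (Zf F T ∩ Prod.fst ⁻¹' O) z, v.1 = 0 → ∃ ξ : ch.AG n ν κ Unit S,
        v = fderiv ℂ (fun a : ch.AG n ν κ Unit S => actG F.toWt a z) 1 ξ := by
  have _ := hF
  obtain ⟨g, b⟩ := Zf.allG hn hT.adm hz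
  obtain ⟨σ, τ, k1, k2, k3⟩ := g.exists_chart hn.cuts b
  have hO' : O ⊆ ch.adm ν κ F := let ⟨_, _, e⟩ := hO; e.le.trans inter_subset_left
  have x0 := hO' hm.mem
  have w0 := hT.adm hz.1.2.1
  have X0 : z.2.1.X = 0 := funext fun j => by
    by_cases a : j ∈ F.mov
    exacts [hz.2 j a, w0.2.2.2.1 j (hA.1 a)]
  have e0 : setX z.2.1 0 = z.2.1 := congrArg (setX z.2.1) X0.symm
  have eT := NrmM.ev hA opn hz.1.2.1
  have hi : ∀ e e' : Unit, Base.Orb (σ e (z.1.2, 0)) (σ e' (z.1.2, 0)) → e = e' := fun _ _ _ => rfl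
  have c1 : Tendsto (fun y : (ch.re n).W (Mk ν (κ ⊕ Unit)) => ((z.1.1, setX y 0) :
      (ch.re n).WF ν (κ ⊕ Unit) Λ)) (𝓝 z.2.1) (𝓝 (μG z)) :=
    tendsto_const_nhds.prodMk_nhds ((an0 analyticAt_id).continuousAt.tendsto.trans
      (congrArg 𝓝 e0).le)
  obtain ⟨s, s1, s2, s3⟩ := g.exists_secB hn b ((c1.eventually eT).mono fun y a c => by
    obtain ⟨z', d, e⟩ := sur (a x0.1.1 c fun _ _ => rfl)
    exact ⟨z'.1.2, z'.2.setX y.X, d.1.1.setX z'.1.2.X _,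
      (congrArg (fun u : (ch.re n).WF ν (κ ⊕ Unit) Λ => setX u.2 y.X) e :)⟩) k1 k2 k3 hi
  obtain ⟨m, m1, m2⟩ := hm.sub' (Z := {y | y ∈ O ∧ τ () y.2 = 0}) (f := fun y => τ () y.2)
    (.of_an ((k2 ()).1.comp (f := Prod.snd) analyticAt_snd)) (k2 ()).2
    (fun t _ => Submodule.subset_span (by
      obtain ⟨γ, r1, r2, r3⟩ := exists_arc hn.num b k1 k2 hi fun _ => t
      have r4 : AnalyticAt ℂ (fun u => (z.1.1, γ u)) 0 := analyticAt_const.prod r1.an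
      have r5 : (z.1.1, γ 0) = z.1 := Prod.ext rfl r1.zero
      refine ⟨_, ⟨r4, r5, ?_⟩, r3 ()⟩
      filter_upwards [(r4.continuousAt.tendsto.mono_right (congrArg 𝓝 r5).le).eventually
        (NrmM.ev hA hO hm.mem), r1.mem, r2] with u a c d
      exact a x0.1.1 c fun j hj => (congrFun d j).trans (x0.2.2.2.1 j hj)))
    (.of_forall fun _ => Iff.rfl)
  have t1 : AnalyticAt ℂ (fun x : ch.WF ν κ Λ => s x.2) z.1 := s1.comp (f := Prod.snd) analyticAt_snd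
  have t2 : AnalyticAt ℂ (fun x : ch.WF ν κ Λ => (s x.2).setX 0) z.1 :=
    (Lb.an_setX (n := n) (s z.1.2, 0)).comp_of_eq (t1.prod analyticAt_const) rfl
  have t3 : (s z.1.2).setX 0 = z.2 := (congrArg (Lb.setX · 0) s2).trans (Prod.ext e0 rfl)
  have t4 : Tendsto (fun x : ch.WF ν κ Λ => μL x ((s x.2).setX 0)) (𝓝 z.1) (𝓝 (μG z)) :=
    continuousAt_fst.tendsto.prodMk_nhds ((Lb.an_iff.1 t2).1.continuousAt.tendsto.trans
      (congrArg (fun w : ch.Lb n _ => 𝓝 w.1) t3).le)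
  obtain ⟨r1, r2⟩ := bun (act := (actH : (ch.re n).A Unit → _)) (f := Prod.fst)
    (Z := Zf F T ∩ Prod.fst ⁻¹' O) (D := {y | y ∈ O ∧ τ () y.2 = 0}) (s := fun x => (x, (s x.2).setX 0))
    analyticAt_fst ⟨hz, hm.mem⟩
    (fun a ha y hy => ⟨ivtH_Zf hT.inv a ha y hy.1, hy.2⟩) (fun _ _ _ _ => rfl) (g.freH hn.gOk)
    (Zf.fib hn hT inter_subset_left ⟨hz, hm.mem⟩) (analyticAt_id.prod t2) (Prod.ext rfl t3)
    ((NdC.ev hn.gOk hn.bmG ⟨g, b, k1, k2, k3⟩).mono fun y a c =>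
      ⟨c.2, (a c.1.1.1 ⟨trivial, (hT.adm c.1.1.2.1).1.2⟩).1.2 ()⟩) (by
      filter_upwards [continuousAt_snd.tendsto.eventually s3, t4.eventually eT] with x a c d
      have e := hO' d.1
      obtain ⟨f1, f2, -⟩ := a (mem_baseF.1 e.1).2 fun _ => d.2
      exact ⟨⟨⟨⟨f1.setX x.2.X 0, c e.1.1 f2 fun _ _ => rfl, fun j hj μ =>
        (congrArg (fun X : _ →L[ℂ] _ => (s x.2).2.2 (some j) (X μ)) (e.2.2.2.1 j (hA.1 hj))).trans
          (map_zero _)⟩, fun _ _ => rfl⟩, d.1⟩, rfl⟩) m2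
  refine ⟨⟨_, by rw [← m1, finrank_self]; ring, r1⟩, fun v hv e => ?_⟩
  obtain ⟨ξ, rfl⟩ := r2 v hv (by rw [fderiv_fst]; exact e)
  exact fderiv_H _ z ξ

end Vale.Agent.P269.Ch
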