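import Vale.Agent.P287Q.G.LG.Bas
import Vale.Agent.P287Q.G.LG.OpsA

/-! Edges and vertices of disjoint unions. -/

set_option linter.unusedSectionVars false

namespace Vale.Agent.P269.LG

open Set Function Topology Filter Cv B

variable {R J K σ ν ν' ν₁ ν₂ : Type} [Fintype R] [Fintype J] [Fintype K] [Fintype σ] [Fintype ν]
  [Fintype ν'] [Fintype ν₁] [Fintype ν₂] {P : PB R J K σ} {m m' : AM0 R J σ ν} {e : Edge σ}
  {a b z : m.X} {i : σ} {s t : En ν} {g g₁ g₂ : ℤ} {d d₁ d₂ : Option R → ℤ} {k : ℕ}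
  {β : σ → R → ℤ} {T : Set σ} {Q Q' : AM0 R J σ ν → Prop}

section split

variable {m₁ : AM0 R J σ ν₁} {m₂ : AM0 R J σ ν₂} {φ : ν₁ ⊕ ν₂ ≃ ν} {j₁ : m₁.X → m.X}
  {j₂ : m₂.X → m.X}

section emb

variable {f : ν₁ → ν} {ψ : Fin 0 → Fin 0} (h : AM.Emb m₁ m f ψ j₁)
include h

theorem emb_ov {z : m₁.X} : Ov m (j₁ z) i ↔ Ov m₁ z i := (tr_emb h).ov
theorem emb_cm (n : ν₁) : Cm m (f n) i ↔ Cm m₁ n i := (tr_emb h).cm n
theorem emb_vx : j₁ ⁻¹' Vx m i = Vx m₁ i := (tr_emb h).pre_vx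
theorem emb_eg {a b : m₁.X} : Eg m e (j₁ a) (j₁ b) ↔ Eg m₁ e a b := (tr_emb h).eg
theorem emb_eg' {a : m₁.X} (e' : Eg m e (j₁ a) b) : ∃ b', b = j₁ b' := (tr_emb h).eg' e'
theorem emb_end {s : En ν₁} {z : m₁.X} : End m (s.map f) (j₁ z) ↔ End m₁ s z := (tr_emb h).fin
theorem emb_str (a : Str m) : Str m₁ := (tr_emb h).str a

end emb

variable (h : AM.Split m m₁ m₂ φ e00 j₁ j₂)
include h

theorem nfl_split : nfl m = nfl m₁ + nfl m₂ := by
  rw [← (tr_emb h.one).ncard_fl, ← (tr_emb h.two).ncard_fl, nfl, ← ncard_union_eq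
    (disjoint_left.2 fun _ a b => disjoint_left.1 h.compl.disjoint a.2 b.2)
    ((finite_fl m).subset fun _ a => a.1) ((finite_fl m).subset fun _ a => a.1)]
  congr 1
  ext x
  refine ⟨fun a => ?_, fun a => a.elim And.left And.left⟩
  rcases h.cases x.2.1 with ⟨y, b⟩ | ⟨y, b⟩
  exacts [.inl ⟨a, y, b.symm⟩, .inr ⟨a, y, b.symm⟩]

theorem vdeg_split : vdeg m = vdeg m₁ + vdeg m₂ := funext₂ fun i r => by
  rw [vdeg, h.degOn_add _ (clopen_Vx m i), emb_vx h.one, emb_vx h.two, h.one.L, h.two.L]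
  rfl

theorem str_split : Str m ↔ Str m₁ ∧ Str m₂ :=
  h.forall_iff.trans (and_congr (forall_congr' fun _ => (tr_emb h.one).str_at)
    (forall_congr' fun _ => (tr_emb h.two).str_at))

theorem vert_split : Vert m T ↔ Vert m₁ T ∧ Vert m₂ T :=
  h.forall_iff.trans (and_congr
    (forall_congr' fun _ => exists_congr fun _ => and_congr_right fun _ => (tr_emb h.one).vx)
    (forall_congr' fun _ => exists_congr fun _ => and_congr_right fun _ => (tr_emb h.two).vx))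

theorem Fx.sum (h₁ : Fx m₁ P g₁ d₁) (h₂ : Fx m₂ P g₂ d₂) : Fx m P (g₁ + g₂ - 1) (d₁ + d₂) :=
  ⟨h.sol.2 ⟨h₁.sol, h₂.sol⟩, h.stable.2 ⟨h₁.stable, h₂.stable⟩, h.typ h₁.typ h₂.typ,
    (str_split h).2 ⟨h₁.str, h₂.str⟩⟩

theorem Fx.split (a : Fx m P (g₁ + g₂ - 1) (d₁ + d₂)) (h₁ : m₁.Typ g₁ d₁) :
    Fx m₁ P g₁ d₁ ∧ Fx m₂ P g₂ d₂ := by
  refine ⟨⟨(h.sol.1 a.sol).1, (h.stable.1 a.stable).1, h₁, ((str_split h).1 a.str).1⟩,
    (h.sol.1 a.sol).2, (h.stable.1 a.stable).2, ⟨?_, fun r => ?_⟩, ((str_split h).1 a.str).2⟩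
  · linarith [h.gen_add, a.typ.1, h₁.1]
  · have : deg (m.L r) = d₁ r + d₂ r := a.typ.2 r
    linarith [h.deg_L r, h₁.2 r]

theorem pcs_split {s t : En ν₁} (a : Edg m₁ e s t) : Pcs (k + 1) β m ↔ Pcs k β m₂ := by
  rw [Pcs, Pcs, nfl_split h, vdeg_split h, a.nfl, a.vdeg, zero_add]
  exact and_congr_left' (by omega)

omit h

theorem forall_mk {p : Ch.Mk ν (Fin 0) → Prop} (h : ∀ n, p (.inl n)) : ∀ n, p n := by
  rintro (n | ⟨q, -⟩)
  exacts [h n, q.elim0]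

theorem End.sm_map {f : ν₁ → ν} {s : En ν₁} (hs : s ≠ .node) (h : End m (s.map f) z) : Sm m.N z := by
  cases s with
  | node => exact (hs rfl).elim
  | bare => exact not_not.1 fun a => h (.inr a)
  | mark n => exact (show m.p _ = z from h) ▸ m.sm _

theorem End.ne_inr {s : En ν₁} (hs : s ≠ .node) (h : End m (s.map fun n => φ (.inl n)) z) (n : ν₂) :
    m.p (.inl (φ (.inr n))) ≠ z := fun a => by
  cases s with
  | node => exact hs rfl
  | bare => exact h (.inl ⟨_, a⟩)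
  | mark n' => simpa using m.inj (a.trans (show m.p _ = z from h).symm)

/-- an edge without nodes splits off -/
theorem exists_split_edge {s t : En ν₁} (hst : Ends s t) (a' : Eg m e a b)
    (ha : End m (s.map fun n => φ (.inl n)) a) (hb : End m (t.map fun n => φ (.inl n)) b) :
    ∃ m₁ m₂ j₁ j₂, AM.Split m m₁ m₂ φ e00 j₁ j₂ ∧ range j₁ = connectedComponent a ∧
      Edg m₁ e s t := by
  obtain ⟨m₁, m₂, j₁, j₂, h, hr⟩ := AM.exists_split (a'.sat (ha.sm_map hst.src) (hb.sm_map hst.tgt)) φ e00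
    (forall_mk fun n => by
      rcases hst.all n with rfl | rfl
      · exact (show m.p _ = a from ha) ▸ mem_connectedComponent
      · exact (show m.p _ = b from hb) ▸ a'.mem)
    (forall_mk fun n c => (a'.spc _ c (.inl ⟨_, rfl⟩)).elim (ha.ne_inr hst.src n) (hb.ne_inr hst.tgt n))
  refine ⟨m₁, m₂, j₁, j₂, h, hr, ?_⟩
  obtain ⟨x, rfl⟩ : a ∈ range j₁ := hr ▸ mem_connectedComponent
  obtain ⟨y, rfl⟩ := emb_eg' h.one a'
  refine ⟨x, y, (emb_eg h.one).1 a', (emb_end h.one).1 ha, (emb_end h.one).1 hb, ?_⟩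
  rw [← h.one.inj.image_injective.eq_iff, ← (tr_emb h.one).cc, image_univ, hr]

open Classical in
theorem cntS_edge {s t : En ν₁} (hst : Ends s t) {Q₂ : AM0 R J σ ν₂ → Prop}
    (hQ : ∀ m₁ m₂ j₁ j₂, AM.Split m m₁ m₂ φ e00 j₁ j₂ → Edg m₁ e s t → (Q₂ m₂ ↔ Q m)) :
    cntS m φ (fun m₁ => m₁.Typ 0 (edD R e) ∧ Edg m₁ e s t) Q₂ =
      if Q m then cnt m e (s.map fun n => φ (.inl n)) (t.map fun n => φ (.inl n)) else 0 := by
  split_ifs with q
  · rw [cntS, cnt, ← InjOn.ncard_image (f := fun x : m.X × m.X => connectedComponent x.1)]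
    · congr 1
      ext U
      refine ⟨?_, ?_⟩
      · rintro ⟨m₁, m₂, j₁, j₂, h, rfl, ⟨-, x, y, c, c₁, c₂, c₃⟩, -⟩
        refine ⟨(j₁ x, j₁ y), ⟨(emb_eg h.one).2 c, (emb_end h.one).2 c₁, (emb_end h.one).2 c₂⟩, ?_⟩
        show connectedComponent (j₁ x) = _
        rw [(tr_emb h.one).cc, c₃, image_univ]
      · rintro ⟨⟨a, b⟩, ⟨c, c₁, c₂⟩, rfl⟩
        obtain ⟨m₁, m₂, j₁, j₂, h, hr, c₃⟩ := exists_split_edge hst c c₁ c₂
        exact ⟨m₁, m₂, j₁, j₂, h, hr, ⟨c₃.typ hst.src hst.tgt, c₃⟩, (hQ _ _ _ _ h c₃).2 q⟩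
    · rintro ⟨a, b⟩ ⟨c, -⟩ ⟨a', b'⟩ ⟨c', -⟩ (u : connectedComponent a = connectedComponent a')
      rcases c.unique c' (u ▸ mem_connectedComponent) with ⟨-, rfl, rfl⟩ | ⟨v, -⟩
      exacts [rfl, (e.ne (congrArg Edge.src v)).elim]
  · refine (congrArg ncard (eq_empty_iff_forall_notMem.2 ?_)).trans (ncard_empty _)
    rintro _ ⟨m₁, m₂, j₁, j₂, h, -, ⟨-, c⟩, c'⟩
    exact q ((hQ _ _ _ _ h c).1 c')

include h in
theorem range_eq_Vx (hs : m.Sol (P.E ∅)) (hi : i ∉ T) (h₁ : Vert m₁ {i}) (h₂ : Vert m₂ T) :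
    range j₁ = Vx m i := by
  ext z
  refine ⟨?_, fun hz => ?_⟩
  · rintro ⟨x, rfl⟩
    obtain ⟨_, rfl, c⟩ := h₁ x
    exact (tr_emb h.one).vx.2 c
  · rcases h.cases z with ⟨x, rfl⟩ | ⟨x, rfl⟩
    · exact mem_range_self x
    · obtain ⟨l, hl, c⟩ := h₂ x
      exact (hi (((Vx.ov hz).unique hs (Vx.ov ((tr_emb h.two).vx.2 c))) ▸ hl)).elim

open Classical in
theorem cntS_vert (hs : m.Sol (P.E ∅)) (hi : i ∉ T) (hβ : β i = 0) (β₁ : R → ℤ) [DecidableEq σ] :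
    cntS m φ (fun m₁ => m₁.Typ g₁ (vxD P i β₁) ∧ Vert m₁ {i}) (fun m₂ => Vert m₂ T ∧ vdeg m₂ = β) =
      if (Vert m (insert i T) ∧ vdeg m = update β i β₁) ∧
        (∀ n, Cm m n i ↔ ∃ n₁, n = φ (.inl n₁)) ∧ vgen m i = 2 * g₁ - 2 then 1 else 0 := by
  split_ifs with q
  · obtain ⟨⟨q₁, q₂⟩, q₃, q₄⟩ := q
    rw [cntS, ncard_eq_one]
    refine ⟨Vx m i, eq_singleton_iff_unique_mem.2 ⟨?_, ?_⟩⟩
    · obtain ⟨m₁, m₂, j₁, j₂, h, hr⟩ := AM.exists_split (q₁.sat hs i) φ e00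
        (forall_mk fun n => by
          obtain ⟨l, -, c⟩ := q₁ (m.p (.inl (φ (.inl n))))
          exact (Ov.unique hs (Vx.ov c) ((q₃ _).2 ⟨n, rfl⟩)) ▸ c)
        (forall_mk fun n c => by simpa using (q₃ _).1 (Vx.ov c))
      have v₁ : Vert m₁ {i} := fun x => ⟨i, rfl, (tr_emb h.one).vx.1 (hr ▸ mem_range_self x)⟩
      have v₂ : Vert m₂ T := fun x => by
        obtain ⟨l, hl, c⟩ := q₁ (j₂ x)
        refine ⟨l, hl.resolve_left ?_, (tr_emb h.two).vx.1 c⟩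
        rintro rfl
        obtain ⟨y, hy⟩ := hr ▸ c
        exact h.ne y x hy
      have w : ∀ r, vdeg m i r = β₁ r := fun r => by rw [q₂, update_self]
      refine ⟨m₁, m₂, j₁, j₂, h, hr, ⟨⟨?_, fun r => ?_⟩, v₁⟩, v₂, funext fun l => ?_⟩
      · have := h.one.gen_eq
        rw [hr] at this
        linarith [this.trans q₄]
      · rw [h.one.deg_eq, hr]
        cases r with
        | none => exact (degOn_Vx hs i).trans (by simp only [w]; rfl)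
        | some r => exact w r
      · by_cases c : l = i
        · rw [c, hβ, v₂.vdeg (h.sol.1 hs).2 hi]
        · have := congrFun ((vdeg_split h).symm.trans q₂) l
          rwa [Pi.add_apply, v₁.vdeg (h.sol.1 hs).1 c, zero_add, update_of_ne c] at this
    · rintro _ ⟨m₁, m₂, j₁, j₂, h, rfl, ⟨-, v₁⟩, v₂, -⟩
      exact range_eq_Vx h hs hi v₁ v₂
  · refine (congrArg ncard (eq_empty_iff_forall_notMem.2 ?_)).trans (ncard_empty _)
    rintro _ ⟨m₁, m₂, j₁, j₂, h, -, ⟨c, v₁⟩, v₂, c'⟩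
    have hr := range_eq_Vx h hs hi v₁ v₂
    refine q ⟨⟨(vert_split h).2 ⟨fun x => ?_, fun x => ?_⟩, funext fun l => ?_⟩, fun n => ?_, ?_⟩
    · obtain ⟨_, rfl, u⟩ := v₁ x
      exact ⟨_, .inl rfl, u⟩
    · obtain ⟨l, hl, u⟩ := v₂ x
      exact ⟨l, .inr hl, u⟩
    · by_cases u : l = i
      · rw [u, update_self]
        funext r
        rw [vdeg, ← hr, ← h.one.deg_eq]
        exact c.2 (some r)
      · rw [vdeg_split h, Pi.add_apply, v₁.vdeg (h.sol.1 hs).1 u, zero_add, update_of_ne u, c']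
    · obtain ⟨n | n, rfl⟩ := φ.surjective n
      · refine iff_of_true (Vx.ov ?_) ⟨n, rfl⟩
        rw [← hr]
        exact ⟨_, h.one.mark_inl n⟩
      · refine iff_of_false (fun u => ?_) (by simp)
        obtain ⟨l, hl, v⟩ := v₂ (m₂.p (.inl n))
        exact hi ((Ov.unique hs u ((emb_cm h.two n).2 (Vx.ov v))) ▸ hl)
    · rw [vgen, ← hr, ← h.one.gen_eq, c.1]

end split

end Vale.Agent.P269.LG
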