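import Vale.Agent.P287Q.G.LG.HSD
import Vale.Agent.P287Q.G.LG.HR
import Vale.Agent.P287Q.G.LG.HNQ
import Vale.Agent.P287Q.G.LG.EB
import Vale.Agent.P287Q.G.LG.OpsC

/-! Disjoint unions of fixed maps: the points. -/

set_option linter.unusedSectionVars false

namespace Vale.Agent.P269.LG

open Set Function Topology TensorProduct B Vale.Agent.P291Z Vale.Agent.P269.Ch Vale.Agent.P269.Loc

variable {R J K σ ν ν₁ ν₂ Λ Λ' : Type} [Fintype R] [Fintype J] [Fintype K] [Fintype σ] [Fintype ν]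
  [Fintype ν₁] [Fintype ν₂] [Fintype Λ] [Fintype Λ'] [DecidableEq R] [DecidableEq σ]
  {P : PB R J K σ} {K₀ : RD R} {k D : ℕ} {a : σ → ℂ} {g g₁ g₂ : ℤ} {d d₁ d₂ : Option R → ℤ}
  {τ : Md P P.X ν g d} {τ₁ : Md P P.X ν₁ g₁ d₁} {τ₂ : Md P P.X ν₂ g₂ d₂} {φ : ν₁ ⊕ ν₂ ≃ ν}

theorem split_par {m : AM Λ R J ν (Fin 0)} {m₁ : AM Λ R J ν₁ (Fin 0)} {m₂ : AM Λ R J ν₂ (Fin 0)}
    {j₁ j₂} (h : AM.Split m m₁ m₂ φ e00 j₁ j₂) (l : Λ' → ℂ) :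
    AM.Split (par l m) (par l m₁) (par l m₂) φ e00 j₁ j₂ :=
  ⟨⟨h.one.liso, h.one.inj, h.one.node, h.one.mark, h.one.all, h.one.L, rfl, h.one.y⟩,
    ⟨h.two.liso, h.two.inj, h.two.node, h.two.mark, h.two.all, h.two.L, rfl, h.two.y⟩, h.compl⟩

theorem iso_of_par {M : ℕ} {l} (hl : l ∈ PMs σ M) {m m' : AM0 R J σ ν}
    (h : AM.Iso (P.EM ∅ M).toWt univ (par l m) (par l m')) : AM.Iso (P.E ∅).toWt univ m m' := by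
  obtain ⟨e, t, s, c⟩ := AM.iso_iff.1 h
  obtain rfl : s = 1 := funext fun i => let ⟨b, q⟩ := hl i
    (mul_eq_right₀ q).1 ((PB.actL_EM s l (i, b)).symm.trans (congrFun c.l (i, b)).symm)
  refine AM.IsoD.iso (e := e) (t := t) (τ := 1) ⟨c.liso, isUnit_one, c.node, c.mark, c.mem, c.ne,
    c.mt, Subsingleton.elim _ _, fun j hj x => (c.y j hj x).trans ?_⟩
  simp only [Wt.actT, Pi.one_apply, one_zpow, Finset.prod_const_one]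
  rfl

variable (G : Geo k D a τ) (G₁ : Geo k D a τ₁) (G₂ : Geo k D a τ₂)

theorem Geo.at_iff (h : P.Ok K₀ k D) {M : ℕ} {x : τ.A} {p : PM σ M} {m : AM0 R J σ ν} :
    (P.EM ∅ M).At (G.i M (x, bp p)) (par (uncurry p.val) m) ↔ τ.Rp x m :=
  ⟨fun e => let ⟨m', r⟩ := τ.ex x
    (τ.iso r).2 (iso_of_par (mem_PMs p) (((G.pt M x p m' r).eq_iff h.bigD_fam e).1 rfl)),
    G.pt M x p m⟩

theorem Geo.pM0_i {M : ℕ} (x : τ.A) (p : PM σ M) : (P.EM ∅ M).pM0 ν k D g d (G.i M (x, bp p)) =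
    Quo.mk _ ⟨uncurry p.val, mem_PMs p⟩ := by
  obtain ⟨m, r⟩ := τ.ex x
  obtain ⟨y, e, r⟩ := G.pt M x p m r
  rw [e]
  exact congrArg (Quo.mk _) (Subtype.ext r.1)

variable {Y : ℕ → Type} [∀ M, TopologicalSpace (Y M)] [∀ M, Nice (Y M)]
  (Φ : ∀ M, C(Y M, P.XM ν₁ k D g₁ d₁ M × P.XM ν₂ k D g₂ d₂ M)) (Ψ : ∀ M, C(Y M, P.XM ν k D g d M))

variable (φ) in
/-- the decomposed fixed maps -/
structure Lft (f : C(τ₁.A × τ₂.A, τ.A)) (s : ∀ M, C((τ₁.A × τ₂.A) × Bs σ M, Y M)) : Prop where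
  Φ_s : ∀ M a₁ a₂ b, Φ M (s M ((a₁, a₂), b)) = (G₁.i M (a₁, b), G₂.i M (a₂, b))
  Ψ_s : ∀ M z, Ψ M (s M z) = G.i M (pr f M z)
  rΦ : ∀ M y, (Φ M y).1 ∈ range (G₁.i M) → (Φ M y).2 ∈ range (G₂.i M) → y ∈ range (s M)
  rΨ : ∀ M, Ψ M ⁻¹' range (G.i M) ⊆ range (s M)
  pt : ∀ a₁ a₂ m m₁ m₂ j₁ j₂, τ₁.Rp a₁ m₁ → τ₂.Rp a₂ m₂ → AM.Split m m₁ m₂ φ e00 j₁ j₂ →
    τ.Rp (f (a₁, a₂)) m
  ψ₁ : ∀ n, pbE f (τ.ψ (φ (.inl n))) = pbE .fst (τ₁.ψ n)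
  ψ₂ : ∀ n, pbE f (τ.ψ (φ (.inr n))) = pbE .snd (τ₂.ψ n)
  ev₁ : ∀ n, (τ.ev (φ (.inl n))).comp f = (τ₁.ev n).comp .fst
  ev₂ : ∀ n, (τ.ev (φ (.inr n))).comp f = (τ₂.ev n).comp .snd

variable {Φ Ψ}

theorem Geo.psi_eq {A : Type} [TopologicalSpace A] [Nice A] [CompactSpace A] {f : C(A, τ.A)}
    {f₁ : C(A, τ₁.A)} {n n₁} (e : ∀ M, H.map ((G.i M).comp (pr f M)) (hcls (psiF (.inl n))) =
      H.map ((G₁.i M).comp (pr f₁ M)) (hcls (psiF (.inl n₁)))) :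
    pbE f (τ.ψ n) = pbE f₁ (τ₁.ψ n₁) := by
  obtain ⟨x, e₁, e₂⟩ := G.psi n
  obtain ⟨x', e₃, e₄⟩ := G₁.psi n₁
  rw [← e₁, ← e₃, pbE_bc, pbE_bc]
  refine congrArg _ (inH_inj (evA_ext fun M => ?_))
  rw [HR.inH_map, HR.inH_map, ← map_evA, ← map_evA, ← e₂, ← e₄, H.map_map, H.map_map]
  exact e M

include G G₁ in
theorem Geo.ev_emb {x x₁ m m₁ j} {f : ν₁ → ν} {ψ} (r : τ.Rp x m) (r₁ : τ₁.Rp x₁ m₁)
    (h : AM.Emb m₁ m f ψ j) (n : ν₁) : τ.ev (f n) x = τ₁.ev n x₁ := by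
  obtain ⟨_, e⟩ := G.ev (f n) _ _ r
  obtain ⟨_, e'⟩ := G₁.ev n _ _ r₁
  refine e.trans (Eq.trans (congrArg (Quo.mk _) (Subtype.ext (Prod.ext (Subsingleton.elim _ _)
    (funext fun i => ?_)))) e'.symm)
  exact ((h.y (.inl i) _).trans (congrArg _ (h.mark (.inl n)))).symm

/-- **the points** -/
theorem Geo.exists_lft (h : P.Ok K₀ k D) (hg : g = g₁ + g₂ - 1) (hd : d = d₁ + d₂)
    (hY : ∀ M, (P.EM ∅ M).Dec φ (Φ M) (Ψ M)) : ∃ f s, Lft φ G G₁ G₂ Φ Ψ f s := by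
  have := G.nice
  have := G₁.nice
  have := G₂.nice
  subst hg hd
  have key : ∀ M {x x₁ x₂ m m₁ m₂ j₁ j₂} (p : PM σ M), τ.Rp x m → τ₁.Rp x₁ m₁ → τ₂.Rp x₂ m₂ →
      AM.Split m m₁ m₂ φ e00 j₁ j₂ → ∃ y, Φ M y = (G₁.i M (x₁, bp p), G₂.i M (x₂, bp p)) ∧
        Ψ M y = G.i M (x, bp p) := fun M _ _ _ _ _ _ _ _ p r r₁ r₂ e =>
    let ⟨y, b, c₁, c₂⟩ := (hY M).up _ _ _ _ _ _ (G.pt M _ p _ r) (split_par e _) (τ₁.fx r₁).typ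
    ⟨y, Prod.ext ((c₁.eq_iff h.bigD_fam (G₁.pt M _ p _ r₁)).2 (.refl _))
      ((c₂.eq_iff h.bigD_fam (G₂.pt M _ p _ r₂)).2 (.refl _)), b⟩
  have ex : ∀ x : τ₁.A × τ₂.A, ∃ y m m₁ m₂ j₁ j₂, τ.Rp y m ∧ τ₁.Rp x.1 m₁ ∧ τ₂.Rp x.2 m₂ ∧
      AM.Split m m₁ m₂ φ e00 j₁ j₂ := fun x =>
    let ⟨m₁, r₁⟩ := τ₁.ex x.1
    let ⟨m₂, r₂⟩ := τ₂.ex x.2
    let ⟨m, j₁, j₂, e⟩ := AM.exists_sum m₁ m₂ (Subsingleton.elim _ _) φ e00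
    let ⟨y, r⟩ := τ.surj (Fx.sum e (τ₁.fx r₁) (τ₂.fx r₂))
    ⟨y, m, m₁, m₂, j₁, j₂, r, r₁, r₂, e⟩
  choose f₀ hf using ex
  have ex' : ∀ M (z : (τ₁.A × τ₂.A) × Bs σ M), ∃ y,
      Φ M y = (G₁.i M (z.1.1, z.2), G₂.i M (z.1.2, z.2)) ∧ Ψ M y = G.i M (f₀ z.1, z.2) := by
    rintro M ⟨x, b⟩
    obtain ⟨p, rfl⟩ := HR.bp_surj b
    obtain ⟨_, _, _, _, _, r, r₁, r₂, e⟩ := hf x
    exact key M p r r₁ r₂ e
  choose s₀ hs hs' using ex'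
  let s : ∀ M, C((τ₁.A × τ₂.A) × Bs σ M, Y M) := fun M => ⟨s₀ M,
    (hY M).emb.isEmbedding.continuous_iff.2 (Continuous.congr (by fun_prop) fun z => (hs M z).symm)⟩
  let p₀ : PM σ 0 := ⟨fun _ => 1, fun _ => one_ne_zero⟩
  let f : C(τ₁.A × τ₂.A, τ.A) := ⟨f₀, continuous_fst.comp (f := fun x => (f₀ x, bp p₀))
    ((G.loc.emb 0).isEmbedding.continuous_iff.2 (Continuous.congr
      (f := fun x => Ψ 0 (s 0 (x, bp p₀))) (by fun_prop) fun x => hs' 0 (x, bp p₀)))⟩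
  have rΦ : ∀ M y, (Φ M y).1 ∈ range (G₁.i M) → (Φ M y).2 ∈ range (G₂.i M) → y ∈ range (s M) := by
    rintro M y ⟨⟨x₁, b₁⟩, e₁⟩ ⟨⟨x₂, b₂⟩, e₂⟩
    obtain ⟨p₁, rfl⟩ := HR.bp_surj b₁
    obtain ⟨p₂, rfl⟩ := HR.bp_surj b₂
    have := fp_PMs (W := (P.EM ∅ M).toWt) PB.actL_EM
    obtain ⟨eB, c₁, c₂, -⟩ := exists_eB (W := (P.EM ∅ M).toWt) PB.actL_EM
    have c : (P.EM ∅ M).pM0 _ _ _ _ _ (Φ M y).1 = (P.EM ∅ M).pM0 _ _ _ _ _ (Φ M y).2 :=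
      (hY M).rng.le ⟨y, rfl⟩
    rw [← e₁, ← e₂, G₁.pM0_i, G₂.pM0_i, ← c₂, ← c₂] at c
    refine ⟨((x₁, x₂), bp p₁), (hY M).emb.injective ((hs M _).trans (Prod.ext e₁ ?_))⟩
    rw [← e₂, ← c₁.injective c]
  have ψ : ∀ M, (Ψ M).comp (s M) = (G.i M).comp (pr f M) := fun M => ContinuousMap.ext (hs' M)
  refine ⟨f, s, fun M _ _ _ => hs M _, hs', rΦ, ?_, fun a₁ a₂ m m₁ m₂ j₁ j₂ r₁ r₂ e => ?_,
    fun n => G.psi_eq G₁ fun M => ?_, fun n => G.psi_eq G₂ fun M => ?_,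
    fun n => ContinuousMap.ext fun x => ?_, fun n => ContinuousMap.ext fun x => ?_⟩
  · rintro M y ⟨⟨x, b⟩, e⟩
    obtain ⟨p, rfl⟩ := HR.bp_surj b
    obtain ⟨m, r⟩ := τ.ex x
    obtain ⟨m₁, m₂, j₁, j₂, c, c₁, c₂⟩ := (hY M).down y _ (e ▸ G.pt M x p m r)
    have c₃ := Fx.split (split_par c m.l) (τ.fx r) c₁.typ
    exact rΦ M y ((G₁.mem_range_i h (p := p) (m := par m.l m₁) (c.one.l.subst
      (motive := fun l => (P.EM ∅ M).At _ (par l m₁)) c₁)).2 c₃.1)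
      ((G₂.mem_range_i h (p := p) (m := par m.l m₂) (c.two.l.subst
      (motive := fun l => (P.EM ∅ M).At _ (par l m₂)) c₂)).2 c₃.2)
  · obtain ⟨x, r⟩ := τ.surj (Fx.sum e (τ₁.fx r₁) (τ₂.fx r₂))
    obtain ⟨y, c, c'⟩ := key 0 p₀ r r₁ r₂ e
    obtain rfl : y = s₀ 0 ((a₁, a₂), bp p₀) :=
      (hY 0).emb.injective (c.trans (hs 0 ((a₁, a₂), _)).symm)
    exact (congrArg Prod.fst ((G.loc.emb 0).injective (c'.symm.trans (hs' 0 _)))).subst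
      (motive := (τ.Rp · m)) r
  · rw [← ψ, ← H.map_map, (hY M).ψ₁, H.map_map]
    exact congrArg (H.map · _) (ContinuousMap.ext fun z => congrArg Prod.fst (hs M z))
  · rw [← ψ, ← H.map_map, (hY M).ψ₂, H.map_map]
    exact congrArg (H.map · _) (ContinuousMap.ext fun z => congrArg Prod.snd (hs M z))
  · obtain ⟨_, _, _, _, _, r, r₁, -, e⟩ := hf x
    exact G.ev_emb G₁ r r₁ e.one n
  · obtain ⟨_, _, _, _, _, r, -, r₂, e⟩ := hf x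
    exact G.ev_emb G₂ r r₂ e.two n

end Vale.Agent.P269.LG
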