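import Vale.Agent.P287Q.G.LG.Geo
import Vale.Agent.P287Q.G.Bas.Defs
import Vale.Agent.P287Q.G.Vir.Ind

/-! The contribution of a vertex: definitions. -/

set_option linter.unusedSectionVars false

namespace Vale.Agent.P269.LG

open Set Function Topology Module TensorProduct B Vale.Agent.P291Z Vale.Agent.P269.Ch
  Vale.Agent.P269.Loc

/-- the Euler class of a bundle of rank `r` and total Chern class `c`, twisted by a character `x` -/
noncomputable def euT {L A : Type} [CommRing L] [Algebra ℂ L] [TopologicalSpace A] (x : L) (r : ℕ)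
    (c : PowerSeries (Hev A)) : L ⊗[ℂ] Hev A :=
  ∑ m ∈ Finset.range (r + 1), (x ^ (r - m)) ⊗ₜ PowerSeries.coeff m c

variable {R J K σ ν : Type} [Fintype R] [Fintype J] [Fintype K] [Fintype σ] [Fintype ν]
  [DecidableEq R]

variable (P : PB R J K σ) (ν) (k D : ℕ) (g : ℤ) (d : Option R → ℤ)

/-- the moduli space of maps to a subbundle -/
abbrev PB.XV (Z : Set σ) : Type := (P.E Z).Mod (Fin 0) k D g d (0 : ν → J ⊕ σ → ℕ)

/-- the chart -/
noncomputable abbrev PB.cV (Z : Set σ) : Ch (Option (Option R)) (J ⊕ σ) :=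
  (P.E Z).sch ν (Fin 0) k D g d

/-- the solutions -/
abbrev PB.ZV (Z : Set σ) : Set ((P.cV ν k D g d Z).WF ν (Fin 0) Empty) :=
  (P.E Z).Zs (Fin 0) k D g d (0 : ν → J ⊕ σ → ℕ)

/-- the total Chern class of the space of the thickened field `l` -/
noncomputable abbrev PB.chX (Z : Set σ) (l : σ) : PowerSeries (Hev (P.XV ν k D g d Z)) :=
  ((P.cV ν k D g d Z).sdX ν (Fin 0) (P.E Z).toWt (.inr l)).ch (actF _) (P.ZV ν k D g d Z)

/-- the total Chern class of the obstruction bundle of the field `l` -/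
noncomputable abbrev PB.chK (Z : Set σ) (l : σ) : PowerSeries (Hev (P.XV ν k D g d Z)) :=
  ((P.cV ν k D g d Z).sdK ν (Fin 0) (P.E Z).toWt (.inr l)).ch (actF _) (P.ZV ν k D g d Z)

/-- the rank of the space of the thickened field `l` -/
noncomputable abbrev PB.rkX (Z : Set σ) (l : σ) : ℕ :=
  finrank ℂ ((P.cV ν k D g d Z).Th (.inr l)) * (P.cV ν k D g d Z).h (some (.inr l))

/-- the rank of the obstruction bundle of the field `l` -/
noncomputable abbrev PB.rkK (Z : Set σ) (l : σ) : ℕ := (P.cV ν k D g d Z).rkO (.inr l)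

variable [DecidableEq σ]

/-- the Euler class of the moving fields, with characters `x` -/
noncomputable def PB.euX {L : Type} [CommRing L] [Algebra ℂ L] (i : σ) (x : σ → L) :
    L ⊗[ℂ] Hev (P.XV ν k D g d {i}ᶜ) :=
  ∏ l ∈ Finset.univ.erase i, euT (x l) (P.rkX ν k D g d {i}ᶜ l) (P.chX ν k D g d {i}ᶜ l)

/-- the Euler class of the moving obstructions, with characters `x` -/
noncomputable def PB.euK {L : Type} [CommRing L] [Algebra ℂ L] (i : σ) (x : σ → L) :
    L ⊗[ℂ] Hev (P.XV ν k D g d {i}ᶜ) :=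
  ∏ l ∈ Finset.univ.erase i, euT (x l) (P.rkK ν k D g d {i}ᶜ l) (P.chK ν k D g d {i}ᶜ l)

variable {P ν g d} {X : Type} [TopologicalSpace X] (τ : Md P X ν g d)

/-- `e` identifies the maps to the fixed component `i` with a part of the fixed locus -/
structure Vxe (i : σ) (e : C(P.XV ν k D g d {i}ᶜ, τ.A)) : Prop where
  emb : IsOpenEmbedding e
  rng : range e = τ.sel (Vert · {i})
  rp : ∀ y m, τ.Rp (e y) m ↔ (P.E {i}ᶜ).At y m

/-- the classes and the contribution of the vertex `i` -/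
structure Vxc (a : σ → ℂ) (i : σ) (e : C(P.XV ν k D g d {i}ᶜ, τ.A)) : Prop where
  psi : ∀ n, inF _ (pbE e (τ.ψ n)) = 1 ⊗ₜ hcls (psiF (.inl n))
  loc : ∃ I' : F ⊗[ℂ] H (P.XV ν k D g d {i}ᶜ) →ₗ[F] F,
    (∀ x, I' (pb F e x) = τ.I (x * 1 ⊗ₜ hcls (fn ((range e).indicator 1)))) ∧
    ∀ y, I' (y * inF _ (P.euX ν k D g d i fun l => (a l - a i) • tt)) =
      intT F (intg ((P.E {i}ᶜ).vir (Fin 0) k D g d 0))
        (y * inF _ (P.euK ν k D g d i fun l => (a l - a i) • tt))

end Vale.Agent.P269.LG
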