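import Vale.Agent.P287Q.G.LG.HVp
import Vale.Agent.P287Q.G.LG.HVa
import Vale.Agent.P287Q.G.LG.Top
import Vale.Agent.P269.LG.Alg
import Vale.Agent.P287Q.G.Qrr.Bas
import Vale.Agent.P287Q.G.Qrr.MainA

/-! The contribution of a vertex: numbers. -/

set_option linter.unusedSectionVars false
set_option maxSynthPendingDepth 3

namespace Vale.Agent.P269

open Set Function Topology Filter TensorProduct B Vale.Agent.P291Z Vale.Agent.P269.Ch
  Vale.Agent.P269.Loc Fock PowerSeries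

section num

variable {S Λ R J K ν ν' : Type} [Fintype S] [Fintype Λ] [Fintype R] [Fintype J] [Fintype K]
  [Fintype ν] [Fintype ν'] {A : Set ((Λ → ℂ) × (J → ℂ))} (Θ : MvPolynomial (J × ℕ) ℂ)

/-- the factors of a list of insertions -/
noncomputable def Wt.fsV (F : Wt S Λ R J) (L : List (ν × ℕ × H (F.X A))) :
    List (Fac F ν (Fin 0)) :=
  .tw Θ :: .par univ 1 :: (L.map fun x =>
    List.replicate x.2.1 (.psi (.inl x.1)) ++ [.ev (.inl x.1) A x.2.2]).flatten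

theorem Wt.fsV_re {F : Wt S Λ R J} (L : List (ν × ℕ × H (F.X A))) (a : ν → ν') (b) :
    (F.fsV Θ L).map (Fac.re a b) = F.fsV Θ (L.map (Prod.map a id)) := by
  simp [Wt.fsV, Fac.re, List.map_flatten, Function.comp_def]

theorem Wt.fsV_ind {F : Wt S Λ R J} (L : List (ν × ℕ × H (F.X A))) {Q : Fac F ν (Fin 0) → Prop}
    (h1 : Q (.tw Θ)) (h2 : Q (.par univ 1)) (h3 : ∀ n, Q (.psi n))
    (h4 : ∀ n c, Q (.ev (.inl n) A c)) : ∀ f ∈ F.fsV Θ L, Q f := by
  simp only [Wt.fsV, List.mem_cons, List.mem_flatten, List.mem_map]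
  rintro x (rfl | rfl | ⟨_, ⟨s, -, rfl⟩, h⟩)
  · exact h1
  · exact h2
  rcases List.mem_append.1 h with h | h
  · exact List.eq_of_mem_replicate h ▸ h3 _
  · exact List.mem_singleton.1 h ▸ h4 _ _

variable [DecidableEq R] {F : Fam Empty Λ R J K} {k D : ℕ} {g : ℤ} {d : R → ℤ}
  {V : Type} [AddCommGroup V] [Module ℂ V] {p : Par ℂ V} {i : V →ₗ[ℂ] H (F.X A)}

/-- the twisted invariants as integrals -/
theorem Fam.One.ser0_enum (h : F.One k) (hS : St.Spec) (hW : St.WellD) (hR : St.Rel)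
    (hD : F.BigD k D) (hA : F.cone ⊆ A) (hi : IsEv p (parH _) i)
    (hz : GZ F ℓs (F.Zs (Fin 0) k D g d (0 : ν → J → ℕ))) {L : List (ν × ℕ × V)} (hL : LG.Enum L) :
    F.ser0 k (F.exT Θ) p i d (g - 1) (L.map fun x => ι _ (Finsupp.single x.2.1 x.2.2)).prod =
      Loc.intg (F.vir (Fin 0) k D g d (0 : ν → J → ℕ)) ((Qrr.evC (indC F.toWt _) Θ).1 *
        (L.map fun x => hcls (psiF (.inl x.1)) ^ x.2.1 * H.map (hz.eqh_vl (.inl x.1)
          fun _ a => hA (hz.vl_cone _ _ a)).toEqv.qm (i x.2.2)).prod) := by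
  have := h.compactSpace (ν := ν) (κ := Fin 0) (g := g) (d := d) (u := 0) hD
  obtain ⟨φ, e⟩ := hL.exists_equiv
  have ok : ∀ {μ : Type} [Fintype μ] (L : List (μ × ℕ × H (F.X A))) u, ∀ f ∈ F.fsV Θ L, f.Ok F u :=
    fun L u => Wt.fsV_ind Θ L trivial (subset_univ _) (fun _ => trivial) fun _ _ _ a => hA a.1
  have h2 := hR F 0 k g d φ (.refl (Fin 0)) 0 (fun _ => True) (fun _ => True)
    (F.fsV Θ (List.ofFn fun s => (.inl s, Prod.map id i ((L.map Prod.snd).get s))))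
    ⟨h.nice, h.cp, h.big, Fam.Sel.top, ok _ _, fun q => q.elim0⟩ fun _ => Iff.rfl
  have e' : (List.ofFn fun s => (Sum.inl s, Prod.map id i ((L.map Prod.snd).get s))).map
      (Prod.map φ id) = L.map (Prod.map id (Prod.map id i)) :=
    List.map_ofFn.trans ((congrArg (List.map (Prod.map id (Prod.map id i))) e).trans
      List.map_ofFn).symm
  simp only [smul_zero, Wt.fsV_re, e'] at h2
  refine (congrArg (fun l => F.ser0 k _ p i d _ (List.prod l)) (List.map_map (f := Prod.snd)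
    (g := fun x : ℕ × V => ι _ (Finsupp.single x.1 x.2))).symm).trans
    ((PA.ser0_mon hS h.nice h.cp h.big (h.exOk_exT Θ) hA hi _ _ _).trans
    ((F.cor_map k _ 0 A A d _ (Prod.map id i) id _ [] []).trans
    ((congrArg₂ (F.inv k · d · _ _) (by simp : _ = g) (funext fun _ => smul_zero _)).trans
    (Eq.trans (congrArg _ ?_) (h2.symm.trans ((hW F k D g d _ h.nice h.abs h.cp h.big hD
      (ok _ _)).trans ((Fam.intg_true hD hz _ (Wt.fsV_ind Θ _ trivial (fun _ _ => trivial)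
        (fun _ => trivial) fun _ _ _ a => hA (hz.vl_cone _ _ a))).trans (congrArg _ ?_))))))))
  · exact congrArg (_ :: _ :: ·) ((List.append_nil _).trans ((List.append_nil _).trans
      (congrArg List.flatten (List.map_ofFn.trans (by rfl)).symm)))
  · rw [Wt.fsV, List.map_cons, List.map_cons, List.prod_cons, List.prod_cons,
      hz.cl_par (A := univ) fun _ _ => trivial, map_one, one_mul, List.map_flatten,
      List.prod_flatten, List.map_map, List.map_map, List.map_map]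
    refine congrArg₂ (· * ·) (Fam.cl_tw Θ) (congrArg _ (List.map_congr_left fun x _ => ?_))
    simp only [comp_apply, List.map_append, List.map_replicate, List.prod_append,
      List.prod_replicate, List.map_cons, List.map_nil, List.prod_cons, List.prod_nil, mul_one]
    exact congrArg (_ * ·) (hz.cl_ev _ (fun _ a => hA (hz.vl_cone _ _ a)) _)

end num

namespace LG

theorem nil_of_deg {Y : Type} [TopologicalSpace Y] [CompactSpace Y] {c : Hev Y} {m : ℕ}
    (h : c ∈ Hev.deg Y m) (hm : m ≠ 0) : IsNilpotent c :=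
  let ⟨n, a⟩ := TopP.isNilpotent_of_val exists_pt.choose (c := c.1) fun a => by
    rw [H.map_const_eq_zero a (mul_ne_zero two_ne_zero (Nat.cast_ne_zero.2 hm))
      (Hev.mem_deg.1 h), map_zero]
  ⟨n, Subtype.ext a⟩

theorem vx_tt_ne {b : ℂ} (hb : b ≠ 0) : b • tt ≠ 0 := fun e => zero_ne_one (α := F) (by
  rw [← HVa.tt_eps, ← one_smul ℂ tt, ← inv_mul_cancel₀ hb, mul_smul, e, smul_zero, zero_mul])

/-- the Euler class of a sum of twisted bundles -/
noncomputable def euP {L Y σ : Type} [CommRing L] [Algebra ℂ L] [TopologicalSpace Y] (T : Finset σ)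
    (x : σ → L) (r : σ → ℕ) (c : σ → (Hev Y)⟦X⟧) : L ⊗[ℂ] Hev Y :=
  ∏ l ∈ T, euT (x l) (r l) (c l)

/-- `y / x = s c(ε)` -/
def Eta {Y : Type} [TopologicalSpace Y] (x y : F ⊗[ℂ] Hev Y) (s : F) (c : (Hev Y)⟦X⟧) : Prop :=
  ∃ (q : Polynomial (Hev Y)) (η : F ⊗[ℂ] Hev Y),
    (q : (Hev Y)⟦X⟧) = c ∧ η * x = 1 ∧ η * y = s • HVa.evP _ q

theorem eta_of {Y σ J : Type} [TopologicalSpace Y] [CompactSpace Y] (T : Finset σ) {b : σ → ℂ}
    (hb : ∀ l ∈ T, b l ≠ 0) (f : σ → J) {c : J → (Hev Y)⟦X⟧} {x y : σ → (Hev Y)⟦X⟧} {r s : σ → ℕ}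
    {n : σ → ℤ} (hc : ∀ l, c (f l) = x l * (y l).invOfUnit 1)
    (x0 : ∀ l, constantCoeff (x l) = 1) (y0 : ∀ l, constantCoeff (y l) = 1)
    (hx : ∀ l m, r l < m → coeff m (x l) = 0) (hy : ∀ l m, s l < m → coeff m (y l) = 0)
    (dg : ∀ l (m : ℕ), coeff m (x l) ∈ Hev.deg Y m) (hn : Y → ∀ l, (s l : ℤ) - r l = n l) :
    Eta (euP T (fun l => b l • tt) r x) (euP T (fun l => b l • tt) s y)
      (∏ l ∈ T, (b l • tt) ^ n l) (Qrr.thC T b f c) := by
  obtain ⟨q, η, h1, h2, h3⟩ := HVa.exists_eta T hb f hc x0 y0 hx hy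
    fun l m => nil_of_deg (dg l m)
  refine ⟨q, η, h1, h2, h3.trans ?_⟩
  cases isEmpty_or_nonempty Y
  · rw [Subsingleton.elim q 0, map_zero, smul_zero, smul_zero]
  · simp only [hn (Classical.arbitrary Y)]

theorem Eta.loc {Y : Type} [TopologicalSpace Y] {I' : F ⊗[ℂ] H Y →ₗ[F] F} {I : H Y →ₗ[ℂ] ℂ}
    {x y : F ⊗[ℂ] Hev Y} {s : F} {c : (Hev Y)⟦X⟧} (e : Eta x y s c)
    (h : ∀ z, I' (z * inF _ x) = intT F I (z * inF _ y)) (u : H Y) :
    I' (1 ⊗ₜ u) = s * Hat.ofPS ℂ (mk fun m => I ((coeff m c).1 * u)) := by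
  obtain ⟨q, η, rfl, h2, h3⟩ := e
  have := h (1 ⊗ₜ u * inF _ η)
  rwa [mul_assoc, mul_assoc, ← map_mul, ← map_mul, h2, h3, map_one, mul_one, map_smul,
    mul_smul_comm, map_smul, HVa.intT_evP] at this

theorem vx_pb_list {Y Y' α : Type} [TopologicalSpace Y] [TopologicalSpace Y'] (e : C(Y, Y'))
    {u : α → F ⊗[ℂ] H Y'} {v : α → H Y} (h : ∀ x, pb F e (u x) = 1 ⊗ₜ v x) (L : List α) :
    pb F e (L.map u).prod = 1 ⊗ₜ (L.map v).prod := by
  induction L with
  | nil => exact map_one _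
  | cons a L ih =>
    rw [List.map_cons, List.map_cons, List.prod_cons, List.prod_cons, map_mul, h, ih,
      Algebra.TensorProduct.tmul_mul_tmul, one_mul]

theorem vx_pb_ins {Y Y' Y'' : Type} [TopologicalSpace Y] [TopologicalSpace Y'] [TopologicalSpace Y'']
    (e : C(Y, Y')) (f : C(Y', Y'')) {x : F ⊗[ℂ] Hev Y'} {u : H Y} (h : inF _ (pbE e x) = 1 ⊗ₜ u)
    (n : ℕ) (c : H Y'') : pb F e (inF _ (x ^ n) * pb F f (1 ⊗ₜ c)) =
      1 ⊗ₜ (u ^ n * H.map (f.comp e) c) := by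
  rw [map_mul, pb_inF, map_pow, map_pow, h, pb_tmul, pb_tmul, H.map_map,
    Algebra.TensorProduct.tmul_pow, Algebra.TensorProduct.tmul_mul_tmul, one_pow, one_mul]

theorem SD_coeff_gt {A W P : Type} [NormedRing A] [NormedAlgebra ℂ A] [NormedAddCommGroup W]
    [NormedSpace ℂ W] [AddCommGroup P] [Module ℂ P] [TopologicalSpace P] [IsTopologicalAddGroup P]
    [ContinuousSMul ℂ P] [T2Space P] {act : A → W → W} {T : Set W} {E : SD A W P} {r r' m : ℕ}
    [Holo.IsAct act T] (h : E.Ok act T r r') (ho : Orb.Orb Aˣ (Holo.Sp act T)) (e : r - r' < m) :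
    coeff m (E.ch act T) = 0 := by
  obtain ⟨_, E₁, _, _, -, h0, h1, -⟩ := h.exists_isMod ho
  rw [SD.ch, SD.chernT_presA ho h1]
  exact (E₁.coeff_chR m).trans (if_neg (by omega))

section cls

variable {S Λ R J K σ ι ν κ : Type} [Fintype S] [Fintype Λ] [Fintype R] [Fintype J] [Fintype K]
  [Fintype σ] [Fintype ι] [DecidableEq ι] [Fintype ν] [Fintype κ]

theorem GZ_eta {ch : Ch ι J} {F : Fam S Λ R J K} {ℓ : R → ι → ℤ} {Z : Set (ch.WF ν κ Λ)}
    (z : GZ F ℓ Z) [CompactSpace (Quo (actF F.toWt) Z)] (T : Finset σ) {b : σ → ℂ}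
    (hb : ∀ l ∈ T, b l ≠ 0) (f : σ → J) :
    Eta (euP T (fun l => b l • tt) (fun l => Module.finrank ℂ (ch.Th (f l)) * ch.h (some (f l)))
        fun l => (ch.sdX ν κ F.toWt (f l)).ch (actF _) Z)
      (euP T (fun l => b l • tt) (fun l => ch.rkO (f l))
        fun l => (ch.sdK ν κ F.toWt (f l)).ch (actF _) Z)
      (∏ l ∈ T, (b l • tt) ^ (-ch.eu (ch.wd (f l)))) (Qrr.thC T b f (indC F.toWt Z)) := by
  have := z.act
  have x := fun l => okX (F := F.toWt) Z (f l)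
  have y := fun l => z.cuts.okK (F := F.toWt) z.base (f l)
  exact eta_of T hb f (fun l => indC_eq (f l))
    (fun l => (x l).constCoeff z.orb) (fun l => (y l).constCoeff z.orb)
    (fun l _ e => SD_coeff_gt (x l) z.orb ((Nat.sub_zero _).trans_lt e))
    (fun l _ e => SD_coeff_gt (y l) z.orb ((Nat.add_sub_cancel_left ..).trans_lt e))
    (fun l => (x l).coeff_deg z.orb) fun u l => by
      rw [rkO_eq z.cuts.ne (z.base _ u.out.2), Nat.cast_mul, sub_sub_cancel_left]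

variable [DecidableEq R] [DecidableEq σ] {P : PB R J K σ} {K₀ : RD R} {k D : ℕ} {g : ℤ} {a : σ → ℂ}

/-- the quotient of the two Euler classes -/
theorem PB.Ok.eta (h : P.Ok K₀ k D) {i : σ} (ha : ∀ l ≠ i, a l - a i ≠ 0) (β : R → ℤ) :
    Eta (P.euX ν k D g (vxD P i β) i fun l => (a l - a i) • tt)
      (P.euK ν k D g (vxD P i β) i fun l => (a l - a i) • tt)
      (lamV P a i β * (∏ l ∈ Finset.univ.erase i, (a l - a i) • tt) ^ (g - 1))
      (Qrr.thC (Finset.univ.erase i) (fun l => a l - a i) .inr (indC (P.E {i}ᶜ).toWt _)) := by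
  have o := h.one (compl_ne i)
  have := o.compactSpace (ν := ν) (κ := Fin 0) (g := g) (d := vxD P i β) (u := 0) h.bigD_fam
  refine (congrArg (Eta _ _ · _) ?_).mp (GZ_eta (o.gz' ν (Fin 0) h.bigD_fam g (vxD P i β) 0)
    (Finset.univ.erase i) (b := fun l => a l - a i)
    (fun l hl => ha l (Finset.ne_of_mem_erase hl)) .inr)
  rw [lamV, ← Finset.prod_zpow, ← Finset.prod_mul_distrib]
  refine Finset.prod_congr rfl fun l hl => ?_
  rw [← zpow_add₀ (vx_tt_ne (ha l (Finset.ne_of_mem_erase hl))), funext (Fam.chart_wd' (F := P.E {i}ᶜ) (.inr l)), Fam.chart_eu]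
  refine congrArg _ ?_
  simp [PB.w, vxD, _root_.sub_mul]
  ring

theorem Md.I_id {X : Type} [TopologicalSpace X] {d : Option R → ℤ} (τ : Md P X ν g d) {Q U}
    (h : U = τ.sel Q) (x) : τ.I (inF _ (τ.id Q) * x) =
      τ.I (x * 1 ⊗ₜ hcls (fn (U.indicator 1))) :=
  h ▸ congrArg τ.I (inF_comm _ x)

end cls

variable {V : Type} [AddCommGroup V] [Module ℂ V] {p : Par ℂ V} {ι' : Type} [Fintype ι']
  {fr : Frame p ι'} {R J K : Type} [Fintype R] [Fintype J] [Fintype K] [DecidableEq R] {r : ℕ}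
  {P : PB R J K (Fin (r + 1))} {k D : ℕ} {ac : Act fr (Hev P.X)} {E : Dic ac P.X} {w c i₀ iP}
  {T : Th P P.X}

/-- **the contribution of a vertex** from its equivariant form -/
theorem GeoT.hV' (G : GeoT k D w T) (hS : St.Spec) (hW : St.WellD) (hR : St.Rel)
    (h : Cx P k E w c i₀ iP) (hD : (P.E ∅).BigD k D)
    (hc : ∀ (ν : Type) [Fintype ν] g d i e, Vxe k D (T ν g d) i e → Vxc k D (T ν g d) w i e) :
    HV T E w (ZVs p P k i₀ w) := by
  intro ν _ g d i
  have ok := h.ok hD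
  obtain ⟨e, he⟩ := (G ν g d).exists_vxe ok i
  have vc := hc ν g d i e he
  have cl := he.isClopen ok
  have o := ok.one (compl_ne i)
  have z := o.gz' ν (Fin 0) ok.bigD_fam g d 0
  have ps : ∀ n, pbE e ((T ν g d).ψ n) = 1 ⊗ₜ ⟨_, z.cl_psi_mem (.inl n)⟩ := fun n =>
    inF_injective (vc.psi n)
  refine ⟨he.rng ▸ cl, fun n => isNilpotent_iff.2 fun x => ?_, ?_⟩
  · rw [map_mul, Md.id, ← he.rng]
    by_cases hx : x ∈ range e
    · obtain ⟨y, rfl⟩ := hx
      rw [← ptE_pbE e y ((T ν g d).ψ n), ps, ptE_deg y 1 one_ne_zero (hcls_isDeg (z.psi_deg _)),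
        mul_zero]
    · rw [ptE_idE_notMem cl hx, zero_mul]
  rintro β rfl L hL
  obtain ⟨I', i1, i2⟩ := vc.loc
  have η := ok.eta (ν := ν) (g := g) (a := w) (i := i)
    (fun l hl => sub_ne_zero.2 (h.li.injective.ne hl)) β
  have hA : ∀ n, ∀ x ∈ P.ZV ν k D g (vxD P i β) {i}ᶜ, vl x (.inl n) ∈ (P.E ∅).cone :=
    fun n _ a => PB.cone_sub (z.vl_cone (.inl n) _ a)
  refine ((Md.I_id _ he.rng _).trans (i1 _).symm).trans ((congrArg I' (vx_pb_list e (v := fun x => hcls (psiF (.inl x.1)) ^ x.2.1 *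
    H.map (z.eqh_vl _ (hA x.1)).toEqv.qm (i₀ x.2.2)) (fun x => ?_) L)).trans
    ((η.loc i2 _).trans (congrArg _ (congrArg _ (PowerSeries.ext fun m => ?_)))))
  · refine (vx_pb_ins e _ (vc.psi x.1) _ _).trans ?_
    rw [h.i0, Wt.pb_eq (ok.eqv_bas (Z := ∅)), H.map_map, (G ν g _).ev_vxe ok he z x.1 (hA x.1)]
  · refine (coeff_mk _ _).trans (Eq.trans ?_ (coeff_mk _ _).symm)
    rw [← Qrr.evC_th _ _ _ z.constCoeff_indC, ← Qrr.Asm.thV_eq]
    exact (o.ser0_enum _ hS hW hR ok.bigD_fam PB.cone_sub h.ev0 z hL).symm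

end LG

end Vale.Agent.P269
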