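import Vale.Agent.P287Q.G.LG.HVd
import Vale.Agent.P287Q.G.LG.Bas
import Vale.Agent.P287Q.G.Qrr.Fac
import Vale.Agent.P287Q.G.PA.Vx
import Vale.Agent.P287Q.G.Vir.Lim

/-! The contribution of a vertex: points. -/

set_option linter.unusedSectionVars false

namespace Vale.Agent.P269

open Set Function Topology Filter B Vale.Agent.P291Z Vale.Agent.P269.Ch

variable {S Λ R J K σ ν κ : Type} [Fintype S] [Fintype Λ] [Fintype R] [Fintype J] [Fintype K]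
  [Fintype σ] [Fintype ν] [Fintype κ] [DecidableEq R]

namespace Fam

variable {F : Fam S Λ R J K} {k D : ℕ} {g : ℤ} {d : R → ℤ} {u : ν → J → ℕ}

/-- maps that avoid a coordinate hyperplane form an open set -/
theorem Good.isOpen_ne [IsEmpty κ] (h : F.Good) (hD : F.BigD k D) (j : J) :
    IsOpen {y : F.Mod κ k D g d u | ∃ m, F.At y m ∧ ∀ z, m.y j z ≠ 0} := by
  have : Nonempty J := ⟨j⟩
  let F' : Fam S Λ R J K := F.eqs F.χ F.wk F.G (F.U ∩ {z | z.2 j ≠ 0})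
  have hF : F'.Inv := ⟨h.hom, h.homS, h.openU.inter (isOpen_ne_fun (by fun_prop) continuous_const),
    fun t ht z hz => ⟨h.invU t ht z hz.1, mul_ne_zero (mul_ne_zero
      (prod_zpow_ne (isUnit_pi_iff.1 (Prod.isUnit_iff.1 ht).1) _)
      (prod_zpow_ne (isUnit_pi_iff.1 (Prod.isUnit_iff.1 ht).2) _)) hz.2⟩,
    h.closedE, h.invE, h.baseE, h.zer_base, h.lcB, h.invB⟩
  have f := Cv.chart_fits (F := F) (k := k) (D := D) g (Fintype.card (Mk ν κ)) d h.deg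
  have f' : (F.sch ν κ k D g d).Fits F' (F.tdeg (F.sch ν κ k D g d)) := ⟨f.wt, f.le, f.ne⟩
  have key : ∀ x : F.Zs κ k D g d u, (∃ m, F.At (Quo.mk _ x) m ∧ ∀ z, m.y j z ≠ 0) ↔
      x.1 ∈ (F.sch ν κ k D g d).solF ν κ F' := fun x => by
    obtain ⟨m, a⟩ := (chart_lat hD).exists_rep_sol x.2.1
    have b : F.At (Quo.mk _ x) m := ⟨x, rfl, a⟩
    refine Iff.trans ⟨fun ⟨m', c, e⟩ => ?_, fun c => ⟨m, b, fun z => (c.2.2 z).2.1.1.2⟩⟩
      (a.mem_solF x.2.1.1.2.1 hF chart_wd').symm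
    have s := b.sol h.toInv
    obtain ⟨f, -, t, τ, -, -, -, -, -, c'⟩ := (b.eq_iff hD c).1 rfl
    exact ⟨s.1, s.2.1, fun z => ⟨(s.2.2 z).1, ⟨⟨(s.2.2 z).2.1.1, fun h0 => e (f z)
      ((c' j trivial z).trans (mul_eq_zero_of_right _ h0))⟩, (s.2.2 z).2.1.2⟩, (s.2.2 z).2.2⟩⟩
  refine isQuotientMap_quot_mk.isOpen_preimage.1 (isOpen_iff_mem_nhds.2 fun x hx => ?_)
  filter_upwards [continuous_subtype_val.continuousAt.eventually
    (eventually_solF hF f' ((key x).1 hx))] with y a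
  exact (key y).2 (a ((solF_subset_adm_iff y.2.1).2 fun _ _ q => isEmptyElim q)
    (sctF_mem_vanM f y.2.1 :))

theorem At.ev {y : F.Mod κ k D g d u} {m : AM Λ R J ν κ} (h : F.At y m)
    (hz : GZ F ℓs (F.Zs κ k D g d u)) (n : Mk ν κ) {A : Set _}
    (hA : ∀ x ∈ F.Zs κ k D g d u, vl x n ∈ A) (hm : m.vl (m.p n) ∈ A) :
    (hz.eqh_vl n hA).toEqv.qm y = Quo.mk _ ⟨_, hm⟩ := by
  obtain ⟨x, rfl, a⟩ := h
  obtain ⟨t, b, c⟩ := a.vl (W := F.toWt) x.2.1.1.2.1 chart_wd'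
  exact (Quot.sound ⟨_, Prod.isUnit_iff.2 ⟨isUnit_one, b _⟩, c n⟩).symm

end Fam

namespace LG

variable [DecidableEq σ] {P : PB R J K σ} {K₀ : RD R} {k D : ℕ} {g : ℤ} {d : Option R → ℤ}
  {Z : Set σ} {i : σ} {m : AM0 R J σ ν} {a : σ → ℂ}

theorem compl_ne (i : σ) : ({i}ᶜ : Set σ) ≠ univ := fun e => e.ge (mem_univ i) rfl

theorem PB.Ok.one (h : P.Ok K₀ k D) (hZ : Z ≠ univ) : (P.E Z).One k :=
  ⟨PA.nice_of_abs (h.good_E hZ) ⟨_, PB.reg h.B h.abs h.reg⟩ (PB.abs h.abs) rfl, PB.abs h.abs,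
    ⟨Empty.elim, eq_singleton_iff_unique_mem.2 ⟨trivial, fun _ _ => Subsingleton.elim _ _⟩⟩,
    h.big_fam⟩

theorem PB.cone_sub : (P.E Z).cone ⊆ (P.E ∅).cone := fun z hz =>
  mem_of_eq_of_mem (y := (Empty.elim, z.2)) (Prod.ext (Subsingleton.elim _ _) rfl)
    (PB.cone_iff.1 hz).2.1

/-- the projection to the base -/
theorem PB.Ok.eqv_bas (h : P.Ok K₀ k D) : Tq.Eqv (P.E Z).actT P.F.actT (P.E Z).cone P.F.cone
    fun z => (z.1, z.2 ∘ .inl) :=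
  ⟨fun z hz => mem_of_eq_of_mem (y := (Empty.elim, z.2 ∘ .inl))
    (Prod.ext (Subsingleton.elim _ _) rfl) ((PB.mem_cone h.B h.abs).1 hz).2.1, by fun_prop, fun t ht z _ => ⟨(1, t.2 ∘ some),
      Prod.isUnit_iff.2 ⟨isUnit_one, isUnit_pi_iff.2 fun _ =>
        isUnit_pi_iff.1 (Prod.isUnit_iff.1 ht).2 _⟩,
      Prod.ext (Subsingleton.elim _ _) (funext fun j => by simp [Wt.actT, PB.w])⟩⟩

theorem Fx.vert_iff (h : Fx m P g d) : Vert m {i} ↔ ∀ z, m.y (.inr i) z ≠ 0 := by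
  refine ⟨fun c z => ?_, fun c z => ?_⟩
  · obtain ⟨_, rfl, b⟩ := c z
    exact (Vx.ov b).ne h.sol
  · have k : ∀ {z l}, Ov m z l → i = l := fun b => not_not.1 fun e => c _ (b i e)
    rcases h.str z with ⟨l, b⟩ | ⟨e, _, _, b, -⟩
    · exact ⟨l, (k (Vx.ov b)).symm, b⟩
    · exact (e.ne ((k b.ov_src).symm.trans (k b.ov_tgt))).elim

variable (Z) in
theorem PB.ZV_sub (hA : P.F.Abs) : P.ZV ν k D g d Z ⊆ P.ZV ν k D g d ∅ := fun x hx =>
  have a : x ∈ (P.cV ν k D g d ∅).solF ν (Fin 0) (P.E ∅) := mem_solF.2 ⟨hx.1.1, fun c hc =>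
    (mem_solF.1 hx.1).2 c hc |>.imp_right fun b => PB.cone_sub b⟩
  ⟨a, subset_closure ⟨(solF_subset_adm_iff a).2 fun _ _ q => q.elim0,
    fun _ b c => (c ((PB.abs hA).1 b)).elim⟩, a.1⟩

variable (ν k D g d Z) in
/-- the inclusion of the maps to a subbundle -/
noncomputable def PB.jV (hA : P.F.Abs) : C(P.XV ν k D g d Z, P.X0 ν k D g d) :=
  ⟨Quo.incl _ (PB.ZV_sub Z hA), continuous_quot_lift _
    (continuous_quot_mk.comp (continuous_inclusion (PB.ZV_sub Z hA)))⟩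

theorem PB.Ok.at_jV (h : P.Ok K₀ k D) (hZ : Z ≠ univ) {y : P.XV ν k D g d Z} :
    (P.E ∅).At (PB.jV ν k D g d Z h.abs y) m ↔ (P.E Z).At y m := by
  have a : ∀ m, (P.E Z).At y m → (P.E ∅).At (PB.jV ν k D g d Z h.abs y) m :=
    fun _ ⟨x, b, c⟩ => ⟨inclusion (PB.ZV_sub Z h.abs) x, congrArg _ b, c⟩
  obtain ⟨m₀, b⟩ := Fam.exists_at h.bigD_fam y
  exact ⟨fun c => b.of_iso (h.good_E hZ).toInv h.bigD_fam (((a _ b).eq_iff h.bigD c).1 rfl), a m⟩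

variable {X : Type} [TopologicalSpace X]

theorem Vxe.isClopen {τ : Md P X ν g d} {e : C(P.XV ν k D g d {i}ᶜ, τ.A)} (he : Vxe k D τ i e)
    (h : P.Ok K₀ k D) : IsClopen (range e) :=
  haveI := (h.one (compl_ne i)).compactSpace (ν := ν) (κ := Fin 0) (g := g) (d := d) (u := 0)
    h.bigD_fam
  ⟨(isCompact_range e.continuous).isClosed, he.emb.isOpen_range⟩

variable {τ : Md P P.X ν g d} (G : Geo k D a τ) (h : P.Ok K₀ k D)
include G h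

theorem Geo.isOpen_vert (i : σ) : IsOpen (τ.sel (Vert · {i})) :=
  (ext fun _ => exists_congr fun _ => (and_congr_right fun b => (τ.fx b).vert_iff).trans
    (and_congr_left' (G.rp _ _)) : τ.sel (Vert · {i}) =
      G.g0 ⁻¹' {y | ∃ m, (P.E ∅).At y m ∧ ∀ z, m.y (.inr i) z ≠ 0}) ▸
    (h.goodE.isOpen_ne h.bigD _).preimage G.g0.continuous

omit G in
theorem PB.Ok.vert {y : P.XV ν k D g d {i}ᶜ} (b : (P.E {i}ᶜ).At y m) : Vert m {i} :=
  vert_single.2 ((sol_iff h.B h.abs).1 (b.sol (h.good_E (compl_ne i)).toInv)).2.2.2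

theorem Geo.exists_rp (i : σ) : ∃ e : C(P.XV ν k D g d {i}ᶜ, τ.A),
    ∀ y m, τ.Rp (e y) m ↔ (P.E {i}ᶜ).At y m := by
  have r : ∀ y, ∃ x, G.g0 x = PB.jV ν k D g d {i}ᶜ h.abs y := fun y => by
    obtain ⟨m, hm⟩ := Fam.exists_at h.bigD_fam y
    have b := (h.at_jV (compl_ne i)).2 hm
    obtain ⟨x, hx⟩ := τ.surj ⟨b.sol h.goodE.toInv, (b.stable h.bigD :), b.typ, (h.vert hm).str⟩
    exact ⟨x, (((G.rp _ _).1 hx).eq_iff h.bigD b).2 (.refl _)⟩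
  choose e he using r
  exact ⟨⟨e, G.emb.isEmbedding.continuous_iff.2
    ((PB.jV ν k D g d {i}ᶜ h.abs).continuous.congr fun y => (he y).symm)⟩, fun y m =>
    (G.rp _ _).trans ((congrArg ((P.E ∅).At · m) (he y)).to_iff.trans (h.at_jV (compl_ne i)))⟩

/-- **the maps to a fixed component** -/
theorem Geo.exists_vxe (i : σ) : ∃ e, Vxe k D τ i e := by
  have hZ := compl_ne i
  have := (h.one hZ).compactSpace (ν := ν) (κ := Fin 0) (g := g) (d := d) (u := 0) h.bigD_fam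
  obtain ⟨e, rp⟩ := G.exists_rp h i
  have rng : range e = τ.sel (Vert · {i}) := ext fun x => ⟨fun ⟨y, b⟩ =>
    let ⟨m, hm⟩ := Fam.exists_at h.bigD_fam y; ⟨m, b ▸ (rp _ _).2 hm, h.vert hm⟩, fun ⟨m, b, c⟩ => by
      have f := τ.fx b
      obtain ⟨s1, s2, s3, -⟩ := (sol_iff h.B h.abs).1 f.sol
      obtain ⟨y, hy⟩ := Fam.exists_at_of (u := 0) (h.good_E hZ).toInv (PB.abs h.abs) h.big_fam
        h.bigD_fam ((sol_iff h.B h.abs).2 ⟨s1, s2, s3, vert_single.1 c⟩) f.stable f.typ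
      exact ⟨y, τ.inj ((rp _ _).2 hy) b⟩⟩
  have inj : Injective e := fun y y' c => by
    obtain ⟨m, hm⟩ := Fam.exists_at h.bigD_fam y
    exact (hm.eq_iff h.bigD_fam ((rp _ _).1 (c ▸ (rp _ _).2 hm))).2 (.refl _)
  exact ⟨e, ⟨(e.continuous.isClosedEmbedding inj).isEmbedding, rng ▸ G.isOpen_vert h i⟩, rng, rp⟩

/-- the evaluation maps on a vertex -/
theorem Geo.ev_vxe {e : C(P.XV ν k D g d {i}ᶜ, τ.A)} (he : Vxe k D τ i e)
    (hz : GZ (P.E {i}ᶜ) ℓs (P.ZV ν k D g d {i}ᶜ)) (n : ν)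
    (hA : ∀ x ∈ P.ZV ν k D g d {i}ᶜ, vl x (.inl n) ∈ (P.E ∅).cone) :
    (τ.ev n).comp e = (h.eqv_bas (Z := ∅)).qm.comp (hz.eqh_vl (.inl n) hA).toEqv.qm :=
  ContinuousMap.ext fun y => by
    obtain ⟨m, hm⟩ := Fam.exists_at h.bigD_fam y
    obtain ⟨_, b⟩ := G.ev n _ _ ((he.rp _ _).2 hm)
    exact b.trans (congrArg (h.eqv_bas (Z := ∅)).qm
      (hm.ev hz _ hA (PB.cone_sub ((hm.sol hz.inv).2.2 _)))).symm

end LG

end Vale.Agent.P269
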