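import Vale.Agent.P269.LG.HVs
import Vale.Agent.P269.Map.Tr
import Vale.Agent.P287Q.G.Map.E5
import Vale.Agent.P287Q.G.Vir.Std
import Vale.Agent.P287Q.G.Vir.Ind
import Vale.Agent.P287Q.G.Bas.Ev
import Vale.Agent.P287Q.G.Bas.Lv
import Vale.Agent.P287Q.G.Fg.PtB
import Vale.Agent.P287Q.G.Vir.RD

set_option linter.unusedSectionVars false

/-!
# A movable field that does not occur in the equations is set to zero
-/

namespace Vale.Agent.P269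

open Set Function Topology Filter Module P291Z Orb Holo

variable {S Λ R J K ι ν κ : Type} [Fintype S] [Fintype Λ] [Fintype R] [Fintype J] [Fintype K]
  [Fintype ι] [DecidableEq ι] [Fintype ν] [Fintype κ]

/-- The same family with other movable and vanishing fields. -/
@[reducible] def Fam.mz (F : Fam S Λ R J K) (m z : Set J) : Fam S Λ R J K :=
  { F with mov := m, zer := z }

namespace HVZ

variable {A W P : Type} [NormedRing A] [NormedAlgebra ℂ A] [NormedAddCommGroup W] [NormedSpace ℂ W]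
  [NormedAddCommGroup P] [NormedSpace ℂ P] {ρ : A → P → P} {O Z : Set W} {x : W} {σ : W →L[ℂ] P}

/-- linear retractions preserve tangent spaces -/
theorem tan_map {L : W →L[ℂ] W} (e : L x = x) (h : MapsTo L O Z) {v : W} (hv : v ∈ Ch.KD.Tan O x) :
    L v ∈ Ch.KD.Tan Z x := by
  obtain ⟨a, b⟩ := hv
  refine ⟨e ▸ h a, fun Φ c d => ?_⟩
  have c' : AnalyticAt ℂ Φ (L x) := e.symm ▸ c
  have f := b (fun y => Φ (L y)) (c'.comp (L.analyticAt x))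
    ((ev_sub a (p := fun s => Φ (L s) = 0)).2 (((L.continuous.tendsto' x x e).eventually
      ((ev_sub _ (p := fun s => Φ s = 0)).1 d)).mono fun y k l => k (h l)))
  rw [show (fun y => Φ (L y)) = Φ ∘ L from rfl,
    (c'.differentiableAt.hasFDerivAt.comp x L.hasFDerivAt).fderiv, e] at f
  exact f

theorem tst (l : P →L[ℂ] ℂ) : (Ch.KD.mk ρ ⊤ (fun _ => ⊥) (fun _ => ⊤) σ).Tst O x
    (fun _ => l.toLinearMap) (l ∘L σ) :=
  ⟨(l ∘L σ).analyticAt x, fun _ _ => .of_forall fun _ => continuousWithinAt_const,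
    .of_forall fun _ _ e => (congrArg l e).trans (map_zero l), .of_forall fun _ => rfl⟩

theorem sep : (Ch.KD.mk ρ ⊤ (fun _ => ⊥) (fun _ => ⊤) σ).Sep O x := fun _ _ h =>
  SeparatingDual.eq_zero_of_forall_dual_eq_zero (R := ℂ) fun l => h _ _ (tst l)

theorem trv {L : W →L[ℂ] W} (e : ∀ v, σ v = 0 → L v = v) (e₀ : σ x = 0) (h : MapsTo L O Z) :
    (Ch.KD.mk ρ ⊤ (fun _ => ⊥) (fun _ => ⊤) σ).Trv Z O x := fun v hv H =>
  e v (SeparatingDual.eq_zero_of_forall_dual_eq_zero (R := ℂ) fun l =>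
    (DFunLike.congr_fun (l ∘L σ).fderiv v).symm.trans (H _ _ (tst l))) ▸ tan_map (e x e₀) h hv

end HVZ

/-- two obstruction theories on the same base that differ by a bundle -/
theorem Ch.KD.IsW.eq_cap {A W P P' P'' : Type} [NormedRing A] [NormedAlgebra ℂ A]
    [NormedAddCommGroup W] [NormedSpace ℂ W] [AddCommGroup P] [Module ℂ P] [TopologicalSpace P]
    [AddCommGroup P'] [Module ℂ P'] [TopologicalSpace P'] [AddCommGroup P''] [Module ℂ P'']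
    [TopologicalSpace P''] [IsTopologicalAddGroup P] [ContinuousSMul ℂ P] [T2Space P]
    [IsTopologicalAddGroup P'] [ContinuousSMul ℂ P'] [T2Space P'] [IsTopologicalAddGroup P'']
    [ContinuousSMul ℂ P''] [T2Space P''] [FiniteDimensional ℂ A] [FiniteDimensional ℂ W]
    {act : A → W → W} [IsAct act univ] {Z T : Set W} {D : Ch.KD A W P} {D₀ : Ch.KD A W P''}
    {E : Ch.SD A W P'} {d r r' : ℕ} {v v' : BM (Quo act Z)} (w : D.IsW act Z T d v)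
    (w' : D₀.IsW act Z T d v') (k : E.Ok act T r r') {B₁ : P →ₗ[ℂ] P'} {B₀ : P'' →ₗ[ℂ] P}
    (h1 : D.Lin (E.kds fun _ => 0) id id T B₁) (h2 : D₀.Lin D id id T B₀) (hi : D₀.Inj D id Z B₀)
    (hs : D.Srj (E.kds fun _ => 0) id Z B₁) (hc : ∀ x ∈ Z, ∀ u ∈ D₀.obs x, B₁ (B₀ u) ∈ E.N x)
    (hr : ∀ x ∈ Z, finrank ℂ (D.obs x) + finrank ℂ (D₀.van x) + r' =
      finrank ℂ (D₀.obs x) + finrank ℂ (D.van x) + r) : v = cap (hcls (E.eu act Z)) v' := by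
  obtain ⟨O₁, n₁, r₁, g₁, o₁, -⟩ := id w
  obtain ⟨O, n₂, r₂, g₂, e₂, o₂, m₂, rfl⟩ := w'.exists_sub o₁ g₁.ivt g₁.dom.sub
  have g₃ := g₁.mono e₂ g₂.ivt g₂.lc (inter_eq_left.2 g₂.dom.sub).symm
  have e₃ : O ⊆ T := o₂.elim fun _ a => a.2.le.trans inter_subset_left
  replace k := k.mono e₃
  have g₄ : (E.kds fun _ => 0).Gd act O O _ _ :=
    ⟨⟨Subset.rfl, g₂.dom.opn, g₂.dom.isAct, g₂.dom.orb, fun x a => iff_of_true (zero_mem _) a⟩,
      k.kds_ok (fun _ _ => zero_mem _) continuousOn_const fun x _ a u => by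
        simpa using (k.rep.smul a u 0 0 (zero_mem _)).symm⟩
  have := g₂.dom.isAct
  have := g₂.isActZ
  rw [w.eq_vr g₃ o₂ m₂, g₃.vr_comp g₄ g₂ (h1.mono e₃) (h2.mono e₃) hi hs hc fun ⟨x, c⟩ => ?_,
    k.vr_zero g₄, g₂.vr_cap (k.cocycle g₂.dom.orb), (k.res_incl g₂.dom.orb g₂.orbZ g₂.dom.sub).1,
    H.map_hcls _ (k.cocycle g₂.dom.orb)]
  · rfl
  · have p := g₂.dom.sub c
    have := hr x c
    rw [g₃.ok.obs_rank x p ((g₃.dom.zero x p).2 c), g₃.ok.fam.rank x p,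
      g₂.ok.obs_rank x p ((g₂.dom.zero x p).2 c), g₂.ok.fam.rank x p] at this
    have := k.rank_le p
    omega

namespace Ch

variable {ch : Ch ι J} {F : Fam S Λ R J K} {e : K → ι → ℕ} {K₀ : RD R} {ℓ : R → ι → ℤ} {b : ℕ}
  {U U' : Set (ch.WF ν κ Λ)}

/-- the virtual class of an absolute problem has a smooth base -/
theorem Ok.isW_abs (h : ch.Ok F e K₀ ℓ b U) (hA : F.Abs) :
    (∀ x ∈ ch.cyc κ F (0 : ν → J → ℕ), ((ch.dimM ν κ F b 0).toNat : ℤ) = ch.dimM ν κ F b 0 ∧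
      MfdAt (ch.cyc κ F (0 : ν → J → ℕ)) (ch.dimM ν κ F b 0).toNat x) ∧
    (ch.kd ν κ F e).IsW (actF F.toWt) (ch.solF ν κ F ∩ ch.cyc κ F 0) (ch.cyc κ F 0)
      ((ch.dimM ν κ F b 0).toNat - finrank ℂ (ch.AF ν κ S)) (virF F e _) := by
  have c : ch.main κ F (0 : ν → J → ℕ) = ch.cyc κ F 0 := Subset.antisymm
    (fun x a => ⟨subset_closure a, a.1.1⟩) fun x a =>
      ⟨h.cuts.cyc_subset_adm h.inv _ a, fun j c e => (e (hA.1 c)).elim⟩
  have s : F.Sh 0 (Fin.elim0 : Fin 0 → J) 0 1 := ⟨nofun, linearIndependent_empty_type, nofun,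
    fun _ a b => (b (hA.1 a)).elim, fun _ _ _ => ⟨analyticAt_const, one_ne_zero⟩,
    fun _ a b => (b (hA.1 a)).elim, fun _ a b => (b (hA.1 a)).elim, fun _ _ _ _ _ =>
      iff_of_true (hA.2.ge (mem_univ _)) fun _ a b => (b (hA.1 a)).elim, fun _ _ => rfl⟩
  have g : Gr ch F (0 : ν → J → ℕ) _ 0 1 := h.lat.gr h.inv s 0
  have v := h.vd g (locAn_main h.cuts h.wt
    ⟨∅, nofun, hA.2.trans (eq_univ_of_forall fun _ _ e => nomatch e).symm⟩ _)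
  have m := fun x => h.num.mfd_main (κ := κ) (x := x) h.sm g
  rw [c, Fintype.card_fin] at v m
  obtain ⟨n, k⟩ := v.gd h.toStd
  exact ⟨m, _, _, _, k, v.dom.opn, fun x a => ⟨a, v.cyc.mfd ⟨x, a⟩⟩, v.virF_vr h.toStd⟩

variable (ch) in
/-- The Koszul part of the field `j`. -/
noncomputable def prK (K : Type) (j : J) : ch.P K →ₗ[ℂ] ch.P Empty :=
  ch.sgK j ∘ₗ LinearMap.proj j ∘ₗ LinearMap.fst ℂ _ _

variable {m z : Set J} {j : J} {x : ch.WF ν κ Λ} {f : ch.P K}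

theorem prK_fst (f : ch.P K) : (ch.prK K j f).1 j = f.1 j := sgK_same _

theorem prK_mem (hf : f ∈ ch.polF F e) : ch.prK K j f ∈ ch.polK j := sgK_mem ((mem_polS.1 hf).1 j)

theorem prK_N (hf : f ∈ ch.polF F e) (h : ∀ y ∈ gr x.2, f.1 j y = 0) :
    ch.prK K j f ∈ (ch.sdK ν κ F.toWt j).N x :=
  mem_sdK_N.2 ⟨prK_mem hf, fun y hy => (congrFun (prK_fst f) y).trans (h y hy)⟩

theorem prK_lin (hf : ch.Fits F e) {O : Set (ch.WF ν κ Λ)} (hO : ∀ x ∈ O, x.2.X j = 0) :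
    (ch.kd ν κ F e).Lin ((ch.sdK ν κ F.toWt j).kds fun _ => 0) id id O (ch.prK K j) := by
  refine ⟨fun _ a => (prK_mem a).1, fun s _ w a => ext_polK (prK_mem (ρF_mem a))
    (ρK_polK (prK_mem a)) ?_, fun x _ w a => prK_N a.1 fun y hy =>
      congrFun (congrArg Prod.fst ((mem_vanM.1 a).2 y hy)) j, fun x hx => ?_,
    fun x _ _ w a => (mem_sdK_B (F := F.toWt) (x := x)).2 ⟨prK_mem a.1, fun y hy => ?_⟩⟩
  · refine (prK_fst _).trans (funext₂ fun y n => ?_)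
    change _ = (ρK F.toWt s _).1 j y n
    rw [ρK_eq (j := j), ρF_fst, ρF_fst, prK_fst]
  · refine mem_of_eq_of_mem (sub_zero _) (prK_N (hf.sctF_mem x) fun y _ => funext fun n => ?_)
    change Vir.kos (tvZ y.1 j) (yv x.2 y j) n = 0
    rw [show yv x.2 y j = 0 from LinearMap.ext fun _ => by simp [yv, hO x hx], Vir.kos_zero]
  · obtain ⟨Y, -, c, -⟩ := (mem_obsF.2 a).2 y hy
    exact ⟨Y j, fun n => (congrFun (congrFun (prK_fst w) y) n).trans (c j n)⟩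

theorem prK_srj (hj : j ∈ F.mov) (hG : ∀ k, ∀ α ∈ (F.G k).support, α j = 0)
    (Z : Set (ch.WF ν κ Λ)) :
    (ch.kd ν κ F e).Srj ((ch.sdK ν κ F.toWt j).kds fun _ => 0) id Z (ch.prK K j) := by
  classical
  intro x _ w hw
  obtain ⟨a, c⟩ := (mem_sdK_B (F := F.toWt) (x := x)).1 hw
  have p : ((w.1, 0) : ch.P K) ∈ ch.polF F e :=
    mem_polS.2 ⟨(mem_polS.1 a.1).1, fun _ => zero_mem _⟩
  refine ⟨(w.1, 0), mem_obsF.1 ⟨p, fun y hy => ?_⟩, mem_of_eq_of_mem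
    (sub_eq_zero.2 (ext_polK (prK_mem p) a (prK_fst _))) (zero_mem _)⟩
  obtain ⟨Y, d⟩ := c y hy
  refine ⟨Pi.single j Y, fun i k => Pi.single_eq_of_ne (fun l : i = j => k (l ▸ hj)) _, fun i n => ?_,
    fun k ζ => ((deriv_hmg _ k ζ).trans (Finset.sum_eq_zero fun i _ => ?_)).symm⟩
  · rcases eq_or_ne i j with rfl | k
    · rw [Pi.single_eq_same]
      exact d n
    · simp [a.2 i k, Pi.single_eq_of_ne k]
  · rcases eq_or_ne i j with rfl | l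
    · rw [D_zero (hG k), zero_mul]
    · simp [Pi.single_eq_of_ne l]

theorem mz_lin (hm : m ⊆ F.mov) (O : Set (ch.WF ν κ Λ)) :
    (ch.kd ν κ (F.mz m z) e).Lin (ch.kd ν κ F e) id id O .id :=
  ⟨fun _ a => a, fun _ _ _ _ => rfl, fun _ _ _ a => a,
    fun _ _ => mem_of_eq_of_mem (sub_self _) (zero_mem _), fun _ _ _ _ a => mem_obsF.1
      ⟨a.1, fun y hy => ((mem_obsF.2 a).2 y hy).imp fun _ c =>
        ⟨fun i k => c.1 i fun l => k (hm l), c.2⟩⟩⟩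

theorem mz_sol (hz : z = F.zer ∪ {j}) (hx : x.2.X j = 0) :
    x ∈ ch.solF ν κ (F.mz m z) ↔ x ∈ ch.solF ν κ F :=
  and_congr_right fun _ => and_congr_right fun _ => forall₂_congr fun y hy =>
    exists_congr fun c => and_congr_left fun a => and_congr_left' (and_congr_right fun _ =>
      and_congr_right fun _ => ⟨fun d i k => d i (hz.ge (Or.inl k)), fun d i k =>
        (hz.le k).elim (d i) fun l => by
          obtain rfl : i = j := l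
          obtain ⟨μ, p⟩ := tvZ_ne (ch := ch) hy.1 i
          refine (mul_eq_zero.1 ((a i μ).symm.trans ?_)).resolve_right p
          simp [hx]⟩)

theorem sum_mz {β : Type} [AddCommMonoid β] {p q : J → Prop} [DecidablePred p] [DecidablePred q]
    (hj : p j) (h : ∀ i, q i ↔ i ≠ j ∧ p i) (g : J → β) :
    ∑ i with p i, g i = ∑ i with q i, g i + g j := by
  classical
  rw [← Finset.sum_erase_add _ _ (show j ∈ Finset.univ.filter p by simpa using hj)]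
  exact congrArg (· + _) (Finset.sum_congr (Finset.ext fun i => by simp [h]) fun _ _ => rfl)

theorem dimM_mz (hj : j ∈ F.mov) (hm : m = F.mov \ {j}) : ch.dimM ν κ F b 0 =
    ch.dimM ν κ (F.mz m z) b 0 + (finrank ℂ (ch.Th j) * ch.h (some j) : ℕ) := by
  classical
  rw [dimM, dimM, sum_mz (p := (· ∉ (F.mz m z).mov)) (q := (· ∉ F.mov)) (j := j) (by simp [hm])
    fun i => ⟨fun a => ⟨fun c => a (c ▸ hj), fun c => a (hm.le c).1⟩,
      fun a c => a.2 (hm.ge ⟨c, a.1⟩)⟩, Nat.cast_add]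
  ring

theorem rk_mz {K₁ : RD R} (hc : ch.Cuts) (hw : ch.HasWt F ℓ) (hx : x.2 ∈ ch.base _) (hj : j ∈ F.mov)
    (hm : m = F.mov \ {j}) (hK : K₀ = K₁.add ⟨1, F.w j⟩) :
    ch.rk F ℓ K₀ = ch.rk (F.mz m z) ℓ K₁ + ch.rkO j := by
  classical
  rw [hK, rk_eq, rk_eq, euD_add', Nat.cast_one, euD_one, hw.eu,
    sum_mz (p := (· ∈ F.mov)) (q := (· ∈ (F.mz m z).mov)) hj fun i => by
    simp [hm, and_comm], rkO_eq hc.ne hx, h_eq₁ hx (hc.ne _)]
  exact add_sub_add_comm _ _ _ _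

theorem vanM_mz : vanM (F.mz m z) e x = vanM F e x := rfl

/-- the obstruction theories on the smaller base differ by the Koszul bundle -/
theorem Std.z2 {K₁ : RD R} (h : ch.Std F e K₀ ℓ) (h' : ch.Std (F.mz m z) e K₁ ℓ)
    (hK : K₀ = K₁.add ⟨1, F.w j⟩) (hj : j ∈ F.mov)
    (hm : m = F.mov \ {j}) (hG : ∀ k, ∀ α ∈ (F.G k).support, α j = 0) {Z S₀ : Set (ch.WF ν κ Λ)}
    (hS : ∀ x ∈ S₀, x.2 ∈ ch.base _ ∧ x.2.X j = 0) (hZ : Z ⊆ ch.solF ν κ F)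
    (hZ' : Z ⊆ ch.solF ν κ (F.mz m z)) {d : ℕ} {v v' : BM (Quo (actF F.toWt) Z)}
    (w : (ch.kd ν κ F e).IsW (actF F.toWt) Z S₀ d v)
    (w' : (ch.kd ν κ (F.mz m z) e).IsW (actF F.toWt) Z S₀ d v') :
    v = cap (hcls ((ch.sdK ν κ F.toWt j).eu (actF F.toWt) Z)) v' := by
  refine w.eq_cap w' (h.cuts.okK (fun x a => (hS x a).1) j) (prK_lin h.fits fun x a => (hS x a).2)
    (mz_lin (hm.le.trans sdiff_subset) _) (fun _ _ _ _ a => vanM_mz.ge a) (prK_srj hj hG _)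
    (fun x _ f a => prK_N (F := F) (e := e) a.1 fun y hy => funext fun n => ?_) fun x c => ?_
  · obtain ⟨Y, p, q, -⟩ := (mem_obsF.2 a).2 y hy
    simpa [p j fun c => (hm.le c).2 rfl] using q j n
  · have p1 := finrank_obsM h.inv h.reg h.fits h.wt h.cuts.ne (hZ c)
    have p2 := finrank_obsM h'.inv h'.reg h'.fits h'.wt h'.cuts.ne (hZ' c)
    have p3 := rk_mz (z := z) h.cuts h.wt (hZ c).1.2.1 hj hm hK
    dsimp only
    omega

/-- The field `j`. -/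
noncomputable def XF (j : J) : ch.WF ν κ Λ →L[ℂ] ch.Th j →L[ℂ] ch.E (some j) :=
  W.XL j ∘L .snd ℂ _ _

theorem okXF (F : Wt S Λ R J) (O : Set (ch.WF ν κ Λ)) (j : J) :
    ((ch.sdX ν κ F j).kds (XF j)).Ok (actF F) O 0 (finrank ℂ (ch.Th j) * ch.h (some j)) :=
  (okX O j).kds_ok (fun _ _ => trivial) (map_continuous _).continuousOn fun x _ a _ =>
    (actF_X x F a j).trans (ContinuousLinearMap.ext fun _ => map_smul (a.2.2.1 (some j)) _ _)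

/-- cutting a level by a movable field -/
theorem Std.cutX (h : ch.Std F e K₀ ℓ) (hj : j ∈ F.mov) {S₀ S₁ Z₀ : Set (ch.WF ν κ Λ)} (L : Lev F S₁)
    (l : IsLocallyClosed S₁) (c : ∀ {x}, x ∈ S₀ ↔ x ∈ S₁ ∧ x.2.X j = 0)
    (c' : Z₀ = ch.solF ν κ F ∩ S₁ ∩ S₀) {d : ℕ} (hm : KD.Mf (ch.AF ν κ S) S₀ d) {v}
    (w : (ch.kd ν κ F e).IsW (actF F.toWt) (ch.solF ν κ F ∩ S₁) S₁
      (d + finrank ℂ (ch.Th j) * ch.h (some j)) v) : (ch.kd ν κ F e).IsW (actF F.toWt) Z₀ S₀ d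
        (((ch.sdX ν κ F.toWt j).kds (XF j)).vr (actF F.toWt) Z₀ _ v) := by
  obtain ⟨_, r⟩ := h.reg' L.adm L.inv l
  have s : S₀ ⊆ S₁ := fun _ a => (c.1 a).1
  have k : ((ch.sdX ν κ F.toWt j).kds (XF j)).Reg (actF F.toWt) (S₀ ∩ S₁) S₁ S₁ 0 _ :=
    ⟨inter_subset_right, ⟨univ, isOpen_univ, (inter_univ _).symm⟩, L.inv, l,
      fun x a => ⟨fun b => ⟨c.2 ⟨a, b⟩, a⟩, fun b => (c.1 b.1).2⟩, okXF _ _ j⟩
  have q : ∀ y ∈ S₁, zr {j} y ∈ S₁ := fun y p =>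
    L.mov y p _ fun i u => if_neg fun q : i = j => u (q ▸ hj)
  have t : ∀ x ∈ S₀ ∩ S₁, ((ch.sdX ν κ F.toWt j).kds (XF j)).Trv (S₀ ∩ S₁) S₁ x := fun x a =>
    (HVZ.trv (ρ := (ch.sdX ν κ F.toWt j).ρ) (σ := XF j) (x := x) (L := zr {j})
      (fun v p => kill_eq (forall_eq.2 p)) (c.1 a.1).2
      fun y p => mem_inter (c.2 ⟨q y p, kill_X' rfl⟩) (q y p) :)
  have p : ∀ x ∈ S₀ ∩ S₁, ((ch.sdX ν κ F.toWt j).kds (XF j)).Sep S₁ x := fun x _ =>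
    (HVZ.sep (ρ := (ch.sdX ν κ F.toWt j).ρ) (σ := XF j) (x := x) :)
  exact (w.cut' r k inter_subset_right s c' (by rwa [inter_eq_left.2 s]) t p).2

theorem abs_mz (hA : F.Abs) (hm : m = F.mov \ {j}) (hz : z = F.zer ∪ {j}) : (F.mz m z).Abs :=
  ⟨fun _ a => hz.ge (or_iff_not_imp_right.2 fun c => hA.1 fun d => a (hm.ge ⟨d, c⟩)), hA.2⟩

theorem cyc_mz (hF : F.Inv) (hF' : (F.mz m z).Inv) (hA : F.Abs) (hm : m = F.mov \ {j})
    (hz : z = F.zer ∪ {j}) : x ∈ ch.cyc κ (F.mz m z) (0 : ν → J → ℕ) ↔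
      x ∈ ch.cyc κ F (0 : ν → J → ℕ) ∧ x.2.X j = 0 := by
  classical
  rw [hA.mem_cyc hF, (abs_mz hA hm hz).mem_cyc hF', and_assoc]
  exact and_congr_right fun _ => ⟨fun a => ⟨fun i c => a i fun d => c (hm.le d).1,
    a j fun d => (hm.le d).2 rfl⟩, fun a i c => by_cases (fun d : i = j => d ▸ a.2)
      fun d => a.1 i fun l => c (hm.ge ⟨l, d⟩)⟩

/-- **setting a field to zero** -/
theorem Ok.z1 {m z : Set J} {j : J} {K₁ : RD R} (h : ch.Ok F e K₀ ℓ b U) (hA : F.Abs)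
    (h' : ch.Ok (F.mz m z) e K₁ ℓ b U') (hK : K₀ = K₁.add ⟨1, F.w j⟩) (hj : j ∈ F.mov) (hm : m = F.mov \ {j})
    (hz : z = F.zer ∪ {j}) (hG : ∀ k, ∀ α ∈ (F.G k).support, α j = 0)
    [Nice (ModS F (ch.cyc κ F (0 : ν → J → ℕ)))] :
    ∃ (s : ch.solF ν κ (F.mz m z) ∩ ch.cyc κ (F.mz m z) 0 ⊆ ch.solF ν κ F ∩ ch.cyc κ F 0) (d : ℕ)
      (t : Coch (ModS F (ch.cyc κ F (0 : ν → J → ℕ)))),
      IsClosedEmbedding (Quo.incl (actF F.toWt) s) ∧ IsCo (range (Quo.incl (actF F.toWt) s)) d t ∧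
      hcls t = hcls ((ch.sdX ν κ F.toWt j).eu (actF F.toWt) (ch.solF ν κ F ∩ ch.cyc κ F 0)) ∧
      gys (Quo.incl (actF F.toWt) s) t (virF F e _) =
        cap (hcls ((ch.sdK ν κ F.toWt j).eu (actF F.toWt)
          (ch.solF ν κ (F.mz m z) ∩ ch.cyc κ (F.mz m z) 0))) (virF (F.mz m z) e _) := by
  obtain ⟨a1, a2⟩ := h.isW_abs hA
  obtain ⟨b1, b2⟩ := h'.isW_abs (abs_mz hA hm hz)
  have c1 := fun {x : ch.WF ν κ Λ} => cyc_mz (x := x) h.inv h'.inv hA hm hz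
  have c2 : ch.solF ν κ (F.mz m z) ∩ ch.cyc κ (F.mz m z) 0 =
      ch.solF ν κ F ∩ ch.cyc κ F 0 ∩ ch.cyc κ (F.mz m z) 0 := Set.ext fun x =>
    and_congr_left fun a => (mz_sol hz (c1.1 a).2).trans (and_iff_left (c1.1 a).1).symm
  obtain ⟨_, _, _, g, -⟩ := id a2
  have k : ((ch.sdX ν κ F.toWt j).kds (XF j)).Gd (actF F.toWt)
      (ch.solF ν κ (F.mz m z) ∩ ch.cyc κ (F.mz m z) 0) (ch.solF ν κ F ∩ ch.cyc κ F 0) 0 _ :=
    ⟨⟨c2.le.trans inter_subset_left, ⟨univ, isOpen_univ, (inter_univ _).symm⟩, g.isActZ, g.orbZ,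
      fun x a => ⟨fun c => c2.ge ⟨a, c1.2 ⟨a.2, c⟩⟩, fun c => (c1.1 c.2).2⟩⟩, okXF _ _ j⟩
  obtain ⟨d, t, t1, t2, t3⟩ := (okX _ j).vr_kds (fun _ _ => trivial) k
  refine ⟨k.dom.sub, d, t, k.isClosedEmbedding, t1, t2, (t3 _).symm.trans ?_⟩
  rcases eq_empty_or_nonempty (ch.solF ν κ (F.mz m z) ∩ ch.cyc κ (F.mz m z) 0) with c | ⟨x, c⟩
  · have : IsEmpty (Quo (actF F.toWt) (ch.solF ν κ (F.mz m z) ∩ ch.cyc κ (F.mz m z) 0)) :=
      ⟨fun y => (c.le y.out.2).elim⟩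
    exact BM_eq_of_isEmpty _ _
  have d1 := h'.pr.finrank_le (lev_cyc h'.inv h'.cuts 0) (b1 x c.2).2 (h'.pr.sol c.1)
  have d2 := dimM_mz (ch := ch) (ν := ν) (κ := κ) (b := b) (z := z) hj hm
  have d3 := (a1 x (c1.1 c.2).1).1
  have d4 := (b1 x c.2).1
  rw [show (ch.dimM ν κ F b 0).toNat - finrank ℂ (ch.AF ν κ S) = (ch.dimM ν κ (F.mz m z) b 0).toNat -
    finrank ℂ (ch.AF ν κ S) + finrank ℂ (ch.Th j) * ch.h (some j) by omega] at a2
  exact h.toStd.z2 h'.toStd hK hj hm hG (fun x a => ⟨a.2.2.1, (c1.1 a).2⟩) (fun _ a => (c2.le a).1.1)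
    inter_subset_left (h.toStd.cutX hj (lev_cyc h.inv h.cuts 0)
      (isClosed_closure.isLocallyClosed.inter h.lc_baseF) c1 c2
      (fun y a => (Nat.add_sub_cancel' d1).symm ▸ (b1 y a).2) a2) b2

end Ch

end Vale.Agent.P269
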