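import Vale.Agent.P287Q.G.LG.HVt0
import Vale.Agent.P269.LG.HVr
import Vale.Agent.P287Q.G.LG.HVz
import Vale.Agent.P287Q.G.Bas.BC
import Vale.Agent.P287Q.G.Qrr.Fac

set_option linter.unusedSectionVars false
set_option linter.style.haveILetI false

/-!
# Families that are products after a change of the frames
-/

namespace Vale.Agent.P269

open Set Function Topology Filter Module P291Z Orb Holo

namespace Tq.Hm

variable {A B C : Type} [NormedRing A] [NormedAlgebra ℂ A] [NormedRing B] [NormedAlgebra ℂ B]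
  [NormedRing C] [NormedAlgebra ℂ C]

theorem pair {f : A → B} {g : A → C} (hf : Hm f) (hg : Hm g) : Hm fun a => (f a, g a) :=
  ⟨Prod.ext hf.one hg.one, fun a b ha hb => Prod.ext (hf.mul a b ha hb) (hg.mul a b ha hb),
    fun a ha => (hf.cont a ha).prodMk (hg.cont a ha)⟩

theorem fst : Hm (Prod.fst : A × B → A) := ⟨rfl, fun _ _ _ _ => rfl, fun _ _ => continuousAt_fst⟩

theorem snd : Hm (Prod.snd : A × B → B) := ⟨rfl, fun _ _ _ _ => rfl, fun _ _ => continuousAt_snd⟩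

theorem ev {S : Type} [Fintype S] (s : S) : Hm fun τ : S → ℂ => τ s :=
  ⟨rfl, fun _ _ _ _ => rfl, fun _ _ => (continuous_apply s).continuousAt⟩

theorem inv' {c : A → ℂ} (h : Hm c) : Hm fun a => (c a)⁻¹ :=
  ⟨by rw [h.one, inv_one], fun a b ha hb => by rw [h.mul a b ha hb, mul_inv],
    fun a ha => (h.cont a ha).inv₀ (h.isUnit ha).ne_zero⟩

end Tq.Hm

variable {S Λ R J K ι ν κ ν' : Type} [Fintype S] [Fintype Λ] [Fintype R] [Fintype J] [Fintype K]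
  [Fintype ι] [DecidableEq ι] [Fintype ν] [Fintype κ] [Fintype ν'] [DecidableEq R]

namespace Ch

variable {ch : Ch ι J} {n : ι → ℤ}

variable (n) in
/-- the change of the frames by a scalar -/
noncomputable def rg (u : ℂ) (a : ch.A ν') : ch.A ν' := a * ch.ctr ν' fun i => u ^ n i

theorem rg_rg {u v : ℂ} (h : u * v = 1) (a : ch.A ν') : rg n v (rg n u a) = a := by
  rw [rg, rg, mul_assoc, ← ctr_mul, show ((fun i => u ^ n i) * fun i => v ^ n i) = 1 from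
    funext fun i => by rw [Pi.mul_apply, ← mul_zpow, h, one_zpow, Pi.one_apply], ctr_one, mul_one]

theorem hm_rg {B : Type} [NormedRing B] [NormedAlgebra ℂ B] {u : B → ℂ} {a : B → ch.A ν'}
    (hu : Tq.Hm u) (ha : Tq.Hm a) : Tq.Hm fun b => rg n (u b) (a b) :=
  have hc := (hu.comp (hm_zpow n)).comp (hm_ctr (ch := ch) (ν' := ν'))
  ⟨(congrArg₂ (· * ·) ha.one hc.one).trans (mul_one 1), fun b b' h h' =>
    (congrArg₂ (· * ·) (ha.mul b b' h h') (hc.mul b b' h h')).trans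
      (Commute.mul_mul_mul_comm (ctr_comm _ _).symm _ _), fun b h => (ha.cont b h).mul (hc.cont b h)⟩

variable (n) in
/-- the projection of the groups -/
noncomputable def twP (s₀ : S) (s : ch.AF ν κ S) : ch.AF ν κ Empty := (1, rg n (s.1 s₀) s.2)

variable (n) in
/-- the splitting of the group -/
noncomputable def twI (s₀ : S) (y : (S → ℂ) × ch.AF ν κ Empty) : ch.AF ν κ S :=
  (y.1, rg n (y.1 s₀)⁻¹ y.2.2)

/-- forgetting the parameters -/
def twQ (x : ch.WF ν κ Λ) : ch.WF ν κ Empty := (0, x.2)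

variable (ch) in
/-- The torus `S` acts on the movable fields and the equations of `F` through the coordinate `s₀`
and the cocharacter `n` of the frames; `F'` is the fibre of `F`. -/
structure Tw (F : Fam S Λ R J K) (F' : Fam Empty Empty R J K) (ℓ : R → ι → ℤ) (s₀ : S)
    (n : ι → ℤ) (c : J → ℤ) : Prop where
  abs : F.Abs
  abs' : F'.Abs
  B : F'.B = univ
  mov : F'.mov = F.mov
  χ : F'.χ = F.χ
  fib : ∀ l l', F.fib l = F'.fib l'
  sup : ∀ k, (F'.G k).support = (F.G k).support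
  xi : ∑ i, ch.χ i * n i = 0
  wd : ∀ j, ∑ i, ch.wd j i * n i = c j
  wt : ∀ τ : S → ℂ, ∀ j ∈ F.mov, ∏ s, τ s ^ F.wt j s = τ s₀ ^ c j
  wk : ∀ (τ : S → ℂ) k, ∏ s, τ s ^ F.wk k s = τ s₀ ^ ∑ i, F.dk ℓ k i * n i

namespace Tw

variable {F : Fam S Λ R J K} {F' : Fam Empty Empty R J K} {ℓ : R → ι → ℤ} {s₀ : S} {c : J → ℤ}
  {e : K → ι → ℕ} {x : ch.WF ν κ Λ} (h : ch.Tw F F' ℓ s₀ n c)
include h

theorem tprd {T : Set (ch.WF ν κ Λ)} {T' : Set (ch.WF ν κ Empty)}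
    (e : ∀ x, x ∈ T ↔ x.1 ∈ F.B ∧ twQ x ∈ T') (hX : ∀ x ∈ T, ∀ j ∉ F.mov, x.2.X j = 0) :
    TPrd (actF F.toWt) (actF F'.toWt) F.actL (twI n s₀) Prod.fst (twP n s₀) (.fst ℂ _ _) twQ
      (fun v y => (v, y.2)) F.B T T' where
  rk := by simp only [finrank_AF, finrank_fintype_fun_eq_card, Fintype.card_empty, zero_add]
  hm₀ := .pair .fst (hm_rg (Tq.Hm.fst.comp (.ev s₀)).inv' (Tq.Hm.snd.comp .snd))
  hm := .fst
  hm₂ := .pair .const (hm_rg (Tq.Hm.fst.comp (.ev s₀)) .snd)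
  e₀ a ha := Prod.ext rfl (rg_rg (mul_inv_cancel₀ (ne_S ha s₀)) _)
  e₁ _ _ := rfl
  e₂ a ha := Prod.ext (Subsingleton.elim _ _)
    (rg_rg (inv_mul_cancel₀ (isUnit_pi_iff.1 (Prod.isUnit_iff.1 ha).1 s₀)) _)
  an_q _ := analyticAt_const.prod analyticAt_snd
  an_j _ := analyticAt_fst.prod (analyticAt_snd.comp analyticAt_snd)
  mem := e
  p_j _ _ := rfl
  q_j _ _ := Prod.ext (Subsingleton.elim _ _) rfl
  j_pq _ := rfl
  p_act _ _ _ := rfl
  q_act a ha x hx := by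
    have u := ne_S ha s₀
    refine Prod.ext (Subsingleton.elim _ _) (Eq.trans (congrArg (act (dup a.2)) ?_) (actF_ctr
      (fun i => zpow_ne_zero (n i) u) (by rw [prod_zpow_zpow u, h.xi, zpow_zero]) (twQ x)).symm)
    refine W.ext (fun _ => rfl) (fun _ => rfl) rfl fun j => ?_
    rw [scl_X, scl_X, prod_zpow_zpow u, h.wd, Fintype.prod_empty (ι := Empty), mul_one]
    by_cases b : j ∈ F.mov
    · rw [h.wt _ j b]
      rfl
    · change _ • x.2.X j = _ • x.2.X j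
      rw [hX x hx j b]
      ext
      simp

theorem base : x ∈ ch.baseF ν κ F.B ↔ x.1 ∈ F.B ∧ twQ x ∈ ch.baseF ν κ F'.B :=
  ⟨fun a => ⟨a.1, h.B ▸ trivial, a.2⟩, fun a => ⟨a.1, a.2.2⟩⟩

theorem sol : x ∈ ch.solF ν κ F ↔ x.1 ∈ F.B ∧ twQ x ∈ ch.solF ν κ F' :=
  (and_congr h.base (iff_of_eq (congrArg (x.2 ∈ ch.sol _ ·) (h.fib _ _)))).trans and_assoc

theorem cyc (hF : F.Inv) (hF' : F'.Inv) : x ∈ ch.cyc κ F (0 : ν → J → ℕ) ↔
    x.1 ∈ F.B ∧ twQ x ∈ ch.cyc κ F' (0 : ν → J → ℕ) := by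
  rw [h.abs.mem_cyc hF, h.abs'.mem_cyc hF', h.base, h.mov, and_assoc]
  rfl

theorem pol : ch.polF F' e = ch.polF F e := congrArg (ch.polS e) (funext h.sup)

theorem sct : sctF F' e (twQ x) = sctF F e x := congrArg (Ch.sct · e x.2) (h.fib _ _).symm

theorem van : vanM F' e (twQ x) = vanM F e x := congrArg (· ⊓ _) h.pol

theorem obs {f : ch.P K} : f ∈ obsM F' e (twQ x) ↔ f ∈ obsM F e x := by
  rw [← mem_obsF, ← mem_obsF, obsF, obsF, h.pol, h.mov, h.fib x.1 (twQ x).1]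
  rfl

omit h in
theorem BT_pol {T : Set J} {f : ch.P K} (hf : f ∈ ch.polF F e) : BT T id f ∈ ch.polF F e :=
  mem_polS.2 ⟨fun j => by
    by_cases a : j ∈ T
    · exact mem_of_eq_of_mem (BT_mem f a) (zero_mem _)
    · exact mem_of_eq_of_mem (BT_not f a) ((mem_polS.1 hf).1 j), (mem_polS.1 hf).2⟩

omit h in
theorem evZ_BT {f : ch.P K} (hf : f ∈ obsM F e x) {z} (hz : z ∈ gr x.2) :
    evZ z (BT F.movᶜ id f) = evZ z f := Prod.ext (funext fun j => by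
  by_cases a : j ∈ F.movᶜ
  · obtain ⟨y, b, d, -⟩ := (mem_obsF.2 hf).2 z hz
    refine (congrFun (BT_mem (φ := id) f a) z).trans (funext fun m => Eq.symm ((d j m).trans ?_))
    simp [b j a]
  · exact congrFun (BT_not (φ := id) f a) z) rfl

variable {K₀ : RD R} (hs : ch.Std F' e K₀ ℓ)
include hs

theorem lin {T : Set (ch.WF ν κ Λ)} (hX : ∀ x ∈ T, ∀ j ∉ F.mov, x.2.X j = 0) :
    (ch.kd ν κ F e).Lin (ch.kd ν κ F' e) (twP n s₀) twQ T (BT F.movᶜ id) where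
  mem _ a := h.pol.ge (BT_pol a)
  eqv a ha f hf := by
    have u := ne_S ha s₀
    have v := fun i => zpow_ne_zero (n i) u
    have b := (isUnitF_iff.1 ha).2
    refine P_ext (fun j z m => ?_) fun k z ζ => ?_
    · refine Eq.trans ?_ (ρF_ctr_fst v b ((mem_polS.1 (BT_pol hf)).1 j) z m).symm
      rw [ρF_fst, prod_zpow_zpow u, h.wd, Fintype.prod_empty (ι := Empty), one_mul]
      by_cases d : j ∈ F.movᶜ
      · rw [BT_mem _ d, BT_mem _ d]
        exact (mul_zero _).symm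
      · rw [BT_not _ d, BT_not _ d, ← h.wt _ j (not_not.1 d)]
        rfl
    · refine Eq.trans ?_ (ρF_ctr_snd v hs.inv hs.fits hs.wt b (h.pol.ge (BT_pol hf)) k z ζ).symm
      rw [ρF_snd, prod_zpow_zpow u, Fintype.prod_empty (ι := Empty), one_mul]
      unfold Fam.dk
      rw [h.χ]
      exact congrArg (· * _) (h.wk _ k)
  van x _ f hf := h.van.ge (mem_vanM.2 ⟨BT_pol hf.1, fun z hz =>
    (evZ_BT (vanM_le_obsM hf) hz).trans ((mem_vanM.1 hf).2 z hz)⟩)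
  sec x hx := mem_of_eq_of_mem (sub_eq_zero.2 (Eq.trans (b := sctF F e x) (P_ext (fun j z m => by
    by_cases d : j ∈ F.movᶜ
    · refine (congrFun (congrFun (BT_mem (φ := id) _ d) z) m).trans (Eq.symm ?_)
      change _ * z.2 _ (x.2.X j _) - _ * z.2 _ (x.2.X j _) = 0
      simp [hX x hx j d]
    · exact congrFun (congrFun (BT_not (φ := id) _ d) z) m) fun _ _ _ => rfl) h.sct.symm))
    (zero_mem _)
  obs x _ _ f hf := h.obs.2 (mem_obsM.2 ⟨BT_pol hf.1, fun z hz =>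
    (evZ_BT hf hz).symm ▸ (mem_obsM.1 hf).2 z hz⟩)

omit hs in
theorem inj {T : Set (ch.WF ν κ Λ)} :
    (ch.kd ν κ F e).Inj (ch.kd ν κ F' e) twQ T (BT F.movᶜ id) := fun _ _ _ hf a =>
  mem_vanM.2 ⟨hf.1, fun z hz => (evZ_BT hf hz).symm.trans ((mem_vanM.1 (h.van.le a)).2 z hz)⟩

omit hs

variable {b b' N : ℕ} {U : Set (ch.WF ν κ Λ)} {U' : Set (ch.WF ν κ Empty)}
  (hM : ch.Ok F e K₀ ℓ b U) (h0 : ch.Ok F' e K₀ ℓ b' U')
include hM h0

theorem tS : TPrd (actF F.toWt) (actF F'.toWt) F.actL (twI n s₀) Prod.fst (twP n s₀) (.fst ℂ _ _)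
    twQ (fun v y => (v, y.2)) F.B (ch.cyc κ F (0 : ν → J → ℕ)) (ch.cyc κ F' 0) :=
  h.tprd (fun _ => h.cyc hM.inv h0.inv) fun _ a => ((h.abs.mem_cyc hM.inv).1 a).2

theorem tZ : TPrd (actF F.toWt) (actF F'.toWt) F.actL (twI n s₀) Prod.fst (twP n s₀) (.fst ℂ _ _)
    twQ (fun v y => (v, y.2)) F.B (ch.solF ν κ F ∩ ch.cyc κ F (0 : ν → J → ℕ))
    (ch.solF ν κ F' ∩ ch.cyc κ F' 0) :=
  h.tprd (fun _ => (and_congr h.sol (h.cyc hM.inv h0.inv)).trans and_and_left.symm)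
    fun _ a => ((h.abs.mem_cyc hM.inv).1 a.2).2

variable [Mono.FP F.actL F.B]

theorem psi (m : Mk ν κ) : hcls (psiF m) = H.map (h.tZ hM h0).eqM.map (hcls (psiF m)) := by
  have a := hM.gz_cyc (0 : ν → J → ℕ)
  have a' := h0.gz_cyc (0 : ν → J → ℕ)
  haveI := a.act
  haveI := a'.act
  refine (a.cl_psi m).trans (Eq.trans ?_ (congrArg _ (a'.cl_psi m)).symm)
  rw [map_neg, ← ((a.psi m).pull_id (a'.psi m) a.orb a'.orb (h.tZ hM h0).eqM (fun _ _ => rfl)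
    (fun _ _ => rfl) fun _ _ s hs w _ =>
      (ρψ_ctr (fun i => zpow_ne_zero (n i) (ne_S hs s₀)) m w).symm).1]

/-- **the virtual class of a product** -/
theorem vir (hB : Tq.Dim F.actL F.B N) : virF F e (ch.cyc κ F (0 : ν → J → ℕ)) =
    cross (h.tZ hM h0).eqh.toEqv.qm (h.tZ hM h0).eqM.map (Tq.fnd F.actL F.B) (virF F' e _) := by
  have a := lev_cyc hM.inv hM.cuts (0 : ν → J → ℕ) (κ := κ)
  have a' := lev_cyc h0.inv h0.cuts (0 : ν → J → ℕ) (κ := κ)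
  obtain ⟨_, d⟩ := hM.toStd.reg' a.adm a.inv (isClosed_closure.isLocallyClosed.inter hM.lc_baseF)
  obtain ⟨_, d'⟩ := h0.toStd.reg' a'.adm a'.inv (isClosed_closure.isLocallyClosed.inter h0.lc_baseF)
  refine (hM.isW_abs h.abs).2.unique' ((h.tS hM h0).isW hB (h.tZ hM h0) d d'
    (fun x hx f => ⟨hx, a.adm hx, fun g => h.sol.2 ⟨hx.2.1, f.2.2 (h.van.ge (mem_of_eq_of_mem h.sct g))⟩⟩)
    (h.lin h0.toStd fun _ a => ((h.abs.mem_cyc hM.inv).1 a).2) h.inj (fun _ => ?_)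
    (h0.isW_abs h.abs').2)
  unfold rk
  rw [h.mov]

variable (j : J) {χ : (S → ℂ) → ℂ} (hc : Tq.Hm χ)
  (hχ : ∀ τ, IsUnit τ → χ τ * τ s₀ ^ c j = ∏ s, τ s ^ F.wt j s)
include hc hχ

theorem euX : hcls ((ch.sdX ν κ F.toWt j).eu (actF F.toWt) _) =
    ∑ m ∈ Finset.range (finrank ℂ (ch.Th j) * ch.h (some j) + 1),
      H.map (h.tZ hM h0).eqh.toEqv.qm (Tq.lcq F.actL F.B χ) ^
        (finrank ℂ (ch.Th j) * ch.h (some j) - m) * H.map (h.tZ hM h0).eqM.map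
          (PowerSeries.coeff m ((ch.sdX ν κ F'.toWt j).ch (actF F'.toWt) _)).1 := by
  have a := hM.gz_cyc (0 : ν → J → ℕ)
  have a' := h0.gz_cyc (0 : ν → J → ℕ)
  haveI := a.act
  haveI := a'.act
  rw [map_lcq a.orb (Tq.orb _ _) (h.tZ hM h0).eqh hc]
  refine (okX _ j).eu_tw (okX _ j) a.orb a'.orb (h.tZ hM h0).eqM (Tq.Hm.fst.comp hc)
    (fun _ _ => rfl) (fun _ _ => rfl) fun _ _ s hs w _ => ?_
  refine Eq.trans ?_ (congrArg _ (ρX_ctr (fun i => zpow_ne_zero (n i) (ne_S hs s₀)) w).symm)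
  rw [prod_zpow_zpow (ne_S hs s₀), h.wd, smul_smul, hχ _ (isUnit_S hs)]
  unfold ρX
  rw [Fintype.prod_empty (ι := Empty), one_smul]
  rfl

theorem euK : hcls ((ch.sdK ν κ F.toWt j).eu (actF F.toWt) _) =
    ∑ m ∈ Finset.range (ch.rkO j + 1),
      H.map (h.tZ hM h0).eqh.toEqv.qm (Tq.lcq F.actL F.B χ) ^ (ch.rkO j - m) *
        H.map (h.tZ hM h0).eqM.map
          (PowerSeries.coeff m ((ch.sdK ν κ F'.toWt j).ch (actF F'.toWt) _)).1 := by
  have a := hM.gz_cyc (0 : ν → J → ℕ)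
  have a' := h0.gz_cyc (0 : ν → J → ℕ)
  haveI := a.act
  haveI := a'.act
  rw [map_lcq a.orb (Tq.orb _ _) (h.tZ hM h0).eqh hc]
  have := (a.cuts.okK a.base j).eu_tw (a'.cuts.okK a'.base j) a.orb a'.orb (h.tZ hM h0).eqM
    (Tq.Hm.fst.comp hc) (fun _ _ => rfl) (fun _ _ => rfl) fun _ _ s hs w hw => ?_
  · rwa [Nat.add_sub_cancel_left] at this
  have k := (mem_sdK_B.1 hw).1
  refine Eq.trans ?_ (congrArg _ (ρK_ctr (fun i => zpow_ne_zero (n i) (ne_S hs s₀))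
    (isUnitF_iff.1 hs).2 k).symm)
  rw [prod_zpow_zpow (ne_S hs s₀), h.wd, smul_smul, hχ _ (isUnit_S hs)]
  refine P_ext (fun j' z m => ?_) fun k => k.elim
  change _ * w.1 j' _ _ = _ * (_ * w.1 j' _ _)
  by_cases d : j' = j
  · subst d
    rw [Fintype.prod_empty (ι := Empty), one_mul]
  · simp [k.2 j' d]

end Tw

end Ch

end Vale.Agent.P269
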