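import Vale.Agent.P287Q.G.LG.LT
import Vale.Agent.P287Q.G.PA.Defs

/-! The geometric input of the combinatorial part of localisation. -/

set_option linter.unusedSectionVars false

namespace Vale.Agent.P269.LG

open Set Function TensorProduct B

variable {V : Type} [AddCommGroup V] [Module ℂ V] {p : Fock.Par ℂ V} {ι : Type} [Fintype ι]
  {fr : Fock.Frame p ι} {C : Type} [CommRing C] [Algebra ℂ C] {R J K : Type} [Fintype R]
  [Fintype J] [Fintype K] {X : Type} [TopologicalSpace X] {ac : Act fr C}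

/-- all geometric inputs -/
structure Hy [DecidableEq R] {r : ℕ} {P : PB R J K (Fin (r + 1))} (T : Th P X) (D : Dic ac X)
    (a : Fin (r + 1) → ℂ) (c : Fin (r + 1) → C)
    (ZV : Fin (r + 1) → (R → ℤ) → ℤ → ℕ → Fock.S (p.fs ℕ) →ₗ[ℂ] ℂ)
    (ZE : (Option R → ℤ) → ℤ → Fock.S ((p.pi (Fin (r + 1))).fs ℕ) →ₗ[ℂ] ℂ) : Prop where
  good : P.F.Good
  abs : P.F.Abs
  B : P.F.B = univ
  goodE : (P.E ∅).Good
  ha : LinearIndependent ℚ a
  nil : ∀ l, IsNilpotent (c l)
  hR : HR T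
  hN : HN T D (chi a c)
  hS : HS T
  hE : HE T D (chi a c)
  hV : HV T D a ZV
  hG : HG T D (chi a c) ZE

variable {σ : Type} [Fintype σ] {P : PB R J K σ}

open Classical in
/-- the contribution of the maps with `k` edges and vertices of degrees `β` -/
noncomputable def Md.Wp {ν : Type} [Fintype ν] {g : ℤ} {d : Option R → ℤ} (τ : Md P X ν g d)
    (D : Dic ac X) (χ : σ → F ⊗[ℂ] C) (k : ℕ) (β : σ → R → ℤ) :
    List (ν × (Sym σ →₀ F ⊗[ℂ] V)) → F := τ.W D χ fun m => if Pcs k β m then 1 else 0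

open Classical in
/-- the contribution of the maps with `k + 1` edges, weighted with the number of edges of type `e`
with the ends `s`, `t` -/
noncomputable def Md.Tf {ν : Type} [Fintype ν] {g : ℤ} {d : Option R → ℤ} (τ : Md P X ν g d)
    (D : Dic ac X) (χ : σ → F ⊗[ℂ] C) (k : ℕ) (β : σ → R → ℤ) (e : Edge σ) (s t : En ν) :
    List (ν × (Sym σ →₀ F ⊗[ℂ] V)) → F :=
  τ.W D χ fun m => if Pcs (k + 1) β m then cnt m e s t else 0

variable (ac) in
/-- the contribution of an edge with insertions on both ends -/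
noncomputable def edQ [DecidableEq σ] (χ : σ → F ⊗[ℂ] C) (e : Edge σ)
    (v w : Sym σ →₀ F ⊗[ℂ] V) : F :=
  (fr.bc F).η ((ac.bc F).act (ee F χ e) (evp (ac.bc F) χ e.rev v)) (evp (ac.bc F) χ e w)

/-- the functionals given by the contributions -/
def IsZZ (T : Th P X) (D : Dic ac X) (χ : σ → F ⊗[ℂ] C)
    (ZZ : ℕ → (σ → R → ℤ) → ℤ → ℤ → Fock.S ((p.bc F).fs (Sym σ)) →ₗ[F] F) : Prop :=
  ∀ k β e j (ν : Type) [Fintype ν] (L : List (ν × (Sym σ →₀ F ⊗[ℂ] V))), Enum L →
    ZZ k β e j (mon _ L) = (T ν (j + 1) (totD P β e)).Wp D χ k β L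

end Vale.Agent.P269.LG
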