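import Vale.Agent.P287Q.G.LG.Cut
import Vale.Agent.P269.LG.Loc3A

/-! The edge recursion. -/

set_option linter.unusedSectionVars false
set_option maxSynthPendingDepth 3

namespace Vale.Agent.P269.LG

open Set Function TensorProduct B Fock Finset Vale.Agent.P291Z

variable {V : Type} [AddCommGroup V] [Module ℂ V] {p : Fock.Par ℂ V} {ι : Type} [Fintype ι]
  {fr : Fock.Frame p ι} {C : Type} [CommRing C] [Algebra ℂ C] {R J K : Type} [Fintype R]
  [Fintype J] [Fintype K] {X : Type} [TopologicalSpace X] {ac : Act fr C} [DecidableEq R] {r : ℕ}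
  {P : PB R J K (Fin (r + 1))} {T : Th P X} {D : Dic ac X} {a : Fin (r + 1) → ℂ}
  {c : Fin (r + 1) → C} {ZV : Fin (r + 1) → (R → ℤ) → ℤ → ℕ → Fock.S (p.fs ℕ) →ₗ[ℂ] ℂ}
  {ZE : (Option R → ℤ) → ℤ → Fock.S ((p.pi (Fin (r + 1))).fs ℕ) →ₗ[ℂ] ℂ}
  {ZZ : ℕ → (Fin (r + 1) → R → ℤ) → ℤ → ℤ → S ((p.bc F).fs (Sym (Fin (r + 1)))) →ₗ[F] F}
  {ν ν' : Type} [Fintype ν] [Fintype ν'] {g g' : ℤ} {d d' : Option R → ℤ}

namespace L3

omit [Fintype ν] in
theorem enum1 {α : Type} {L : List (ν × α)} (h : Enum L) (u v : α) :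
    Enum ((qq true, v) :: (qq false, u) :: L.map (Prod.map .inl id)) :=
  (enum_qq h u v).perm (List.Perm.swap _ _ _)

omit [Fintype ν] in
theorem enum2 {α : Type} {n : ν} {w₀ : α} {L : List (ν × α)} (h : Enum ((n, w₀) :: L)) (u v w : α) :
    Enum ((qq true, v) :: (.inl n, w) :: (qq false, u) :: L.map (Prod.map .inl id)) :=
  ((enum1 h u v).perm ((List.Perm.swap _ _ _).cons _)).congr rfl

/-- the nine kinds of ends -/
theorem blocks {K H : Type} [CommRing K] [Algebra ℚ K] [AddCommGroup H] [Module K H] {p : Par K H}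
    {fr : Frame p ι} {C : Type} [CommRing C] [Algebra K C] {σ : Type} [Fintype σ] [DecidableEq σ]
    (ac : Act fr C) (χ : σ → C) (e : Edge σ) {Z₀ Z₁ Z₂ : S (p.fs (Sym σ)) →ₗ[K] K}
    {W : Edge σ → En ν → En ν → List (ν × (Sym σ →₀ H)) → K} {L} (hL : Enum L)
    (sw : ∀ e s t, SW (p.fs _) (W e s t)) (rev : ∀ s t, W e.rev t s = W e s t)
    (self : ∀ n, W e (.mark n) (.mark n) L = 0)
    (mm : ∀ n n' v w L, Enum ((n, v) :: (n', w) :: L) →
      W e (.mark n) (.mark n') ((n, v) :: (n', w) :: L) = qf ac χ e v w * Z₁ (mon _ L))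
    (mb : ∀ e', e'.deg = e.deg → ∀ n v L, Enum ((n, v) :: L) →
      W e' (.mark n) .bare ((n, v) :: L) = qf ac χ e' v (-dilR fr σ) * Z₁ (mon _ L))
    (bb : W e .bare .bare L = qf ac χ e (-dilR fr σ) (-dilR fr σ) * Z₁ (mon _ L))
    (nm : ∀ e', e'.deg = e.deg → ∀ n v L, Enum ((n, v) :: L) →
      W e' .node (.mark n) ((n, v) :: L) = Z₀ (Fock.ι _ (Ae ac χ e' v) * mon _ L))
    (nb : ∀ e', e'.deg = e.deg →
      W e' .node .bare L = Z₀ (Fock.ι _ (Ae ac χ e' (-dilR fr σ)) * mon _ L))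
    (nn : W e .node .node L = Z₂ (Ce ac χ e * mon _ L)) :
    ∑ s, ∑ t, W e s t L =
      Z₀ (X0 ac χ e (mon _ L)) + Z₁ (Xm ac χ e (mon _ L)) + Z₂ (X1 ac χ e (mon _ L)) := by
  classical
  have h1 := fun e' he => sum_dv (isEv_Ae ac χ e') _ (fun n => sw e' _ _) (nm e' he) hL
  have h2 := fun e' he => sum_con (φ := (qf ac χ e').flip (-dilR fr σ))
    (LinearMap.ext (qf_dil ac χ e')) _ (fun n => sw e' _ _) (mb e' he) hL
  have h3 := sum_con2 (qf_σ ac χ e) (W := We ac χ e) (fun v w => by rw [we_eq, qf_rev]) _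
    (fun n n' => sw e _ _) mm hL
  have h4 := h1 e.rev rfl
  have h5 := h2 e.rev rfl
  have h6 := nb e.rev rfl
  simp only [rev] at h4 h5 h6
  rw [sum_congr rfl fun n _ => sum_erase (f := fun n' => W e (.mark n) (.mark n') L) univ
    (self n)] at h3
  simp only [En.sum_univ, sum_add_distrib]
  rw [h1 e rfl, h2 e rfl, h3, h4, h5, h6, nb e rfl, nn, bb, X0_eq, Xm_eq, X1, LinearMap.mul_apply']
  simp only [map_add, map_smul, smul_eq_mul]
  ring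

theorem edQ_eq (e : Edge (Fin (r + 1))) (v w) :
    edQ ac (chi a c) e v w = qf (ac.bc F) (chi a c) e v w := rfl

theorem sw_Tf (k β) (e : Edge (Fin (r + 1))) (s t : En ν) :
    SW ((p.bc F).fs _) ((T ν g d).Tf D (chi a c) k β e s t) := Md.sw_W ..

theorem tf_self (k β) (e : Edge (Fin (r + 1))) (n : ν) (L) :
    (T ν g d).Tf D (chi a c) k β e (.mark n) (.mark n) L = 0 := by
  have : (T ν g d).cf (fun _ => 0) = 0 := funext fun _ => Nat.cast_zero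
  simp only [Md.Tf, Md.W, cnt_mark_self, ite_self]
  rw [this, fnE_zero, map_zero, zero_mul, map_zero]

variable (h : Hy T D a c ZV ZE) (hZ : IsZZ T D (chi a c) ZZ) (k : ℕ) (β : Fin (r + 1) → R → ℤ)
  (e₀ j : ℤ) (e : Edge (Fin (r + 1)))
include h hZ

theorem tf_nm {n : ν} {w L} (hL : Enum ((n, w) :: L)) :
    (T ν (j + 1) (totD P β e₀)).Tf D (chi a c) k β e .node (.mark n) ((n, w) :: L) =
      ZZ k β (e₀ - (e.deg + 1)) j (Fock.ι _ (Ae (ac.bc F) (chi a c) e w) * mon _ L) := by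
  obtain ⟨j, rfl⟩ : ∃ i, j = i + 1 := ⟨j - 1, by ring⟩
  refine (h.tf_cut k β e _ _).trans ((sum_congr rfl fun x _ => ?_).trans
    (sum_A (ac.bc F) (chi a c) e (ZZ k β (e₀ - (e.deg + 1)) (j + 1) ∘ₗ
      LinearMap.mulRight F (mon _ L) ∘ₗ Fock.ι _) w))
  refine pre2 (sw_Tf k β e _ _) (qf_σ (ac.bc F) (chi a c) e) (x := (qq false, vA (ac.bc F) (chi a c) e x))
    (hom_vA (ac.bc F) (chi a c) e x) (fun v w => ?_) _ _
  refine (h.tf_mm hZ k β e₀ j e (enum2 hL _ v w)).trans ?_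
  rw [mon_cons, mon_map]
  rfl

theorem tf_nb {L : List (ν × _)} (hL : Enum L) :
    (T ν (j + 1) (totD P β e₀)).Tf D (chi a c) k β e .node .bare L =
      ZZ k β (e₀ - (e.deg + 1)) j
        (Fock.ι _ (Ae (ac.bc F) (chi a c) e (-dilR (fr.bc F) _)) * mon _ L) := by
  obtain ⟨j, rfl⟩ : ∃ i, j = i + 1 := ⟨j - 1, by ring⟩
  refine (h.tf_cut k β e _ _).trans ((sum_congr rfl fun x _ => ?_).trans
    (sum_A (ac.bc F) (chi a c) e (ZZ k β (e₀ - (e.deg + 1)) (j + 1) ∘ₗ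
      LinearMap.mulRight F (mon _ L) ∘ₗ Fock.ι _) _))
  refine pre0 (sw_Tf k β e _ _) (qf_dil (ac.bc F) (chi a c) e) (x := (qq false, vA (ac.bc F) (chi a c) e x))
    (hom_vA (ac.bc F) (chi a c) e x) (fun v => ?_) _
  refine (h.tf_mb hZ k β e₀ j e (enum1 hL _ v)).trans ?_
  rw [mon_cons, mon_map]
  rfl

theorem tf_nn {L : List (ν × _)} (hL : Enum L) :
    (T ν (j + 1) (totD P β e₀)).Tf D (chi a c) k β e .node .node L =
      ZZ k β (e₀ - (e.deg + 1)) (j - 1) (Ce (ac.bc F) (chi a c) e * mon _ L) := by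
  obtain ⟨j, rfl⟩ : ∃ i, j = i + 1 := ⟨j - 1, by ring⟩
  rw [h.tf_cut, ← sum_C, sum_mul, map_sum, add_sub_cancel_right]
  refine sum_congr rfl fun x _ => ?_
  rw [← Hy.tf_rev]
  refine pre1 (sw_Tf k β e.rev _ _) (δ := Fock.ι _ ∘ₗ Ae (ac.bc F) (chi a c) e.rev)
    (fun v => (par_ι _ _).trans (congrArg _ (isEv_Ae _ _ _ v))) (x := (qq false, vA (ac.bc F) (chi a c) e x))
    (hom_vA (ac.bc F) (chi a c) e x) (fun v => ?_) _
  refine (tf_nm h hZ k β e₀ j e.rev (enum1 hL _ v)).trans ?_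
  rw [mon_cons, mon_map]
  rfl

theorem tf_edge {L : List (ν × _)} (hL : Enum L) :
    ∑ s, ∑ t, (T ν (j + 1) (totD P β e₀)).Tf D (chi a c) k β e s t L =
      ZZ k β (e₀ - (e.deg + 1)) j (X0 (ac.bc F) (chi a c) e (mon _ L)) +
        ZZ k β (e₀ - (e.deg + 1)) (j + 1) (Xm (ac.bc F) (chi a c) e (mon _ L)) +
        ZZ k β (e₀ - (e.deg + 1)) (j - 1) (X1 (ac.bc F) (chi a c) e (mon _ L)) :=
  blocks (ac.bc F) (chi a c) e hL (sw_Tf k β) (Hy.tf_rev k β e) (tf_self k β e · L)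
    (fun _ _ _ _ _ hL => (h.tf_mm hZ k β e₀ j e hL).trans (by rw [edQ_eq]))
    (fun e' he _ _ _ hL => (h.tf_mb hZ k β e₀ j e' hL).trans (by rw [edQ_eq, he]))
    ((h.tf_bb hZ k β e₀ j e hL).trans (by rw [edQ_eq]))
    (fun e' he _ _ _ hL => he ▸ tf_nm h hZ k β e₀ j e' hL)
    (fun e' he => he ▸ tf_nb h hZ k β e₀ j e' hL) (tf_nn h hZ k β e₀ j e hL)

end L3

namespace Hy

variable (h : Hy T D a c ZV ZE)
include h

theorem loc3 (hZ : IsZZ T D (chi a c) ZZ) (m : ℕ) (β e j x) :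
    (2 * ((m : F) + 1)) * ZZ (m + 1) β e j x = ∑ᶠ E : Edge (Fin (r + 1)),
      (ZZ m β (e - (E.deg + 1)) j (X0 (ac.bc F) (chi a c) E x) +
        ZZ m β (e - (E.deg + 1)) (j + 1) (Xm (ac.bc F) (chi a c) E x) +
        ZZ m β (e - (E.deg + 1)) (j - 1) (X1 (ac.bc F) (chi a c) E x)) := by
  refine L3.finsum_ext (Z := (2 * ((m : F) + 1)) • ZZ (m + 1) β e j)
    (G := fun E : Edge (Fin (r + 1)) => ZZ m β (e - (E.deg + 1)) j ∘ₗ X0 (ac.bc F) (chi a c) E +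
      ZZ m β (e - (E.deg + 1)) (j + 1) ∘ₗ Xm (ac.bc F) (chi a c) E +
      ZZ m β (e - (E.deg + 1)) (j - 1) ∘ₗ X1 (ac.bc F) (chi a c) E) (fun n L hL => ?_) x
  simp only [LinearMap.add_apply, LinearMap.comp_apply, ← L3.tf_edge h hZ m β e j _ hL]
  refine ⟨(h.tf_finite (ν := Fin n) (g := j + 1) (d := totD P β e) m β).subset fun E hE => ?_, ?_⟩
  · obtain ⟨s, -, hs⟩ := exists_ne_zero_of_sum_ne_zero hE
    obtain ⟨t, -, ht⟩ := exists_ne_zero_of_sum_ne_zero hs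
    exact ⟨s, t, L, ht⟩
  · rw [← h.tf_sum, ← hZ _ _ _ _ _ _ hL]
    rfl

end Hy

end Vale.Agent.P269.LG
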