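import Vale.Agent.P287Q.G.LG.Loc1
import Vale.Agent.P287Q.G.LG.Loc2
import Vale.Agent.P287Q.G.LG.Loc3

/-! The output of localisation. -/

set_option linter.unusedSectionVars false

namespace Vale.Agent.P269.LG

open Set Function TensorProduct B Fock Finset Vale.Agent.P291Z

variable {V : Type} [AddCommGroup V] [Module ℂ V] {p : Fock.Par ℂ V} {ι : Type} [Fintype ι]
  {fr : Fock.Frame p ι} {C : Type} [CommRing C] [Algebra ℂ C] {R J K : Type} [Fintype R]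
  [Fintype J] [Fintype K] {X : Type} [TopologicalSpace X] {ac : Act fr C} [DecidableEq R] {r : ℕ}
  {P : PB R J K (Fin (r + 1))} {T : Th P X} {D : Dic ac X} {a : Fin (r + 1) → ℂ}
  {c : Fin (r + 1) → C} {ZV : Fin (r + 1) → (R → ℤ) → ℤ → ℕ → Fock.S (p.fs ℕ) →ₗ[ℂ] ℂ}
  {ZE : (Option R → ℤ) → ℤ → Fock.S ((p.pi (Fin (r + 1))).fs ℕ) →ₗ[ℂ] ℂ}

namespace Hy

theorem locOut (h : Hy T D a c ZV ZE) {ZF : (Fin (r + 1) → R → ℤ) → (Fin (r + 1) → ℤ) →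
      S (((p.bc F).pi (Fin (r + 1))).fs ℕ) →ₗ[F] F}
    (hF : ∀ β jv x, ZF β jv (bcS _ (isEvS_jV p F) (prd p x)) =
      ∏ n, Hat.ofPS ℂ (PowerSeries.mk fun m => ZV n (β n) (jv n) m (x n))) :
    Nonempty (LocOut ac a c P.wL ZE ZF) := by
  obtain ⟨ZZ, hZ⟩ := h.exists_ZZ
  obtain ⟨ZT, tup, h0, h1, h2⟩ := h.loc1 hZ
  exact ⟨⟨ZT, h1, tup, h0, ZZ, h2, fun β => ∏ i, lamV P a i (β i), by simp [lamV], h.loc2 hZ hF,
    h.loc2' hZ, h.loc3 hZ⟩⟩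

end Hy

end Vale.Agent.P269.LG
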