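import Vale.Agent.P287Q.G.LG.All
import Vale.Agent.P287Q.G.LG.Out

/-! Localisation on a projective bundle from its geometric half. -/

set_option linter.unusedSectionVars false

namespace Vale.Agent.P269

open Set

namespace LG

variable {R J K : Type} [Fintype R] [Fintype J] [Fintype K] [DecidableEq R] {r : ℕ}

theorem proj_eq {F : Fam Empty Empty R J K} (h : F.Tg) (a : Fin (r + 1) → R → ℤ) (θ) :
    F.proj a θ = (PB.mk F a θ).E ∅ := by
  have e : (MvPolynomial.rename (R := ℂ) (Empty.elim : Empty → Empty)).toRingHom = RingHom.id _ :=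
    RingHom.ext fun q => (congrArg (MvPolynomial.rename · q) (Subsingleton.elim _ id)).trans
      (MvPolynomial.rename_id_apply q)
  refine (Fam.mk.injEq ..).mpr ⟨(Wt.mk.injEq ..).mpr ⟨rfl, Subsingleton.elim _ _, rfl⟩, rfl, rfl,
    Subsingleton.elim _ _, funext fun k => ?_, rfl, ext fun z => and_congr ?_ Function.ne_iff, rfl,
    (eq_univ_of_forall fun j => ?_).symm, (eq_empty_of_forall_notMem fun j => ?_).symm⟩
  · rw [e, MvPolynomial.map_id]
  · rw [Subsingleton.elim z.1 Empty.elim]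
    rfl
  · cases j
    exacts [h.mov.ge trivial, id]
  · cases j
    exacts [fun b => disjoint_left.1 h.zer_base b (h.mov.ge trivial), id]

end LG

open LG in
theorem St.loc_of (h : St.LocG) : St.Loc := by
  intro R J K _ _ _ _ F r a θ k C i
  by_cases hF : F.Tg
  swap
  · exact fun _ _ _ _ _ _ b => absurd b hF
  rw [proj_eq hF]
  intro i₀ iP ac c w ZF _ _ hE hk hi h0 hP e0 eP hac hc nil li hZ
  have int : ∀ x, (C.fr.η.flip C.fr.one ∘ₗ (LinearEquiv.ofBijective i hi.bij).symm.toLinearMap) x =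
      F.intX _ x := fun x => (hi.η _ _).trans (by
    rw [hi.one, mul_one]
    exact congrArg _ ((LinearEquiv.ofBijective i hi.bij).apply_symm_apply x))
  obtain ⟨T, hy⟩ := h ⟨F, a, θ⟩ k (ac := ac) ⟨i, AlgHom.id _ _, _, hi.bij, hac, hi.ev, hi.one,
    fun v w => (hi.η v w).trans (int _).symm⟩ w c i₀ iP
    ⟨hF, hE, hk, fun _ => rfl, int, h0, hP, e0, eP, hc, nil, li⟩
  refine hy.locOut fun β jv x => (hZ β jv x).trans (Finset.prod_congr rfl fun n _ => ?_)
  have mov : (Sum.inr '' {n}ᶜ)ᶜ = ((PB.mk F a θ).E {n}ᶜ).mov := ext fun j => by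
    cases j <;> simp [hF.mov]
  have zer : Sum.inr '' {n}ᶜ = ((PB.mk F a θ).E {n}ᶜ).zer := ext fun j => by
    cases j
    · simpa using fun b => disjoint_left.1 hF.zer_base b (hF.mov.ge trivial)
    · simp
  exact congrArg₂ (fun A B => Fock.Hat.ofPS ℂ (PowerSeries.mk fun m =>
    Fam.ser0 { (PB.mk F a θ).E ∅ with mov := A, zer := B } k
      (((PB.mk F a θ).E ∅).exT (thV .inr w n m)) C.p i₀ (dgV a n (β n)) (jv n) (x n))) mov zer

end Vale.Agent.P269
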