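import Vale.Agent.P287Q.G.Glu.GC
import Vale.Agent.P287Q.G.Map.Psi

/-! The normal line of the locus of curves with a labelled node: definitions. -/

set_option linter.unusedSectionVars false

namespace Vale.Agent.P269.Ch

open Set Function Topology Vale.Agent.P291Z KD

variable {S Λ R J K ι ν κ : Type} [Fintype S] [Fintype Λ] [Fintype R] [Fintype J] [Fintype K]
  [Fintype ι] [DecidableEq ι] [Fintype ν] [Fintype κ] {ch : Ch ι J} {n : Nm ι J}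

variable (ch) in
/-- tensors of degree four -/
abbrev N4 : Type := Tn ch.M (fun _ : Fin 4 => ch.o) →L[ℂ] ℂ

/-- a decomposable tensor -/
noncomputable def tn4 (a b c d : Fin (ch.M ch.o) → ℂ) : ch.N4 :=
  ContinuousMultilinearMap.apply ℂ (fun _ : Fin 4 => Fin (ch.M ch.o) → ℂ) ℂ ![a, b, c, d]

/-- the tensor `(c ∧ u) ⊗ (c ∧ u')` -/
noncomputable def wd4 (c u u' : V ch.M) : ch.N4 :=
  tn4 (c ch.o) (u ch.o) (c ch.o) (u' ch.o) - tn4 (u ch.o) (c ch.o) (c ch.o) (u' ch.o) -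
    tn4 (c ch.o) (u ch.o) (u' ch.o) (c ch.o) + tn4 (u ch.o) (c ch.o) (u' ch.o) (c ch.o)

variable (ch n ν κ S Λ) in
/-- the tensor product of the tangent lines of the two branches -/
noncomputable def sdN : SD (ch.AG n ν κ Unit S) (ch.WG n ν κ Unit Λ) ch.N4 where
  ρ a ξ := a.2.2.2 () ch.o ^ 4 • ξ ∘L P269.pbT a.1.2.1 _
  P₀ := ⊤
  B z := Submodule.span ℂ {ξ | ∃ v ∈ Psi.Tg (crv z.2.1) (z.2.1.p (nq () false)),
    ∃ v' ∈ Psi.Tg (crv z.2.1) (z.2.1.p (nq () true)),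
      ξ = wd4 (apV z.2.2.1 (z.2.1.p (nq () false))) (apV z.2.2.1 v) (apV z.2.2.1 v')}
  N _ := ⊥

variable (ch n ν κ Λ) in
/-- all labelled curves -/
def allG : Set (ch.WG n ν κ Unit Λ) := {z | Gl z.1.2 z.2 ∧ z.1.2 ∈ ch.bm ν κ}

/-- `q z` is the differential of the smoothing parameter of the labelled node -/
structure NrmQ (F : Wt S Λ R J) (q : ch.WG n ν κ Unit Λ → ch.WF ν κ Λ →ₗ[ℂ] ch.N4) : Prop where
  mem : ∀ z ∈ ch.allG Λ ν κ n, ∀ v, q z v ∈ (ch.sdN S Λ ν κ n).B z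
  cont : ContinuousOn (fun y : ch.WG n ν κ Unit Λ × ch.WF ν κ Λ => q y.1 y.2)
    {y | y.1 ∈ ch.allG Λ ν κ n ∧ y.2 ∈ Tan (ch.baseF ν κ univ) y.1.1}
  eqv : ∀ z ∈ ch.allG Λ ν κ n, ∀ a : ch.AG n ν κ Unit S, IsUnit a →
    ∀ v ∈ Tan (ch.baseF ν κ univ) z.1, q (actG F a z) (actF F a.1 v) = (ch.sdN S Λ ν κ n).ρ a (q z v)
  ker : ∀ z, ∀ v ∈ Tan (ch.allG Λ ν κ n) z, q z v.1 = 0
  ne : ∀ z ∈ ch.allG Λ ν κ n,
    ∃ v ∈ Tan {x | x ∈ ch.baseF ν κ univ ∧ x.1 = z.1.1 ∧ x.2.X = z.1.2.X} z.1, q z v ≠ 0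

end Vale.Agent.P269.Ch
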