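import Vale.Agent.P287Q.G.LG.WtA
import Vale.Agent.P287Q.G.LG.OpsD

/-! Open and closed pieces of the fixed locus; the cotangent class at the end of an edge. -/

set_option linter.unusedSectionVars false

namespace Vale.Agent.P269.LG

open Set Function TensorProduct B Fock Finset Vale.Agent.P291Z

section gen

variable {R J K σ ν : Type} [Fintype R] [Fintype J] [Fintype K] [Fintype σ] [Fintype ν]
  {X : Type} [TopologicalSpace X] {P : PB R J K σ} {e : Edge σ} {s t : En ν} {g : ℤ}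
  {d : Option R → ℤ} {m m' : AM0 R J σ ν}

/-- a property of maps, and the property of the rest after an edge is removed -/
structure Sel (T : Th P X) (Q Q₂ : ∀ ν : Type, AM0 R J σ ν → Prop) : Prop where
  inv : ∀ (ν : Type) [Fintype ν], Inv P (Q ν)
  inv₂ : ∀ (ν : Type) [Fintype ν], Inv P (Q₂ ν)
  ctp : ∀ (ν : Type) [Fintype ν] (m : AM0 R J σ ν) n (h : m.Nds n), Q _ (ctp m h) ↔ Q ν m
  split : ∀ (ν ν₁ ν₂ : Type) [Fintype ν] [Fintype ν₁] [Fintype ν₂] (φ : ν₁ ⊕ ν₂ ≃ ν)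
    (m : AM0 R J σ ν) m₁ m₂ j₁ j₂ e s t, AM.Split m m₁ m₂ φ e00 j₁ j₂ → Edg m₁ e s t →
      (Q₂ ν₂ m₂ ↔ Q ν m)
  clopen : ∀ (ν : Type) [Fintype ν] g d, IsClopen ((T ν g d).sel (Q₂ ν))

namespace WtB

theorem sel_true (τ : Md P X ν g d) : τ.sel (fun _ => True) = Set.univ :=
  eq_univ_of_forall fun a => (τ.ex a).imp fun _ h => ⟨h, trivial⟩

theorem sel_false (τ : Md P X ν g d) {Q : AM0 R J σ ν → Prop} (h : ∀ m, Fx m P g d → ¬Q m) :
    τ.sel Q = ∅ := Set.eq_empty_of_forall_notMem fun _ ⟨m, h1, h2⟩ => h m (τ.fx h1) h2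

/-- no condition -/
def Tru (ν : Type) (_ : AM0 R J σ ν) : Prop := True

theorem selT (T : Th P X) : Sel T Tru Tru :=
  ⟨fun _ _ => inv_const _, fun _ _ => inv_const _, fun _ _ _ _ _ => Iff.rfl,
    fun _ _ _ _ _ _ _ _ _ _ _ _ _ _ _ _ _ => Iff.rfl, fun ν _ g d =>
      (sel_true (T ν g d)).symm ▸ (isClopen_univ (X := (T ν g d).A))⟩

theorem mark_ne {n : ν} : En.mark n ≠ .node := fun a => by cases a

theorem exists_ends (hs : s ≠ .node) (ht : t ≠ .node) (hne : ∀ n, s = .mark n → t ≠ .mark n) :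
    ∃ s₁ t₁ : En {n // s = .mark n ∨ t = .mark n}, Ends s₁ t₁ ∧ s₁.map Subtype.val = s ∧
      t₁.map Subtype.val = t := by
  have key : ∀ u : En ν, u = s ∨ u = t → ∃ u₁ : En {n // s = .mark n ∨ t = .mark n},
      u₁.map Subtype.val = u := by
    rintro (_ | _ | n) hu
    exacts [⟨.node, rfl⟩, ⟨.bare, rfl⟩, ⟨.mark ⟨n, hu.imp Eq.symm Eq.symm⟩, rfl⟩]
  have inj : ∀ (u₁ : En {n // s = .mark n ∨ t = .mark n}) n,
      u₁.map Subtype.val = .mark n.1 → u₁ = .mark n := by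
    rintro (_ | _ | n') n hu
    · cases hu
    · cases hu
    · exact congrArg _ (Subtype.ext (En.mark.inj hu))
  obtain ⟨s₁, h1⟩ := key s (.inl rfl)
  obtain ⟨t₁, h2⟩ := key t (.inr rfl)
  refine ⟨s₁, t₁, ⟨?_, ?_, fun n => n.2.imp (fun a => inj _ n (h1.trans a))
    fun a => inj _ n (h2.trans a), fun n a b => hne n.1 ?_ ?_⟩, h1, h2⟩
  · rintro rfl
    exact hs h1.symm
  · rintro rfl
    exact ht h2.symm
  · exact h1.symm.trans (congrArg _ a)
  · exact h2.symm.trans (congrArg _ b)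

theorem exists_ends' (hs : s ≠ .node) (ht : t ≠ .node) (hne : ∀ n, s = .mark n → t ≠ .mark n) :
    ∃ (ν₁ ν₂ : Type) (_ : Fintype ν₁) (_ : Fintype ν₂) (φ : ν₁ ⊕ ν₂ ≃ ν) (s₁ t₁ : En ν₁),
      Ends s₁ t₁ ∧ (s₁.map fun n => φ (.inl n)) = s ∧ (t₁.map fun n => φ (.inl n)) = t := by
  classical
  obtain ⟨s₁, t₁, a, b, c⟩ := exists_ends hs ht hne
  exact ⟨_, _, inferInstance, inferInstance, Equiv.sumCompl fun n => s = .mark n ∨ t = .mark n,
    s₁, t₁, a, b, c⟩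

theorem map_ne_node {ν' : Type} {f : ν → ν'} (ht : t ≠ .node) : t.map f ≠ .node := by
  rcases t with _ | _ | _
  exacts [(ht rfl).elim, fun a => (by cases a), fun a => (by cases a)]

theorem alg {A : Type} [CommRing A] {q i j y u v a b : A} (e1 : q * i = q) (e2 : q * j = q)
    (e3 : y * (u - a) = j) (e4 : i * (v + b) = 0) : q * ((-u - v) * -y - 1) = q * y * (a - b) := by
  linear_combination q * y * e4 - y * (v + b) * e1 + q * e3 + e2

theorem zmul {A : Type} [TopologicalSpace A] (x : F ⊗[ℂ] Ch.Hev A) : 0 * x = 0 := zero_mul x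

theorem alg' {A A' : Type} [TopologicalSpace A] [TopologicalSpace A'] (φ : C(A', A))
    {q i j y u v a b : F ⊗[ℂ] Ch.Hev A} (e1 : q * i = q) (e2 : q * j = q) (e3 : y * (u - a) = j)
    (e4 : i * (v + b) = 0) (e5 : pbE φ (a - b) = 0) : pbE φ (q * ((-u - v) * -y - 1)) = 0 :=
  (congrArg (pbE φ) (alg e1 e2 e3 e4)).trans ((map_mul (pbE φ) (q * y) (a - b)).trans
    ((congrArg (pbE φ (q * y) * ·) e5).trans (mul_zero (pbE φ (q * y)))))

theorem cnt_one {n : ν} :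
    cnt m e (.mark n) t = 1 ↔ ∃ b, Eg m e (m.p (.inl n)) b ∧ End m t b := by
  have h := cnt_mark_le (m := m) (e := e) (t := t) n
  rw [show cnt m e (.mark n) t = 1 ↔ cnt m e (.mark n) t ≠ 0 by omega, cnt_ne_zero]
  exact ⟨fun ⟨_, b, h1, h2, h3⟩ => ⟨b, (show m.p _ = _ from h2) ▸ h1, h3⟩,
    fun ⟨b, h1, h2⟩ => ⟨_, b, h1, rfl, h2⟩⟩

theorem range_edg {ν₁ : Type} [Fintype ν₁] {m₁ : AM0 R J σ ν₁} {f : ν₁ → ν} {ψ : Fin 0 → Fin 0}
    {j : m₁.X → m.X} (h : AM.Emb m₁ m f ψ j) {n : ν₁} {t : En ν₁} (a : Edg m₁ e (.mark n) t) :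
    Set.range j = connectedComponent (m.p (.inl (f n))) := by
  obtain ⟨x, y, -, c, -, c'⟩ := a
  rw [← h.mark_inl, show m₁.p (.inl n) = x from c, (tr_emb h).cc, c', image_univ]

theorem empty_iff (h : Fx m P g d) : IsEmpty m.X ↔
    2 * g - 2 + Fintype.card (Ch.Mk ν (Fin 0)) + ∑ r, P.θ r * d r = 0 := by
  have e : Cv.deg (m.ω * Cv.bz m.L P.θ) =
      2 * g - 2 + Fintype.card (Ch.Mk ν (Fin 0)) + ∑ r, P.θ r * d r := by
    rw [Cv.deg_mul, AC.deg_ω, Cv.deg_bz, h.typ.1]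
    simp only [h.typ.2]
  rw [← e, ← Cv.degOn_univ]
  refine ⟨fun _ => ?_, fun a => not_nonempty_iff.1 fun b => ?_⟩
  · rw [Set.eq_empty_of_isEmpty Set.univ, Cv.degOn_empty]
  · have := h.stable _ isClopen_univ Set.univ_nonempty
    omega

end WtB

end gen

variable {V : Type} [AddCommGroup V] [Module ℂ V] {p : Fock.Par ℂ V} {ι : Type} [Fintype ι]
  {fr : Fock.Frame p ι} {C : Type} [CommRing C] [Algebra ℂ C] {R J K : Type} [Fintype R]
  [Fintype J] [Fintype K] {X : Type} [TopologicalSpace X] {ac : Act fr C} [DecidableEq R] {r : ℕ}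
  {P : PB R J K (Fin (r + 1))} {T : Th P X} {D : Dic ac X} {a : Fin (r + 1) → ℂ}
  {c : Fin (r + 1) → C} {ZV : Fin (r + 1) → (R → ℤ) → ℤ → ℕ → Fock.S (p.fs ℕ) →ₗ[ℂ] ℂ}
  {ZE : (Option R → ℤ) → ℤ → Fock.S ((p.pi (Fin (r + 1))).fs ℕ) →ₗ[ℂ] ℂ}
  {ZZ : ℕ → (Fin (r + 1) → R → ℤ) → ℤ → ℤ → S ((p.bc F).fs (Sym (Fin (r + 1)))) →ₗ[F] F}
  {ν ν' : Type} [Fintype ν] [Fintype ν'] {g g' : ℤ} {d d' : Option R → ℤ}

namespace WtB

variable (h : Hy T D a c ZV ZE) {Q Q₂ : ∀ ν : Type, AM0 R J (Fin (r + 1)) ν → Prop}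
  {e : Edge (Fin (r + 1))}
include h

open Classical in
theorem lc_nn (hQ : Sel T Q Q₂) {s t : En ν} (hs : s ≠ .node) (ht : t ≠ .node) :
    IsLocallyConstant ((T ν g d).cf fun m => if Q ν m then cnt m e s t else 0) := by
  by_cases hne : ∀ n, s = .mark n → t ≠ .mark n
  · obtain ⟨ν₁, ν₂, _, _, φ, s₁, t₁, hst, rfl, rfl⟩ := exists_ends' hs ht hne
    obtain ⟨f, I, hS⟩ := h.hS ν ν₁ ν₂ φ g 0 (g + 1) d (edD R e) (d - edD R e) (by ring) (by abel)
    obtain ⟨u, hE⟩ := h.hE ν₁ e s₁ t₁ hst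
    rw [← (T ν g d).cf_congr fun m _ => cntS_edge (φ := φ) (Q₂ := Q₂ ν₂) hst
      fun m₁ m₂ j₁ j₂ a b => hQ.split ν ν₁ ν₂ φ m m₁ m₂ j₁ j₂ e s₁ t₁ a b]
    exact (hS.eq _ _ inv_edg (hQ.inv₂ ν₂) hE.clopen (hQ.clopen ν₂ _ _)).1
  · push Not at hne
    obtain ⟨n, rfl, rfl⟩ := hne
    rw [(T ν g d).cf_congr (f' := fun _ => 0) fun m _ => by rw [cnt_mark_self, ite_self]]
    exact IsLocallyConstant.const _

omit h in
open Classical in
theorem clopen_of_lc (hQ : Sel T Q Q₂) {s t : En ν}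
    (hl : IsLocallyConstant ((T ν g d).cf fun m => if Q ν m then cnt m e s t else 0)) :
    IsClopen ((T ν g d).sel fun m => cnt m e s t = 1 ∧ Q ν m) := by
  rw [(T ν g d).sel_congr (Q' := fun m => (if Q ν m then cnt m e s t else 0) = 1) fun m _ => by
    by_cases q : Q ν m <;> simp [q]]
  exact (T ν g d).isClopen_sel_eq ((hQ.inv ν).ite inv_cnt) hl 1

omit h in
open Classical in
theorem clopen_of_lc' {s t : En ν}
    (hl : IsLocallyConstant ((T ν g d).cf fun m => if Tru ν m then cnt m e s t else 0)) :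
    IsClopen ((T ν g d).sel (cnt · e s t = 1)) := by
  simpa only [Tru, and_true] using clopen_of_lc (selT T) hl

theorem psi_nn (n : ν) {t : En ν} (ht : t ≠ .node) :
    (T ν g d).id (cnt · e (.mark n) t = 1) *
      ((T ν g d).ψ n + (T ν g d).evC D n (pe F (chi a c) e)) = 0 := by
  have hc : IsClopen ((T ν g d).sel (cnt · e (.mark n) t = 1)) :=
    clopen_of_lc' (lc_nn h (selT T) mark_ne ht)
  by_cases hne : t = .mark n
  · rw [Md.id, sel_false _ fun m _ => by rw [hne, cnt_mark_self]; exact zero_ne_one, idE_empty]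
    exact zmul _
  obtain ⟨ν₁, ν₂, _, _, φ, s₁, t₁, hst, hs, rfl⟩ := exists_ends' (s := .mark n)
    mark_ne ht fun n' a b => hne (b.trans a.symm)
  obtain ⟨n₁, rfl, rfl⟩ : ∃ n₁, s₁ = .mark n₁ ∧ φ (.inl n₁) = n := by
    rcases s₁ with _ | _ | n₁
    exacts [(by cases hs), (by cases hs), ⟨n₁, rfl, En.mark.inj hs⟩]
  obtain ⟨f, I, hS⟩ := h.hS ν ν₁ ν₂ φ g 0 (g + 1) d (edD R e) (d - edD R e) (by ring) (by abel)
  obtain ⟨u, hE⟩ := h.hE ν₁ e _ t₁ hst
  have hU := hE.clopen.preimage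
    (continuous_fst (X := (T ν₁ 0 (edD R e)).A) (Y := (T ν₂ (g + 1) (d - edD R e)).A))
  have key : ∀ x ∈ Prod.fst ⁻¹' (T ν₁ 0 (edD R e)).sel (Edg · e (.mark n₁) t₁),
      ∃ m m₁ m₂ j₁ j₂, AM.Split m m₁ m₂ φ e00 j₁ j₂ ∧ Edg m₁ e (.mark n₁) t₁ ∧
        (T ν₁ _ _).Rp x.1 m₁ ∧ (T ν₂ _ _).Rp x.2 m₂ ∧ (T ν g d).Rp (f x) m := by
    rintro ⟨a₁, a₂⟩ ⟨m₁, h1, h2⟩
    obtain ⟨m₂, h3⟩ := (T ν₂ _ _).ex a₂
    obtain ⟨m, j₁, j₂, h4⟩ := AM.exists_sum m₁ m₂ (Subsingleton.elim _ _) φ e00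
    exact ⟨m, m₁, m₂, j₁, j₂, h4, h2, h1, h3, hS.pt _ _ _ _ _ _ _ h1 h3 h4⟩
  have him : f '' (Prod.fst ⁻¹' (T ν₁ 0 (edD R e)).sel (Edg · e (.mark n₁) t₁)) =
      (T ν g d).sel (cnt · e (.mark (φ (.inl n₁))) (t₁.map fun n => φ (.inl n)) = 1) := by
    refine Set.Subset.antisymm ?_ ?_
    · rintro _ ⟨x, hx, rfl⟩
      obtain ⟨m, m₁, m₂, j₁, j₂, h1, ⟨y, z, c1, c2, c3, -⟩, -, -, h5⟩ := key x hx
      refine ⟨m, h5, cnt_one.2 ⟨j₁ z, ?_, (emb_end h1.one).2 c3⟩⟩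
      rw [← h1.one.mark_inl, show m₁.p (.inl n₁) = y from c2]
      exact (emb_eg h1.one).2 c1
    · rintro x ⟨m, h1, h2⟩
      obtain ⟨b, c1, c2⟩ := cnt_one.1 h2
      obtain ⟨m₁, m₂, j₁, j₂, h3, -, h4⟩ := exists_split_edge (φ := φ) hst c1 rfl c2
      have h5 : Fx m P (0 + (g + 1) - 1) (edD R e + (d - edD R e)) := by
        rw [show 0 + (g + 1) - 1 = g by ring, add_sub_cancel]
        exact (T ν g d).fx h1
      obtain ⟨h6, h7⟩ := Fx.split h3 h5 (h4.typ hst.src hst.tgt)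
      obtain ⟨a₁, h8⟩ := (T ν₁ _ _).surj h6
      obtain ⟨a₂, h9⟩ := (T ν₂ _ _).surj h7
      exact ⟨(a₁, a₂), ⟨m₁, h8, h4⟩, (T ν g d).inj (hS.pt _ _ _ _ _ _ _ h8 h9 h3) h1⟩
  have hinj : InjOn f (Prod.fst ⁻¹' (T ν₁ 0 (edD R e)).sel (Edg · e (.mark n₁) t₁)) := by
    intro x hx x' hx' hf
    obtain ⟨m, m₁, m₂, j₁, j₂, h1, h2, h3, h4, h5⟩ := key x hx
    obtain ⟨m', m₁', m₂', j₁', j₂', h1', h2', h3', h4', h5'⟩ := key x' hx'
    obtain ⟨e₀, t₀, τ₀, hi⟩ := AM.iso_iff.1 (((T ν g d).iso h5).1 (hf ▸ h5'))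
    have r1 : e₀ '' Set.range j₁ = Set.range j₁' := by
      rw [range_edg h1.one h2, range_edg h1'.one h2', ← hi.mark, (tr_iso hi).cc]
    have r2 : e₀ '' Set.range j₂ = Set.range j₂' := by
      rw [h1.compl.eq_compl, h1'.compl.eq_compl] at r1
      rw [e₀.image_compl] at r1
      exact compl_injective r1
    obtain ⟨e₁, -, i1⟩ := h1.one.isoD h1'.one hi r1
    obtain ⟨e₂, -, i2⟩ := h1.two.isoD h1'.two hi r2
    exact Prod.ext ((T ν₁ _ _).inj (((T ν₁ _ _).iso h3).2 i1.iso) h3')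
      ((T ν₂ _ _).inj (((T ν₂ _ _).iso h4).2 i2.iso) h4')
  have h0 : (T ν₁ 0 (edD R e)).id (Edg · e (.mark n₁) t₁) * ((T ν₁ 0 (edD R e)).ψ n₁ +
      (T ν₁ 0 (edD R e)).evC D n₁ (pe F (chi a c) e)) = 0 := by
    rw [Md.id, ← hE.range]
    refine piece_eq_zero_emb hE.emb.isEmbedding (hE.range ▸ hE.clopen) ?_
    rw [map_add, hE.src n₁ rfl, Md.pbE_evC, hE.ev, pbE_id, neg_add_cancel]
  rw [Md.id, ← him]
  refine piece_eq_zero' hU hinj (him ▸ hc) ?_
  have h1 := congrArg (pbE (ContinuousMap.fst : C(_ × (T ν₂ (g + 1) (d - edD R e)).A, _))) h0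
  rw [map_mul, map_add, map_zero, Md.id, pbE_idE _ hE.clopen, Md.pbE_evC] at h1
  rw [map_add, hS.ψ₁, Md.pbE_evC, hS.ev₁]
  exact h1

theorem eta_aux {A : Type} [TopologicalSpace A] [Nice A] {φ : C(A, (T ν g d).A)}
    {φ' : C(A, (T (ν ⊕ Unit × Bool) g' d).A)} (hN : Nod D (chi a c) _ _ φ φ')
    {t : En (ν ⊕ Unit × Bool)} {Q : AM0 R J _ (ν ⊕ Unit × Bool) → Prop}
    (hc : IsClopen ((T _ g' d).sel Q))
    (hq : ∀ m, Q m → cnt m e (.mark (qq true)) t = 1 ∧ Cm m (qq false) e.src)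
    (h1 : IsClopen ((T _ g' d).sel (cnt · e (.mark (qq true)) t = 1)))
    (h2 : (T _ g' d).id (cnt · e (.mark (qq true)) t = 1) *
      ((T _ g' d).ψ (qq true) + (T _ g' d).evC D (qq true) (pe F (chi a c) e)) = 0) :
    pbE φ' ((T _ g' d).id Q * ((-(T _ g' d).ψ (qq false) - (T _ g' d).ψ (qq true)) *
      -(T _ g' d).sy D (chi a c) (qq false) (.inr e) - 1)) = 0 := by
  have e1 : (T _ g' d).id Q * (T _ g' d).id (cnt · e (.mark (qq true)) t = 1) = (T _ g' d).id Q := by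
    rw [Md.id, Md.id, idE_mul hc h1, Set.inter_eq_left.2]
    exact fun _ ⟨m, u, v⟩ => ⟨m, u, (hq m v).1⟩
  have e2 : (T _ g' d).id Q * (T _ g' d).id (Cm · (qq false) e.src) = (T _ g' d).id Q := by
    rw [Md.id, Md.id, idE_mul hc (h.clopen_cm _ _), Set.inter_eq_left.2]
    exact fun _ ⟨m, u, v⟩ => ⟨m, u, (hq m v).2⟩
  have e3 := h.sy_mul (g := g') (d := d) (qq (ν := ν) false) e
  have e4 : pbE φ' ((T _ g' d).evC D (qq false) (pe F (chi a c) e) -
      (T _ g' d).evC D (qq true) (pe F (chi a c) e)) = 0 := by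
    rw [map_sub, Md.pbE_evC, Md.pbE_evC, hN.node, sub_self]
  exact alg' φ' e1 e2 e3 h2 e4

open Classical in
theorem lc_node (hQ : Sel T Q Q₂) {t : En ν}
    (h1 : IsLocallyConstant ((T (ν ⊕ Unit × Bool) (g - 1) d).cf fun m =>
      if Q _ m then cnt m e (.mark (qq true)) (t.map .inl) else 0))
    (h2 : IsClopen ((T (ν ⊕ Unit × Bool) (g - 1) d).sel
      (cnt · e (.mark (qq true)) (t.map .inl) = 1)))
    (h3 : (T (ν ⊕ Unit × Bool) (g - 1) d).id (cnt · e (.mark (qq true)) (t.map .inl) = 1) *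
      ((T _ (g - 1) d).ψ (qq true) + (T _ (g - 1) d).evC D (qq true) (pe F (chi a c) e)) = 0) :
    IsLocallyConstant ((T ν g d).cf fun m => if Q ν m then cnt m e .node t else 0) := by
  obtain ⟨A, _, _, _, φ, φ', hN⟩ := h.hN ν g (g - 1) d (by ring)
  have i1 : Inv P fun m : AM0 R J _ (ν ⊕ Unit × Bool) =>
      cnt m e (.mark (qq true)) (t.map .inl) = 1 ∧ Q _ m := (inv_cnt 1).and (hQ.inv _)
  have hc : IsClopen ((T (ν ⊕ Unit × Bool) (g - 1) d).sel fun m =>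
      (cnt m e (.mark (qq true)) (t.map .inl) = 1 ∧ Cm m (qq false) e.src) ∧ Q _ m) := by
    rw [Md.sel_congr _ fun m _ => and_right_comm, Md.sel_and _ i1 (inv_cm _ _)]
    exact (clopen_of_lc hQ h1).inter (h.clopen_cm _ _)
  rw [← (T ν g d).cf_congr fun m hm => cntN_flag (Q' := Q _) hm.sol fun n b => hQ.ctp ν m n b]
  refine (hN.eq _ e.src _ (((inv_cnt 1).and (inv_cm _ _)).and (hQ.inv _)) hc
    (fun m b => ⟨b.1.2, ?_⟩) (eta_aux h hN hc (fun m b => b.1) h2 h3)).1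
  obtain ⟨y, u, -⟩ := cnt_one.1 b.1.1
  exact u.ov_src

open Classical in
theorem lc_node_nn (hQ : Sel T Q Q₂) {t : En ν} (ht : t ≠ .node) :
    IsLocallyConstant ((T ν g d).cf fun m => if Q ν m then cnt m e .node t else 0) :=
  lc_node h hQ (lc_nn h hQ mark_ne (map_ne_node ht))
    (clopen_of_lc' (lc_nn h (selT T) mark_ne (map_ne_node ht)))
    (psi_nn h _ (map_ne_node ht))

open Classical in
theorem lc_src (hQ : Sel T Q Q₂) {s : En ν} (hs : s ≠ .node) (t : En ν) :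
    IsLocallyConstant ((T ν g d).cf fun m => if Q ν m then cnt m e s t else 0) := by
  by_cases ht : t = .node
  · rw [ht, (T ν g d).cf_congr (f' := fun m => if Q ν m then cnt m e.rev .node s else 0)
      fun m _ => by rw [cnt_rev]]
    exact lc_node_nn h hQ hs
  · exact lc_nn h hQ hs ht

theorem psi_node (n : ν) : (T ν g d).id (cnt · e (.mark n) .node = 1) *
    ((T ν g d).ψ n + (T ν g d).evC D n (pe F (chi a c) e)) = 0 := by
  have hc : IsClopen ((T ν g d).sel (cnt · e (.mark n) .node = 1)) :=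
    clopen_of_lc' (lc_src h (selT T) mark_ne _)
  obtain ⟨A, _, _, _, φ, φ', hN⟩ := h.hN ν g (g - 1) d (by ring)
  have hc' : IsClopen ((T (ν ⊕ Unit × Bool) (g - 1) d).sel
      (cnt · e (.mark (.inl n)) (.mark (qq true)) = 1)) :=
    clopen_of_lc' (lc_src h (selT T) mark_ne _)
  have key : ∀ x ∈ φ' ⁻¹' (T (ν ⊕ Unit × Bool) (g - 1) d).sel
      (cnt · e (.mark (.inl n)) (.mark (qq true)) = 1), ∃ m n₀, ∃ b : m.Nds n₀,
        (T ν g d).Rp (φ x) m ∧ (T _ (g - 1) d).Rp (φ' x) (ctp m b) ∧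
          Eg m e (m.p (.inl n)) (n₀ ((), true)) := by
    intro x hx
    obtain ⟨m, n₀, b, h1, h2⟩ := hN.pt x
    obtain ⟨y, c1, c2⟩ := cnt_one.1 ((Md.mem_sel _ (inv_cnt 1) h2).1 hx)
    exact ⟨m, n₀, b, h1, h2, (show n₀ ((), true) = y from c2) ▸ (eg_ctp b).1 c1⟩
  have him : φ '' (φ' ⁻¹' (T (ν ⊕ Unit × Bool) (g - 1) d).sel
      (cnt · e (.mark (.inl n)) (.mark (qq true)) = 1)) =
        (T ν g d).sel (cnt · e (.mark n) .node = 1) := by
    refine Set.Subset.antisymm ?_ ?_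
    · rintro _ ⟨x, hx, rfl⟩
      obtain ⟨m, n₀, b, h1, -, h3⟩ := key x hx
      exact ⟨m, h1, cnt_one.2 ⟨_, h3, b.not_sm _⟩⟩
    · rintro x ⟨m, h1, h2⟩
      obtain ⟨y, c1, c2⟩ := cnt_one.1 h2
      obtain ⟨n₀, b, rfl⟩ := exists_nds c2
      obtain ⟨x', rfl, h3⟩ := hN.all x m n₀ b h1
      exact ⟨x', ⟨_, h3, cnt_one.2 ⟨_, (eg_ctp b).2 c1, rfl⟩⟩, rfl⟩
  have hinj : InjOn φ (φ' ⁻¹' (T (ν ⊕ Unit × Bool) (g - 1) d).sel
      (cnt · e (.mark (.inl n)) (.mark (qq true)) = 1)) := by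
    intro x hx x' hx' hf
    obtain ⟨m, n₀, b, h1, h2, h3⟩ := key x hx
    obtain ⟨m', n₀', b', h1', h2', h3'⟩ := key x' hx'
    obtain ⟨e₀, t₀, τ₀, hi⟩ := AM.iso_iff.1 (((T ν g d).iso h1).1 (hf ▸ h1'))
    have r1 : e₀ (n₀ ((), true)) = n₀' ((), true) :=
      eg_snd (hi.mark _ ▸ (tr_iso hi).eg.2 h3) h3'
    have r2 : e₀ (n₀ ((), false)) = n₀' ((), false) :=
      Cv.Jn.unique m'.nd (r1 ▸ (hi.node _ _).1 (b.jn ()).symm) (b'.jn ()).symm
    refine hN.inj ((T _ _ _).inj (((T _ _ _).iso h2).2 (iso_ctp b b' hi ?_).iso) h2')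
    rintro ⟨_, _ | _⟩
    exacts [r2, r1]
  rw [Md.id, ← him]
  refine piece_eq_zero' (hc'.preimage φ'.continuous) hinj (him ▸ hc) ?_
  have h1 := congrArg (pbE φ') (psi_nn h (g := g - 1) (d := d) (e := e) (Sum.inl n)
    (t := .mark (qq true)) mark_ne)
  rw [map_mul, map_add, map_zero, Md.id, pbE_idE _ hc', Md.pbE_evC] at h1
  rw [map_add, hN.ψ, Md.pbE_evC, hN.ev]
  exact h1

end WtB

namespace Hy

variable (h : Hy T D a c ZV ZE)
include h

theorem clopen_cnt (e : Edge (Fin (r + 1))) (n : ν) (t : En ν) :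
    IsClopen ((T ν g d).sel (cnt · e (.mark n) t = 1)) :=
  WtB.clopen_of_lc' (WtB.lc_src h (WtB.selT T) WtB.mark_ne t)

theorem psi_src (e : Edge (Fin (r + 1))) (n : ν) (t : En ν) :
    (T ν g d).id (cnt · e (.mark n) t = 1) *
      ((T ν g d).ψ n + (T ν g d).evC D n (pe F (chi a c) e)) = 0 := by
  by_cases ht : t = .node
  · exact ht ▸ WtB.psi_node h n
  · exact WtB.psi_nn h n ht

/-- the inverse of the tangent class of the smoothing of a node at the source of an edge -/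
theorem eta_src {A : Type} [TopologicalSpace A] [Nice A] {φ : C(A, (T ν g d).A)}
    {φ' : C(A, (T (ν ⊕ Unit × Bool) g' d).A)} (hN : Nod D (chi a c) _ _ φ φ')
    (e : Edge (Fin (r + 1))) (t : En (ν ⊕ Unit × Bool)) {Q : AM0 R J _ (ν ⊕ Unit × Bool) → Prop}
    (hQ : Inv P Q) (hc : IsClopen ((T _ g' d).sel Q))
    (hq : ∀ m, Q m → cnt m e (.mark (qq true)) t = 1 ∧ Cm m (qq false) e.src) :
    pbE φ' ((T _ g' d).id Q * ((-(T _ g' d).ψ (qq false) - (T _ g' d).ψ (qq true)) *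
      -(T _ g' d).sy D (chi a c) (qq false) (.inr e) - 1)) = 0 :=
  have _ := hQ
  WtB.eta_aux h hN hc hq (h.clopen_cnt e _ t) (h.psi_src e _ t)

open Classical in
/-- the number of edges on the selected part is locally constant -/
theorem lc_sel {Q Q₂ : ∀ ν : Type, AM0 R J (Fin (r + 1)) ν → Prop} (hQ : Sel T Q Q₂)
    (e : Edge (Fin (r + 1))) (s t : En ν) :
    IsLocallyConstant ((T ν g d).cf fun m => if Q ν m then cnt m e s t else 0) := by
  by_cases hs : s = .node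
  · exact hs ▸ WtB.lc_node h hQ (WtB.lc_src h hQ WtB.mark_ne _) (h.clopen_cnt e _ _)
      (h.psi_src e _ _)
  · exact WtB.lc_src h hQ hs t

theorem lc_cnt (e : Edge (Fin (r + 1))) (s t : En ν) :
    IsLocallyConstant ((T ν g d).cf (cnt · e s t)) := by
  have h1 := h.lc_sel (g := g) (d := d) (WtB.selT T) e s t
  rwa [(T ν g d).cf_congr (f' := (cnt · e s t))] at h1
  exact fun m _ => if_pos trivial

theorem clopen_vert (s : Finset (Fin (r + 1))) (β) :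
    IsClopen ((T ν g d).sel fun m => Vert m s ∧ vdeg m = β) := by
  classical
  induction s using Finset.induction_on generalizing ν g d β with
  | empty =>
    have e : ∀ m : AM0 R J (Fin (r + 1)) ν, Fx m P g d →
        (Vert m (∅ : Finset (Fin (r + 1))) ∧ vdeg m = β ↔ 2 * g - 2 +
          Fintype.card (Ch.Mk ν (Fin 0)) + ∑ r, P.θ r * d r = 0 ∧ β = 0) := fun m hm => by
      rw [← WtB.empty_iff hm]
      refine ⟨fun ⟨u, v⟩ => ⟨⟨fun z => by simpa using u z⟩, ?_⟩, fun ⟨u, v⟩ => ?_⟩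
      · exact v ▸ funext fun i => u.vdeg hm.sol (by simp)
      · have w : Vert m (∅ : Finset (Fin (r + 1))) := fun z => u.elim z
        exact ⟨w, v ▸ funext fun i => w.vdeg hm.sol (by simp)⟩
    rw [(T ν g d).sel_congr e]
    by_cases q : 2 * g - 2 + Fintype.card (Ch.Mk ν (Fin 0)) + ∑ r, P.θ r * d r = 0 ∧ β = 0
    · simpa only [q, and_self, WtB.sel_true] using isClopen_univ
    · rw [WtB.sel_false _ fun _ _ => q]
      exact isClopen_empty
  | insert i s hi ih =>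
    have key : ∀ (W : Set ν) (g₁ : ℤ), IsClopen ((T ν g d).sel fun m =>
        (Vert m (insert i s : Finset _) ∧ vdeg m = β) ∧ (∀ n, Cm m n i ↔ n ∈ W) ∧
          vgen m i = 2 * g₁ - 2) := fun W g₁ => by
      obtain ⟨f, I, hS⟩ := h.hS ν _ _ (Equiv.sumCompl (· ∈ W)) g g₁ (g - g₁ + 1) d
        (vxD P i (β i)) (d - vxD P i (β i)) (by ring) (by abel)
      have h1 := (T ν g d).isClopen_sel_eq (inv_cntS _ (inv_typ.and inv_vert)
        (inv_vert.and inv_vdeg)) (hS.eq (Vert · {i}) (fun m => Vert m s ∧ vdeg m = update β i 0)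
          inv_vert (inv_vert.and inv_vdeg) (h.hV _ _ _ i).1 (ih _)).1 1
      refine (T ν g d).sel_congr (fun m hm => ?_) ▸ h1
      rw [cntS_vert hm.sol (by simpa using hi) (update_self _ _ _), update_idem, update_eq_self,
        Finset.coe_insert]
      simp [and_assoc]
    have e : ((T ν g d).sel fun m => Vert m (insert i s : Finset _) ∧ vdeg m = β) =
        ⋃ W : Set ν, ⋃ k ∈ {k | ∃ m : AM0 R J _ ν, Fx m P g d ∧ vgen m i = k},
          (T ν g d).sel fun m => (Vert m (insert i s : Finset _) ∧ vdeg m = β) ∧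
            (∀ n, Cm m n i ↔ n ∈ W) ∧ vgen m i = 2 * (k / 2 + 1) - 2 := by
      refine Set.Subset.antisymm ?_ (Set.iUnion_subset fun W => Set.iUnion₂_subset
        fun k _ _ ⟨m, u, v⟩ => ⟨m, u, v.1⟩)
      rintro x ⟨m, u, v⟩
      obtain ⟨k, hk⟩ := v.1.even_vgen ((T ν g d).fx u).sol i
      exact Set.mem_iUnion.2 ⟨{n | Cm m n i}, Set.mem_iUnion₂.2 ⟨vgen m i,
        ⟨m, (T ν g d).fx u, rfl⟩, m, u, v, fun _ => Iff.rfl, by omega⟩⟩
    rw [e]
    exact isClopen_iUnion_of_finite fun W =>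
      (finite_vgen h.goodE ν g d i).isClopen_biUnion fun k _ => key W _

theorem sel_pcs {k : ℕ} {β} (hk : ∀ (ν : Type) [Fintype ν] g d,
    IsClopen ((T ν g d).sel (Pcs k β))) :
    Sel T (fun _ => Pcs (k + 1) β) fun _ => Pcs k β :=
  have _ := h
  ⟨fun _ _ => inv_pcs, fun _ _ => inv_pcs, fun _ _ _ _ b => pcs_ctp b,
    fun _ _ _ _ _ _ _ _ _ _ _ _ _ _ _ u v => (pcs_split u v).symm, hk⟩

theorem clopen_pcs (k : ℕ) (β) : IsClopen ((T ν g d).sel (Pcs k β)) := by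
  induction k generalizing ν g d with
  | zero =>
    refine (T ν g d).sel_congr (fun m hm => ?_) ▸ h.clopen_vert Finset.univ β
    rw [Finset.coe_univ, hm.str.vert, Pcs]
  | succ k ih =>
    classical
    have e : (T ν g d).sel (Pcs (k + 1) β) =
        ⋃ e ∈ {e | ∃ m : AM0 R J _ ν, Fx m P g d ∧ ∃ a b, Eg m e a b}, ⋃ s, ⋃ t,
          ((T ν g d).sel fun m => (if Pcs (k + 1) β m then cnt m e s t else 0) = 0)ᶜ := by
      ext x
      obtain ⟨m, u⟩ := (T ν g d).ex x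
      simp only [Set.mem_iUnion, Set.mem_compl_iff, Md.mem_sel _ inv_pcs u,
        Md.mem_sel _ (inv_pcs.ite inv_cnt 0) u]
      refine ⟨fun v => ?_, fun ⟨_, _, _, _, v⟩ => by_contra fun w => v (if_neg w)⟩
      have h1 : ¬∀ e a b, ¬Eg m e a b := fun w => by
        have := v.1.symm.trans (nfl_eq_zero.2 w)
        omega
      push Not at h1
      obtain ⟨e, y, z, w⟩ := h1
      obtain ⟨s, hs, -⟩ := exists_end y
      obtain ⟨t, ht, -⟩ := exists_end z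
      exact ⟨e, ⟨m, (T ν g d).fx u, y, z, w⟩, s, t, by
        rw [if_pos v]
        exact cnt_ne_zero.2 ⟨y, z, w, hs, ht⟩⟩
    rw [e]
    exact (finite_edge h.goodE ν g d).isClopen_biUnion fun e _ =>
      isClopen_iUnion_of_finite fun s => isClopen_iUnion_of_finite fun t =>
        ((T ν g d).isClopen_sel_eq (inv_pcs.ite inv_cnt)
          (h.lc_sel (h.sel_pcs fun _ _ _ _ => ih) e s t) 0).compl

open Classical in
/-- the weight of `Md.Tf` is locally constant -/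
theorem lc_tf (k : ℕ) (β) (e : Edge (Fin (r + 1))) (s t : En ν) : IsLocallyConstant
    ((T ν g d).cf fun m => if Pcs (k + 1) β m then cnt m e s t else 0) :=
  h.lc_sel (h.sel_pcs fun _ _ _ _ => h.clopen_pcs k β) e s t

end Hy

end Vale.Agent.P269.LG
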